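import Vale.Agent.P297Z.Surf.Sk

/-! The first cohomology of the ideal sheaf of an integral curve. -/

set_option linter.all false

namespace Vale.Agent.P297Z.Sf

open Vale.Agent.P297 (Place)
open IsLocalRing Polynomial

variable {K : Type} [Field K] [Algebra ℂ K] {W : Submodule ℂ K}

/-- The constants, in the valuation ring of a curve. -/
noncomputable def Crv.cst (C : Crv W) : ℂ →+* C.pl.ring :=
  (algebraMap ℂ K).codRestrict C.pl.ring C.const_mem

/-- The functions which are constant along a curve. -/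
noncomputable def Crv.flat (C : Crv W) : Subring K :=
  (((residue C.pl.ring).comp C.cst).range.comap (residue C.pl.ring)).map C.pl.ring.subtype

theorem Crv.mem_flat (C : Crv W) {f : K} : f ∈ C.flat ↔
    ∃ c : ℂ, f - algebraMap ℂ K c = 0 ∨ 0 < C.ord (f - algebraMap ℂ K c) := by
  constructor
  · rintro ⟨a, ⟨c, hc⟩, rfl⟩
    refine ⟨c, (Pl.mem_maximalIdeal_iff C.pl (a - C.cst c)).1 ?_⟩
    rw [← residue_eq_zero_iff, map_sub, sub_eq_zero]
    exact hc.symm
  · rintro ⟨c, hc⟩
    have h1 : f - algebraMap ℂ K c ∈ C.pl.ring := by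
      by_cases h0 : f - algebraMap ℂ K c = 0
      · rw [h0]; exact zero_mem _
      · exact (Pl.ord_nonneg_iff _ h0).1 (hc.resolve_left h0).le
    have h2 : f ∈ C.pl.ring := by simpa using add_mem h1 (C.const_mem c)
    refine ⟨⟨f, h2⟩, ⟨c, ?_⟩, rfl⟩
    have h3 := (Pl.mem_maximalIdeal_iff C.pl (⟨f, h2⟩ - C.cst c)).2 hc
    rw [← residue_eq_zero_iff, map_sub, sub_eq_zero] at h3
    exact h3.symm

theorem Crv.flat_of_integral (C : Crv W) {b : K} (hb : b ∈ C.pl.ring)
    (h : IsIntegral C.flat b) : b ∈ C.flat := by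
  obtain ⟨p, hp, h0⟩ := h
  have hle : ∀ a : C.flat, (a : K) ∈ C.pl.ring := by
    rintro ⟨_, a, -, rfl⟩
    exact a.2
  let j : C.flat →+* C.pl.ring := C.flat.subtype.codRestrict C.pl.ring hle
  let φ := (residue C.pl.ring).comp C.cst
  have h1 : eval₂ j ⟨b, hb⟩ p = 0 := by
    apply Subtype.ext
    exact (hom_eval₂ p j C.pl.ring.subtype ⟨b, hb⟩).trans h0
  have h2 : p.map ((residue C.pl.ring).comp j) ∈ lifts φ := by
    rw [lifts_iff_coeff_lifts]
    intro n
    rw [coeff_map]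
    obtain ⟨a, ⟨c, hc⟩, e⟩ := (p.coeff n).2
    refine ⟨c, hc.trans ?_⟩
    exact congrArg (residue C.pl.ring) (Subtype.ext e)
  obtain ⟨q, h3, -, h4⟩ := lifts_and_degree_eq_and_monic h2 (hp.map _)
  letI := φ.toAlgebra
  have h5 : IsIntegral ℂ (residue C.pl.ring ⟨b, hb⟩) := by
    refine ⟨q, h4, ?_⟩
    change eval₂ φ _ q = 0
    rw [eval₂_eq_eval_map, h3, eval_map, ← hom_eval₂, h1, map_zero]
  obtain ⟨c, hc⟩ := minpoly.mem_range_of_degree_eq_one ℂ _
    (IsAlgClosed.degree_eq_one_of_irreducible ℂ (minpoly.irreducible h5))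
  exact ⟨⟨b, hb⟩, ⟨c, hc⟩, rfl⟩

/-- A function which lies in all the valuation rings of the points of `C` is constant on `C`. -/
theorem Crv.flat_of_val (C : Crv W) {b : K} (hb : b ∈ C.pl.ring)
    (h : ∀ V : ValuationSubring K, (∀ f ∈ C.flat, f ∈ V) → V ≤ C.pl.ring → b ∈ V) :
    b ∈ C.flat := by
  refine C.flat_of_integral hb ?_
  have h1 := iInf_valuationSubring_superset (s := (C.flat : Set K))
  rw [Subring.closure_eq] at h1
  change b ∈ (integralClosure C.flat K).toSubring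
  rw [← h1, Subring.mem_iInf]
  rintro ⟨V, hV⟩
  by_cases hle : V ≤ C.pl.ring
  · exact h V (fun f hf => hV hf) hle
  obtain ⟨v, h2, h3⟩ := Set.not_subset.1 hle
  have v0 : v ≠ 0 := by
    rintro rfl
    exact h3 (zero_mem _)
  have h4 : b / v ∈ C.flat := C.mem_flat.2 ⟨0, by
    rw [map_zero, sub_zero]
    by_cases b0 : b = 0
    · simp [b0]
    right
    have h5 := Pl.ord_nonneg_of_mem _ hb
    have h6 := mt (Pl.ord_nonneg_iff C.pl v0).1 h3
    unfold Crv.ord
    rw [Pl.ord_div _ b0 v0]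
    omega⟩
  have h5 : b / v * v ∈ V := V.mul_mem _ _ (hV h4) h2
  rwa [div_mul_cancel₀ _ v0] at h5

theorem const_mem_secOn (P : Crv W → Prop) (c : ℂ) : algebraMap ℂ K c ∈ secOn P (0 : Div W) :=
  Or.inr fun C _ => by rw [C.ord_const, Finsupp.zero_apply, add_zero]

theorem adj : ADJ := fun K _ _ S hL h0 C f hf => by
  obtain ⟨g, hg⟩ := h0 f fun i j => secOn_mono (fun C' h => ⟨h,
    neg_nonpos.2 (Finsupp.single_nonneg.2 zero_le_one C')⟩) (hf i j)
  have key : ∀ i j, C.In (S.x i) → C.In (S.x j) →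
      f i - f j = 0 ∨ 0 < C.ord (f i - f j) := fun i j hi hj =>
    (hf i j).imp_right fun h => by
      have := h C ⟨hi, hj⟩
      rw [Finsupp.neg_apply, Finsupp.single_eq_same] at this
      omega
  have hch : ∀ i, f i - g ∈ chart S.W (S.x i) := fun i =>
    (hL.sec_chart _ (S.x_mem i) (S.x_ne i) _).1 (hg i)
  obtain ⟨i, hi⟩ := hL.crv_cover C
  obtain ⟨c, hc⟩ := C.mem_flat.1 (C.flat_of_val (hi.chart_mem (hch i)) fun V h1 h2 => by
    have h3 : ∀ c, algebraMap ℂ K c ∈ V := fun c => h1 _ (C.mem_flat.2 ⟨c, Or.inl (sub_self _)⟩)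
    obtain ⟨j, hj⟩ := hL.center V h3
    have h4 : f j - g ∈ V :=
      chart_le (B := { V.toSubring with algebraMap_mem' := h3 }) hj (hch j)
    have h5 : f i - f j ∈ V := h1 _ (C.mem_flat.2 ⟨0, by
      rw [map_zero, sub_zero]
      exact key i j hi ⟨S.x_ne j, fun a ha => h2 (hj a ha)⟩⟩)
    simpa using V.add_mem _ _ h5 h4)
  refine ⟨g + algebraMap ℂ K c, fun j => ?_⟩
  by_cases e0 : f j - (g + algebraMap ℂ K c) = 0
  · exact Or.inl e0
  refine Or.inr fun C' hC' => ?_
  by_cases e : C' = C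
  · subst e
    rw [Finsupp.neg_apply, Finsupp.single_eq_same]
    have h2 : ∀ y : K, (y = 0 ∨ 0 < C'.ord y) →
        y ∈ secOn (fun X => X = C') (-Finsupp.single C' 1) := fun y hy =>
      hy.imp_right fun h X hX => by
        rw [hX, Finsupp.neg_apply, Finsupp.single_eq_same]
        omega
    have h3 := add_mem (h2 _ (key j i hC' hi)) (h2 _ hc)
    rw [show f j - f i + (f i - g - algebraMap ℂ K c) = f j - (g + algebraMap ℂ K c) by ring]
      at h3
    have h4 := h3.resolve_left e0 C' rfl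
    rwa [Finsupp.neg_apply, Finsupp.single_eq_same] at h4
  · have h1 := sub_mem (hg j) (const_mem_secOn _ c)
    rw [sub_sub] at h1
    have h2 := h1.resolve_left e0 C' hC'
    rwa [Finsupp.neg_apply, Finsupp.single_eq_of_ne e, neg_zero]

end Vale.Agent.P297Z.Sf
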