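import Vale.Agent.P297Z.Surf.Basic

/-! Change of chart, centres, values. -/

set_option linter.all false

open IsLocalRing

namespace Vale.Agent.P297Z.Sf

open Vale.Agent.P297 (Place)

variable {K : Type} [Field K] [Algebra ℂ K] {W : Submodule ℂ K}

/-- The centre on `B` of a local algebra `O` which contains `B`. -/
noncomputable def ctr {B O : Subalgebra ℂ K} [IsLocalRing O] (h : B ≤ O) : Ideal B :=
  (maximalIdeal O).comap (Subalgebra.inclusion h)

theorem ctr_isPrime {B O : Subalgebra ℂ K} [IsLocalRing O] (h : B ≤ O) : (ctr h).IsPrime :=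
  Ideal.comap_isPrime _ _

theorem mem_max_iff {O : Subalgebra ℂ K} [IsLocalRing O] (a : O) :
    a ∈ maximalIdeal O ↔ ((a : K) = 0 ∨ (a : K)⁻¹ ∉ O) := by
  rw [mem_maximalIdeal, mem_nonunits_iff, isUnit_iff_inv]
  tauto

theorem mem_ctr {B O : Subalgebra ℂ K} [IsLocalRing O] (h : B ≤ O) (b : B) :
    b ∈ ctr h ↔ ((b : K) = 0 ∨ (b : K)⁻¹ ∉ O) :=
  mem_max_iff (Subalgebra.inclusion h b)

theorem loc_le {B O : Subalgebra ℂ K} {p : Ideal B} (hp : p.IsPrime) (h : B ≤ O)
    (h' : ∀ b : B, b ∉ p → (b : K)⁻¹ ∈ O) : loc B p hp ≤ O := by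
  rintro f ⟨a, b, hb, e⟩
  have : f = a * (b : K)⁻¹ := by rw [← e, mul_inv_cancel_right₀ (ne_zero_of_notMem hb)]
  rw [this]
  exact mul_mem (h a.2) (h' b hb)

theorem loc_ctr_le {B O : Subalgebra ℂ K} [IsLocalRing O] (h : B ≤ O) :
    loc B (ctr h) (ctr_isPrime h) ≤ O :=
  loc_le _ h fun b hb => by
    rw [mem_ctr] at hb
    tauto

theorem ctr_loc (A : Subalgebra ℂ K) (p : Ideal A) (hp : p.IsPrime) :
    ctr (le_loc A p hp) = p := by
  ext b
  rw [mem_ctr]
  by_cases h0 : (b : K) = 0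
  · have : b = 0 := Subtype.ext h0
    simp [this]
  · rw [inv_mem_loc_iff hp h0]
    tauto

theorem loc_congr {A : Subalgebra ℂ K} {p q : Ideal A} (hp : p.IsPrime) (hq : q.IsPrime)
    (h : p = q) : loc A p hp = loc A q hq := by subst h; rfl

theorem loc_anti {A : Subalgebra ℂ K} {p q : Ideal A} (hp : p.IsPrime) (hq : q.IsPrime)
    (h : p ≤ q) : loc A q hq ≤ loc A p hp := by
  rintro f ⟨a, b, hb, e⟩
  exact ⟨a, b, fun h1 => hb (h h1), e⟩

theorem le_of_loc_le {A : Subalgebra ℂ K} {p q : Ideal A} (hp : p.IsPrime) (hq : q.IsPrime)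
    (h : loc A q hq ≤ loc A p hp) : p ≤ q := by
  intro a ha
  by_contra hc
  exact (inv_mem_loc_iff hp (ne_zero_of_notMem hc)).1 (h (inv_mem_loc hq hc)) ha

/-- If `A ≤ loc B (centre)` and `B ≤ loc A p`, the two localisations agree. -/
theorem loc_ctr_eq {A B : Subalgebra ℂ K} {p : Ideal A} (hp : p.IsPrime) (h : B ≤ loc A p hp)
    (h' : A ≤ loc B (ctr h) (ctr_isPrime h)) : loc B (ctr h) (ctr_isPrime h) = loc A p hp := by
  refine le_antisymm (loc_ctr_le h) (loc_le hp h' fun b hb => ?_)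
  obtain ⟨b1, b2, h2, e⟩ := h' b.2
  have hb0 := ne_zero_of_notMem hb
  have h20 := ne_zero_of_notMem h2
  have h1 : b1 ∉ ctr h := by
    rw [mem_ctr, not_or, not_not, ← e]
    refine ⟨mul_ne_zero hb0 h20, ?_⟩
    rw [mul_inv]
    refine mul_mem (inv_mem_loc hp hb) ?_
    rw [mem_ctr] at h2
    tauto
  exact ⟨b2, b1, h1, by rw [← e, inv_mul_cancel_left₀ hb0]⟩

/-- **Change of chart.** A localisation of a chart is the localisation, at the centre, of every
chart which it contains. -/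
theorem loc_chart_eq {w w' : K} (hw : w ∈ W) (hw' : w' ∈ W) (h0 : w ≠ 0) (h0' : w' ≠ 0)
    {P : Ideal (chart W w)} (hP : P.IsPrime) (h : chart W w' ≤ loc _ P hP) :
    loc (chart W w') (ctr h) (ctr_isPrime h) = loc _ P hP := by
  refine loc_ctr_eq hP h (chart_le fun a ha => ?_)
  refine ⟨⟨a / w', div_mem_chart ha⟩, ⟨w / w', div_mem_chart hw⟩, ?_, by
    change a / w * (w / w') = a / w'
    field_simp⟩
  rw [mem_ctr, not_or, not_not]
  refine ⟨div_ne_zero h0 h0', ?_⟩
  change (w / w')⁻¹ ∈ _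
  rw [inv_div]
  exact le_loc _ _ _ (div_mem_chart hw')

theorem chart_le_loc {w w' : K} (hw' : w' ∈ W) (h0 : w ≠ 0) {P : Ideal (chart W w)}
    (hP : P.IsPrime) (h : (⟨w' / w, div_mem_chart hw'⟩ : chart W w) ∉ P) :
    chart W w' ≤ loc _ P hP := by
  refine chart_le fun a ha => ⟨⟨a / w, div_mem_chart ha⟩, _, h, ?_⟩
  have h1 : w' / w ≠ 0 := ne_zero_of_notMem h
  have h2 : w' ≠ 0 := by rintro rfl; simp at h1
  change a / w' * (w' / w) = a / w
  field_simp

theorem loc_change {w w' : K} (hw : w ∈ W) (hw' : w' ∈ W) (h0 : w ≠ 0) {P : Ideal (chart W w)}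
    (hP : P.IsPrime) (h : (⟨w' / w, div_mem_chart hw'⟩ : chart W w) ∉ P) :
    ∃ hle : chart W w' ≤ loc _ P hP,
      loc (chart W w') (ctr hle) (ctr_isPrime hle) = loc _ P hP := by
  have h1 : w' / w ≠ 0 := ne_zero_of_notMem h
  have h2 : w' ≠ 0 := by rintro rfl; simp at h1
  exact ⟨chart_le_loc hw' h0 hP h, loc_chart_eq hw hw' h0 h2 hP _⟩

/-- All elements of the local algebra `O` have a value. -/
def HasVal (O : Subalgebra ℂ K) [IsLocalRing O] : Prop :=
  ∀ f : O, ∃ c : ℂ, f - algebraMap ℂ O c ∈ maximalIdeal O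

theorem isMaximal_of_val {A : Type*} [CommRing A] [Algebra ℂ A] {p : Ideal A} (hp : p ≠ ⊤)
    (h : ∀ a : A, ∃ c : ℂ, a - algebraMap ℂ A c ∈ p) : p.IsMaximal := by
  refine Ideal.isMaximal_iff.2 ⟨(Ideal.ne_top_iff_one p).1 hp, fun J a hJ ha haJ => ?_⟩
  obtain ⟨c, hc⟩ := h a
  have hc0 : c ≠ 0 := by
    rintro rfl
    exact ha (by simpa using hc)
  have h1 : algebraMap ℂ A c ∈ J := by
    have := J.sub_mem haJ (hJ hc)
    simpa using this
  have h2 := J.mul_mem_left (algebraMap ℂ A c⁻¹) h1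
  rwa [← map_mul, inv_mul_cancel₀ hc0, map_one] at h2

theorem val_of_isMaximal {A : Type*} [CommRing A] [Algebra ℂ A] [Algebra.FiniteType ℂ A]
    (m : Ideal A) [hm : m.IsMaximal] (a : A) : ∃ c : ℂ, a - algebraMap ℂ A c ∈ m := by
  letI := Ideal.Quotient.field m
  have h1 : Module.Finite ℂ (A ⧸ m) := finite_of_finite_type_of_isJacobsonRing ℂ (A ⧸ m)
  obtain ⟨c, hc⟩ := (IsAlgClosed.algebraMap_bijective_of_isIntegral (k := ℂ) (K := A ⧸ m)).2
    (Ideal.Quotient.mk m a)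
  refine ⟨c, Ideal.Quotient.eq_zero_iff_mem.1 ?_⟩
  rw [map_sub, ← hc, sub_eq_zero]
  rfl

theorem val_of_gen {A : Type*} [CommRing A] [Algebra ℂ A] {p : Ideal A} {s : Set A}
    (h : ∀ a ∈ s, ∃ c : ℂ, a - algebraMap ℂ A c ∈ p) :
    ∀ a ∈ Algebra.adjoin ℂ s, ∃ c : ℂ, a - algebraMap ℂ A c ∈ p := by
  intro a ha
  induction ha using Algebra.adjoin_induction with
  | mem x hx => exact h x hx
  | algebraMap r => exact ⟨r, by simp⟩
  | add x y _ _ hx hy =>
    obtain ⟨c, hc⟩ := hx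
    obtain ⟨d, hd⟩ := hy
    exact ⟨c + d, by convert p.add_mem hc hd using 1; rw [map_add]; ring⟩
  | mul x y _ _ hx hy =>
    obtain ⟨c, hc⟩ := hx
    obtain ⟨d, hd⟩ := hy
    exact ⟨c * d, by
      convert p.add_mem (p.mul_mem_right y hc) (p.mul_mem_left (algebraMap ℂ A c) hd) using 1
      rw [map_mul]; ring⟩

theorem HasVal.ctr_isMaximal {B O : Subalgebra ℂ K} [IsLocalRing O] (hO : HasVal O) (h : B ≤ O) :
    (ctr h).IsMaximal :=
  isMaximal_of_val (ctr_isPrime h).ne_top fun b => by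
    obtain ⟨c, hc⟩ := hO (Subalgebra.inclusion h b)
    exact ⟨c, hc⟩

theorem hasVal_loc {A : Subalgebra ℂ K} [Algebra.FiniteType ℂ A] (m : Ideal A)
    (hm : m.IsMaximal) : HasVal (loc A m hm.isPrime) := by
  rintro ⟨f, a, b, hb, e⟩
  obtain ⟨c, hc⟩ := val_of_isMaximal m a
  obtain ⟨d, hd⟩ := val_of_isMaximal m b
  have hd0 : d ≠ 0 := by
    rintro rfl
    exact hb (by simpa using hd)
  refine ⟨c / d, ?_⟩
  have h1 : a - algebraMap ℂ A (c / d) * b ∈ m := by
    convert m.sub_mem hc (m.mul_mem_left (algebraMap ℂ A (c / d)) hd) using 1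
    rw [mul_sub, ← map_mul, div_mul_cancel₀ _ hd0]
    ring
  have h2 := (IsLocalization.AtPrime.to_map_mem_maximal_iff (loc A m hm.isPrime) m _).2 h1
  have h3 : algebraMap A (loc A m hm.isPrime) b ∉ maximalIdeal _ := fun h =>
    hb ((IsLocalization.AtPrime.to_map_mem_maximal_iff (loc A m hm.isPrime) m _).1 h)
  refine ((maximalIdeal.isMaximal _).isPrime.mem_or_mem (x := _) (y := algebraMap A _ b) ?_).resolve_right h3
  convert h2 using 1
  apply Subtype.ext
  change (f - algebraMap ℂ K (c / d)) * b = a - algebraMap ℂ K (c / d) * b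
  rw [sub_mul, e]

theorem isMaximal_iff_hasVal {A : Subalgebra ℂ K} [Algebra.FiniteType ℂ A] (p : Ideal A)
    (hp : p.IsPrime) : p.IsMaximal ↔ HasVal (loc A p hp) :=
  ⟨fun hm => hasVal_loc p hm, fun h => by
    have := h.ctr_isMaximal (le_loc A p hp)
    rwa [ctr_loc] at this⟩

theorem chart_finiteType [FiniteDimensional ℂ W] (w : K) : Algebra.FiniteType ℂ (chart W w) := by
  classical
  obtain ⟨s, hs⟩ : W.FG := Module.Finite.iff_fg.1 inferInstance
  refine (Subalgebra.fg_iff_finiteType _).1 ⟨s.image (fun a => a / w), le_antisymm ?_ ?_⟩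
  · refine Algebra.adjoin_le ?_
    intro y hy
    obtain ⟨a, ha, rfl⟩ := Finset.mem_image.1 hy
    exact div_mem_chart (hs ▸ Submodule.subset_span ha)
  · refine chart_le fun a ha => ?_
    rw [← hs] at ha
    induction ha using Submodule.span_induction with
    | mem x hx => exact Algebra.subset_adjoin (Finset.mem_image_of_mem _ hx)
    | zero => simp
    | add x y _ _ hx hy => rw [add_div]; exact add_mem hx hy
    | smul c x _ hx => rw [smul_div_assoc]; exact Subalgebra.smul_mem _ hx c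

theorem pow_div_mem {w : K} {B : Subalgebra ℂ K} (h : ∀ a ∈ W, a / w ∈ B) (n : ℕ) :
    ∀ a ∈ W ^ n, a / w ^ n ∈ B := by
  induction n with
  | zero =>
    intro a ha
    rw [pow_zero, Submodule.mem_one] at ha
    obtain ⟨c, rfl⟩ := ha
    simpa using B.algebraMap_mem c
  | succ n ih =>
    intro a ha
    rw [pow_succ] at ha
    refine Submodule.mul_induction_on ha (fun x hx y hy => ?_) (fun x y hx hy => ?_)
    · rw [pow_succ, ← div_mul_div_comm]
      exact mul_mem (ih x hx) (h y hy)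
    · rw [add_div]
      exact add_mem hx hy

/-- Every element of a chart is a quotient of a form by a power of `w`. -/
theorem exists_pow_of_mem_chart {w : K} (hw : w ∈ W) (h0 : w ≠ 0) {f : K} (hf : f ∈ chart W w) :
    ∃ n₀ : ℕ, ∀ n, n₀ ≤ n → f * w ^ n ∈ W ^ n := by
  have key : ∀ (g : K) (n₀ : ℕ), g * w ^ n₀ ∈ W ^ n₀ → ∀ n, n₀ ≤ n → g * w ^ n ∈ W ^ n := by
    intro g n₀ h n hn
    obtain ⟨k, rfl⟩ := Nat.exists_eq_add_of_le hn
    rw [pow_add, pow_add, ← mul_assoc]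
    exact Submodule.mul_mem_mul h (Submodule.pow_mem_pow W hw k)
  induction hf using Algebra.adjoin_induction with
  | mem x hx =>
    obtain ⟨a, ha, rfl⟩ := hx
    exact ⟨1, key _ 1 (by simpa [h0] using ha)⟩
  | algebraMap r => exact ⟨0, key _ 0 (by simp)⟩
  | add x y _ _ hx hy =>
    obtain ⟨n, hn⟩ := hx
    obtain ⟨m, hm⟩ := hy
    exact ⟨n + m, fun k hk => by
      rw [add_mul]
      exact add_mem (hn k (by omega)) (hm k (by omega))⟩
  | mul x y _ _ hx hy =>
    obtain ⟨n, hn⟩ := hx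
    obtain ⟨m, hm⟩ := hy
    refine ⟨n + m, key _ _ ?_⟩
    rw [pow_add, pow_add, mul_mul_mul_comm]
    exact Submodule.mul_mem_mul (hn n le_rfl) (hm m le_rfl)

theorem loc_isRegularLocalRing {A : Subalgebra ℂ K} [IsRegularRing A] (p : Ideal A)
    (hp : p.IsPrime) : IsRegularLocalRing (loc A p hp) :=
  haveI := IsRegularRing.isRegularLocalRing_localization p
  IsRegularLocalRing.of_ringEquiv
    (IsLocalization.algEquiv p.primeCompl (Localization.AtPrime p) (loc A p hp)).toRingEquiv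

theorem isFractionRing_of_le {A B : Subalgebra ℂ K} [IsFractionRing A K] (h : A ≤ B) :
    IsFractionRing B K := by
  refine IsFractionRing.of_field _ _ fun z => ?_
  obtain ⟨a, b, -, rfl⟩ := IsFractionRing.div_surjective (A := A) z
  exact ⟨⟨a, h a.2⟩, ⟨b, h b.2⟩, rfl⟩

end Vale.Agent.P297Z.Sf
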