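import Vale.Agent.P297Z.Surf.Bl1A
import Vale.Agent.P297Z.Surf.Chart

/-! The blowing up of a point is smooth. -/

set_option linter.all false

open IsLocalRing

namespace Vale.Agent.P297Z.Sf

variable {K : Type} [Field K] [Algebra ℂ K]

namespace Bl1

variable {W : Submodule ℂ K} {x : Pt W} {l w : K}

theorem chart_bl_le {w' : K} {E : Subalgebra ℂ K}
    (h : ∀ v ∈ van x, ∀ a ∈ W, v * a / w' ∈ E) : chart (bl x) w' ≤ E :=
  chart_le fun b hb => Submodule.mul_induction_on hb h fun _ _ h1 h2 => by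
    rw [add_div]; exact add_mem h1 h2

theorem chart_le_bl (hl : l ∈ van x) (h0 : l ≠ 0) (w : K) : chart W w ≤ chart (bl x) (l * w) :=
  chart_le fun a ha => by
    rw [← mul_div_mul_left a w h0]
    exact div_mem_chart (Submodule.mul_mem_mul hl ha)

theorem van_div_mem {v : K} (hv : v ∈ van x) (hw : w ∈ W) (h0 : w ≠ 0) (l : K) :
    v / l ∈ chart (bl x) (l * w) := by
  rw [← mul_div_mul_right v l h0]
  exact div_mem_chart (Submodule.mul_mem_mul hv hw)

theorem fin_bl [FiniteDimensional ℂ W] (x : Pt W) : FiniteDimensional ℂ (bl x) :=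
  have : FiniteDimensional ℂ (van x) := Submodule.finiteDimensional_of_le fun _ h => h.1
  Module.Finite.iff_fg.2 ((Module.Finite.iff_fg.1 this).mul (Module.Finite.iff_fg.1 inferInstance))

/-- Away from the point the local rings do not change. -/
theorem loc_eq_of_unit (hl : l ∈ van x) (hw : w ∈ W) (hl0 : l ≠ 0) (hw0 : w ≠ 0)
    {P : Ideal (chart (bl x) (l * w))} (hP : P.IsPrime) {a : K} (ha : a ∈ van x) (ha0 : a ≠ 0)
    (hu : w / a ∈ loc _ P hP) : ∃ h : chart W w ≤ loc _ P hP,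
      loc _ (ctr h) (ctr_isPrime h) = loc _ P hP := by
  have h := (chart_le_bl hl hl0 w).trans (le_loc _ P hP)
  refine ⟨h, loc_ctr_eq hP h (chart_bl_le fun v hv b hb => ?_)⟩
  refine ⟨⟨v / w * (b / w), mul_mem (div_mem_chart hv.1) (div_mem_chart hb)⟩,
    ⟨l / w, div_mem_chart hl.1⟩, ?_, by
      change v * b / (l * w) * (l / w) = v / w * (b / w)
      field_simp⟩
  rw [mem_ctr, not_or, not_not]
  refine ⟨div_ne_zero hl0 hw0, ?_⟩
  have : (l / w)⁻¹ = w / a * (a / l) := by field_simp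
  change (l / w)⁻¹ ∈ _
  rw [this]
  exact mul_mem hu (le_loc _ P hP (van_div_mem ha hw hw0 l))

variable {S : Surf K} {x : Pt S.W}

theorem exists_sub (hL : S.Loc) (hw : w ∈ S.W) (hx : x.In w) {a : K} (ha : a ∈ S.W) :
    ∃ c : ℂ, a - c • w ∈ van x := by
  obtain ⟨c, hc⟩ := hL.val x _ (hx.2 a ha)
  have h1 := S.W.sub_mem ha (S.W.smul_mem c hw)
  refine ⟨c, mem_van.2 ⟨h1, fun h => (Pt.in_iff hx hw h1).1 h ?_⟩⟩
  rwa [sub_div, smul_div_assoc, div_self hx.1, ← Algebra.algebraMap_eq_smul_one]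

/-- A local algebra in which the forms that vanish at the point vanish dominates the point. -/
theorem dom_of_van (hL : S.Loc) {R : Subalgebra ℂ K} [IsLocalRing R] (hw : w ∈ S.W) (hw0 : w ≠ 0)
    (h : chart S.W w ≤ R) (hv : ∀ a ∈ van x, a ≠ 0 → w / a ∉ R) : x.In w ∧ x.ring ≤ R := by
  have hv' : ∀ a, ∀ ha : a ∈ van x,
      (⟨a / w, div_mem_chart ha.1⟩ : chart S.W w) ∈ ctr h := fun a ha => by
    rw [mem_ctr]
    by_cases h0 : a = 0
    · exact Or.inl (by simp [h0])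
    · exact Or.inr (by simpa using hv a ha h0)
  have hx : x.In w := by
    by_contra hx
    exact hv w (mem_van.2 ⟨hw, hx⟩) hw0 (by rw [div_self hw0]; exact one_mem _)
  obtain ⟨m, hm, e, hm'⟩ := hL.pt_chart x w hw hx
  have hq : ctr h = m := by
    have key : ∀ f : chart S.W w, ∃ c : ℂ, f - algebraMap ℂ _ c ∈ ctr h ⊓ m := fun f => by
      refine val_of_gen (s := Subtype.val ⁻¹' ((fun a => a / w) '' (S.W : Set K))) ?_ f
        (Algebra.adjoin_adjoin_coe_preimage.ge trivial)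
      rintro ⟨_, h1⟩ ⟨a, ha, rfl⟩
      obtain ⟨c, hc⟩ := exists_sub hL hw hx ha
      have e1 : (⟨a / w, h1⟩ : chart S.W w) - algebraMap ℂ _ c =
          ⟨(a - c • w) / w, div_mem_chart hc.1⟩ := Subtype.ext (by
        change a / w - algebraMap ℂ K c = (a - c • w) / w
        rw [sub_div, smul_div_assoc, div_self hw0, ← Algebra.algebraMap_eq_smul_one])
      exact ⟨c, e1 ▸ ⟨hv' _ hc, (hm' _).2 (hc.2 w hw hx)⟩⟩
    have h2 := isMaximal_of_val (p := ctr h ⊓ m)
      (fun e => hm.ne_top (top_le_iff.1 (e ▸ inf_le_right))) key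
    exact (h2.eq_of_le (ctr_isPrime h).ne_top inf_le_left).symm.trans
      (h2.eq_of_le hm.ne_top inf_le_right)
  refine ⟨hx, ?_⟩
  rw [e, ← loc_congr (ctr_isPrime h) _ hq]
  exact loc_ctr_le h

theorem reg_prod (hL : S.Loc) (hR : S.Reg2) (hl : l ∈ van x) (hw : w ∈ S.W) (hl0 : l ≠ 0)
    (hw0 : w ≠ 0) (P : Ideal (chart (bl x) (l * w))) (hP : P.IsPrime) :
    IsRegularLocalRing (loc _ P hP) := by
  by_cases hc : ∃ a ∈ van x, a ≠ 0 ∧ w / a ∈ loc _ P hP
  · obtain ⟨a, ha, ha0, hu⟩ := hc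
    obtain ⟨h, e⟩ := loc_eq_of_unit hl hw hl0 hw0 hP ha ha0 hu
    have := S.model.reg w hw hw0
    exact e ▸ loc_isRegularLocalRing _ _
  push Not at hc
  have hB := le_loc _ P hP
  obtain ⟨hx, hO⟩ := dom_of_van hL hw hw0 ((chart_le_bl hl hl0 w).trans hB) hc
  let s : x.ring := ⟨l / w, hx.2 l hl.1⟩
  have hs : s ∈ maximalIdeal x.ring := (x.mem_max s).2 (hl.2 w hw hx)
  have h0 : (s : K) ≠ 0 := div_ne_zero hl0 hw0
  have hsR : (s : K)⁻¹ ∉ loc _ P hP := by simpa [s] using hc l hl hl0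
  have hd : ∀ v : K, v / w / s = v / l := fun v => div_div_div_cancel_right₀ hw0 v l
  have hm : ∀ g ∈ maximalIdeal x.ring, (g : K) / s ∈ loc _ P hP := by
    obtain ⟨l₁, h1, l₂, h2, s₁, t₁, e1, e2, e3⟩ := hR.gens x w hw hx
    intro g hg
    rw [e3, Ideal.mem_span_pair] at hg
    obtain ⟨a, b, rfl⟩ := hg
    have : ((a * s₁ + b * t₁ : x.ring) : K) / s = a * (l₁ / l) + b * (l₂ / l) := by
      push_cast
      rw [← hd, ← hd, e1, e2, add_div, mul_div_assoc, mul_div_assoc]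
    rw [this]
    exact add_mem (mul_mem (hO a.2) (hB (van_div_mem h1 hw hw0 l)))
      (mul_mem (hO b.2) (hB (van_div_mem h2 hw hw0 l)))
  have hle : ba x.ring s hs ≤ loc _ P hP := ba_le h0 hO hm
  have hs2 : s ∉ maximalIdeal x.ring ^ 2 := fun h => hsR (hle ⟨2, s, h, by field_simp⟩)
  obtain ⟨-, l₂, -, t, -, hst⟩ := hR.ext x w hw hx s hs hs2
  have := S.model.fin
  have := fin_bl x
  have := chart_finiteType (W := bl x) (l * w)
  have : IsNoetherianRing (chart (bl x) (l * w)) := Algebra.FiniteType.isNoetherianRing ℂ _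
  have : IsNoetherianRing (loc _ P hP) := IsLocalization.isNoetherianRing P.primeCompl _ this
  have hB' : chart (bl x) (l * w) ≤ ba x.ring s hs := chart_bl_le fun v hv a ha => by
    have h1 := div_mem_ba (hs := hs) h0 (g := ⟨v / w, hx.2 v hv.1⟩)
      ((x.mem_max _).2 (hv.2 w hw hx))
    rw [hd] at h1
    rw [← div_mul_div_comm]
    exact mul_mem h1 (le_ba (hx.2 a ha))
  refine reg_blow (hs := hs) hst h0 (fun f => ?_) (hR.lead x s t hst) hle hsR ?_
  · obtain ⟨c, hc⟩ := hL.val x f f.2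
    exact ⟨c, (x.mem_max _).2 hc⟩
  · rintro f ⟨a, b, hb, e⟩
    exact ⟨a, hB' a.2, b, hB' b.2, ne_zero_of_notMem hb, inv_mem_loc hP hb, e⟩

theorem exists_van (hL : S.Loc) (hR : S.Reg2) (x : Pt S.W) : ∃ l ∈ van x, l ≠ 0 := by
  obtain ⟨w, hw, hx⟩ := x.exists_in
  obtain ⟨l₁, h1, l₂, h2, s, t, e1, e2, e3⟩ := hR.gens x w hw hx
  by_contra hc
  push Not at hc
  have hs : s = 0 := Subtype.ext (by simp [e1, hc _ h1])
  have ht : t = 0 := Subtype.ext (by simp [e2, hc _ h2])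
  have h3 := maximalIdeal_height_eq_ringKrullDim (R := x.ring)
  rw [hL.dim x, e3, hs, ht] at h3
  simp at h3

/-- Every prime of a chart of the blowing up is seen on a chart given by a product. -/
theorem exists_prod {w' : K} (hw' : w' ∈ bl x) (h0 : w' ≠ 0) {P : Ideal (chart (bl x) w')}
    (hP : P.IsPrime) : ∃ l, ∃ hl : l ∈ van x, ∃ w, ∃ hw : w ∈ S.W,
      (⟨l * w / w', div_mem_chart (Submodule.mul_mem_mul hl hw)⟩ : chart (bl x) w') ∉ P := by
  by_contra hc
  push Not at hc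
  have key : ∀ a ∈ bl x, ∃ b ∈ P, (b : K) = a / w' := fun a ha =>
    Submodule.mul_induction_on ha (fun l hl w hw => ⟨_, hc l hl w hw, rfl⟩) (by
      rintro _ _ ⟨b, hb, e⟩ ⟨c, hc, e'⟩
      exact ⟨b + c, add_mem hb hc, by push_cast; rw [e, e', add_div]⟩)
  obtain ⟨b, hb, e⟩ := key w' hw'
  rw [div_self h0] at e
  exact (Ideal.ne_top_iff_one P).1 hP.ne_top ((show b = 1 from Subtype.ext e) ▸ hb)

end Bl1

open Bl1 in
theorem bl1 (h : MODEL) : BL1 := by
  intro K _ _ S hL hR x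
  have := S.model.fin
  obtain ⟨l, hl, hl0⟩ := exists_van hL hR x
  have hw := S.x_mem 0
  have hw0 := S.x_ne 0
  refine h K (bl x) (fin_bl x) (fun e => mul_ne_zero hl0 hw0 ?_) S.model.td
    ⟨l * S.x 0, Submodule.mul_mem_mul hl hw, ?_⟩ fun w' hw' h0 P hP => ?_
  · exact (Submodule.mem_bot ℂ).1 (e ▸ Submodule.mul_mem_mul hl hw)
  · have := S.model.frac _ hw hw0
    exact isFractionRing_of_le (chart_le_bl hl hl0 _)
  · obtain ⟨l, hl, w, hw, hn⟩ := exists_prod hw' h0 hP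
    obtain ⟨hle, e⟩ := loc_change hw' (Submodule.mul_mem_mul hl hw) h0 hP hn
    have h1 : l * w / w' ≠ 0 := ne_zero_of_notMem hn
    have h2 : l * w ≠ 0 := fun e => h1 (by rw [e, zero_div])
    exact e ▸ reg_prod hL hR hl hw (left_ne_zero_of_mul h2) (right_ne_zero_of_mul h2) _ _

end Vale.Agent.P297Z.Sf
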