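import Vale.Agent.P297Z.Surf.Bl2B

/-! Curves and points of the blowing up of a point. -/

set_option linter.all false

open IsLocalRing

namespace Vale.Agent.P297Z.Sf

open Vale.Agent.P297 (Place)

variable {K : Type} [Field K] [Algebra ℂ K]

namespace Bl

theorem exists_center {W : Submodule ℂ K} {R : Subalgebra ℂ K} [IsLocalRing R] {w : K}
    (hw : w ∈ W) (h0 : w ≠ 0) (h : chart W w ≤ R) (hm : (cen _ R h).IsMaximal) :
    ∃ z : Pt W, z.In w ∧ z.ring ≤ R ∧ ∀ f, z.Van f → Vn R f :=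
  ⟨⟨loc _ _ hm.isPrime, w, hw, h0, _, hm, rfl⟩,
    ⟨h0, fun a ha => le_loc _ _ hm.isPrime (div_mem_chart ha)⟩,
    loc_le hm.isPrime h fun a ha => (mem_cen h a).2 ha,
    fun f hf => vn_of_loc hm.isPrime h (mem_cen h) hf⟩

variable {S : Surf K} (hL : S.Loc) (hR : S.Reg2) (x : Pt S.W)
include hL hR

theorem ov : Ov x.ring :=
  ⟨hR.valu x, by have := hL.reg x; infer_instance, hL.frac x⟩

omit hL in
theorem not_sq {s t : x.ring} (hm : maximalIdeal x.ring = Ideal.span {s, t}) (c d : ℂ)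
    (h : c • t + d • s ∈ maximalIdeal x.ring ^ 2) : c = 0 ∧ d = 0 := by
  have h1 := hR.lead x s t hm 1 (fun i => if i = 0 then c else d) (by
    simpa [Finset.sum_range_succ] using h)
  exact ⟨by simpa using h1 0 (by norm_num), by simpa using h1 1 le_rfl⟩

omit hL in
theorem fst_not_sq {s t : x.ring} (hm : maximalIdeal x.ring = Ideal.span {s, t}) :
    s ∉ maximalIdeal x.ring ^ 2 := fun h =>
  one_ne_zero (not_sq hR x hm 0 1 (by simpa using h)).2

theorem div_not {l w : K} (hl : l ∈ van x) (h0 : l ≠ 0) (hw : w ∈ S.W) (hx : x.In w) :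
    w / l ∉ (ov hL hR x).vr := by
  have h1 := hl.2 w hw hx
  have h2 := (ov hL hR x).inv_not (s := ⟨_, h1.1⟩) ((x.mem_max _).2 h1) (div_ne_zero h0 hx.1)
  rwa [inv_div] at h2

/-- The exceptional curve. -/
theorem exists_exc : ∃ E : Crv (bl x), E.pl.ring = (ov hL hR x).vr ∧
    ∃ s ∈ maximalIdeal x.ring, s ∉ maximalIdeal x.ring ^ 2 := by
  have h := ov hL hR x
  obtain ⟨w, hw, hx⟩ := x.exists_in
  obtain ⟨l₁, hl₁, l₂, hl₂, s, t, hs, ht, hm⟩ := hR.gens x w hw hx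
  have hs1 : s ∈ maximalIdeal x.ring := hm ▸ Ideal.subset_span (by simp)
  have ht1 : t ∈ maximalIdeal x.ring := hm ▸ Ideal.subset_span (by simp)
  have hs2 := fst_not_sq hR x hm
  have hs0 := ne_zero_of_not hs2
  have hl0 : l₁ ≠ 0 := (div_ne_zero_iff.1 (hs ▸ hs0)).1
  have hw0 := hx.1
  let R : Subalgebra ℂ K :=
    { h.vr.toSubring with algebraMap_mem' := fun c => h.le_vr (x.ring.algebraMap_mem c) }
  have hRm : ∀ f, f ∈ R ↔ f ∈ h.vr := fun f => Iff.rfl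
  haveI : IsLocalRing R := inferInstanceAs (IsLocalRing h.vr)
  have hB : chart (bl x) (l₁ * w) ≤ R := chart_bl_le fun l hl w' hw' => by
    have h1 := (hl.2 w hw hx).mul_right (hx.2 w' hw')
    have h2 := (h.div_mem_iff (a := ⟨_, h1.1⟩) (n := 1) (by simpa using hs1) hs2).2
      (by simpa using (x.mem_max ⟨_, h1.1⟩).2 h1)
    have e : l * w' / (l₁ * w) = l / w * (w' / w) / s := by rw [hs]; field_simp
    rw [hRm, e]
    exact h2
  have hp := cen_prime hB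
  have hts : (t : K) / s ∈ chart (bl x) (l₁ * w) := by
    have e : (t : K) / s = l₂ * w / (l₁ * w) := by rw [hs, ht]; field_simp
    rw [e]
    exact div_mem_chart (mul_mem_bl hl₂ hw)
  have hle : loc _ _ hp ≤ R := loc_le hp hB fun a ha => (mem_cen hB a).2 ha
  have hvn : ∀ f, Vn (loc _ _ hp) f → Vn R f := fun f hf => vn_of_loc hp hB (mem_cen hB) hf
  have hO : x.ring ≤ loc _ _ hp := by
    obtain ⟨m, hm', h1, h2⟩ := hL.pt_chart x w hw hx
    rw [h1]
    refine loc_le hm'.isPrime ((chart_le_bl hl₁ hl0).trans (le_loc _ _ hp)) fun a ha => ?_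
    by_contra h3
    rw [h2] at h3
    obtain ⟨h4, h5⟩ := Pt.inv_mem (hx.chart_le a.2) h3
    exact (hvn _ ha).2.elim h4 fun h6 => h6 (h.le_vr h5)
  refine ⟨⟨⟨h.vr, h.dvr hs1 hs2⟩, l₁ * w, mul_mem_bl hl₁ hw, mul_ne_zero hl0 hw0, _, hp,
    fun hmax => ?_, fun f => ⟨?_, fun hf => hle hf⟩⟩, rfl, s, hs1, hs2⟩
  · have := chart_ft (fin_bl S.model.fin x) (l₁ * w)
    obtain ⟨c, hc⟩ := const_of_isMaximal _ hmax ⟨_, hts⟩
    have h1 : Vn R ((t : K) / s - algebraMap ℂ K c) := (mem_cen hB _).1 hc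
    have h2 : (1 : ℂ) • t + (-c) • s ∉ maximalIdeal x.ring ^ 2 := fun h3 =>
      one_ne_zero (not_sq hR x hm _ _ h3).1
    have h3 : (1 : ℂ) • t + (-c) • s ∈ maximalIdeal x.ring ^ 1 := by
      rw [pow_one]
      exact add_mem (Submodule.smul_of_tower_mem _ _ ht1) (Submodule.smul_of_tower_mem _ _ hs1)
    have h4 := (h.div_mem_iff (a := s) h3 h2).2 (by simpa using hs1)
    have h5 := ne_zero_of_not h2
    have e : (t : K) / s - algebraMap ℂ K c = (((1 : ℂ) • t + (-c) • s : x.ring) : K) / s := by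
      push_cast
      rw [one_smul, Algebra.smul_def, map_neg]
      field_simp
      ring
    rw [e] at h1
    refine h1.2.elim (div_ne_zero h5 hs0) fun h6 => h6 ?_
    rw [inv_div]
    exact h4
  · rintro ⟨a, b, n, h1, h2, h3, h4⟩
    have h5 := div_pow_mem hO hm hs0 (le_loc _ _ hp hts) n
    have hb := ne_zero_of_not h3
    have h6 : ¬ Vn (loc _ _ hp) ((b : K) / (s : K) ^ n) := fun h7 => by
      refine (hvn _ h7).2.elim (div_ne_zero hb (pow_ne_zero _ hs0)) fun h8 => h8 ?_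
      rw [inv_div]
      exact (h.div_mem_iff (a := s ^ n) h2 h3).2 (Ideal.pow_mem_pow hs1 n)
    have e : f = a / (s : K) ^ n * ((b : K) / (s : K) ^ n)⁻¹ := by
      rw [← h4]; field_simp
    rw [e]
    exact mul_mem (h5 a h1) (inv_mem (h5 b h2) h6).2

omit hR in
theorem in_crv (C : Crv S.W) : ∃ l ∈ van x, C.In l := by
  obtain ⟨w, hw, hC⟩ := C.exists_in
  obtain ⟨y, ⟨h1, -⟩, h2⟩ := (hL.inf_pt C w hw hC).exists_notMem_finite (Set.finite_singleton x)
  obtain ⟨l, hl, h3⟩ := hL.sep x y fun h => h2 h.symm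
  exact ⟨l, hl, h1.crv_in h3⟩

omit hR in
theorem exists_strict (C : Crv S.W) : ∃ C' : Crv (bl x), C'.pl = C.pl := by
  obtain ⟨l, hl, hC⟩ := in_crv hL x C
  have h := hL.crv_chart C l hl.1 hC
  rw [← chart_bl_sq hl hC.1] at h
  obtain ⟨p, hp, -, h1, h2, -⟩ := h
  exact ⟨⟨C.pl, l * l, mul_mem_bl hl hl.1, mul_ne_zero hC.1 hC.1, p, hp, h1, h2⟩, rfl⟩

/-- A curve of the blowing up whose centre is the point `x`. -/
theorem vr_le_of_dom (C : Crv (bl x)) {w l₁ : K} (hw : w ∈ S.W) (hx : x.In w) (hl₁ : l₁ ∈ van x)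
    {s t : x.ring} (hs : (s : K) = l₁ / w) (hm : maximalIdeal x.ring = Ideal.span {s, t})
    (h1 : x.ring ≤ C.alg) (h2 : ∀ f, x.Van f → Vn C.alg f) (ht : (t : K) / s ∈ C.alg) :
    (ov hL hR x).vr ≤ C.pl.ring := by
  have hs1 : s ∈ maximalIdeal x.ring := hm ▸ Ideal.subset_span (by simp)
  have hs0 := ne_zero_of_not (fst_not_sq hR x hm)
  have hl0 : l₁ ≠ 0 := (div_ne_zero_iff.1 (hs ▸ hs0)).1
  have hw0 := hx.1
  have hval := pt_le_cst S.model.fin x
  intro f hf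
  refine (ov hL hR x).vr_le hval h1 hm hs0 (h2 _ ((x.mem_max s).1 hs1)) ht (fun hc => ?_) hf
  have h3 : x.ring ≤ cst C.alg := fun g hg => by
    obtain ⟨c, hc⟩ := hval hg
    exact ⟨c, h2 _ hc⟩
  refine not_cst C (mul_mem_bl hl₁ hw) (mul_ne_zero hl0 hw0) (chart_bl_le fun l hl w' hw' => ?_)
  have h4 := (hl.2 w hw hx).mul_right (hx.2 w' hw')
  have h5 := div_pow_mem h3 hm hs0 hc 1 ⟨_, h4.1⟩ (by simpa using (x.mem_max ⟨_, h4.1⟩).2 h4)
  have e : l * w' / (l₁ * w) = l / w * (w' / w) / (s : K) ^ 1 := by rw [hs]; field_simp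
  rw [e]
  exact h5

theorem crv_cases (C : Crv (bl x)) :
    (ov hL hR x).vr ≤ C.pl.ring ∨ ∃ C₀ : Crv S.W, C₀.pl = C.pl := by
  obtain ⟨w', hw', hC⟩ := C.exists_in
  obtain ⟨w, hw, h0, h⟩ := exists_chart (R := C.alg) hw' hC.1 (chart_le hC.2)
  by_cases hm : (cen _ _ h).IsMaximal
  · left
    obtain ⟨z, hz, h1, h2⟩ := exists_center hw h0 h hm
    by_cases hzx : x = z
    · subst hzx
      obtain ⟨l₁, hl₁, l₂, hl₂, s, t, hs, ht, hm⟩ := hR.gens x w hw hz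
      rcases C.pl.ring.mem_or_inv_mem ((t : K) / s) with h3 | h3
      · exact vr_le_of_dom hL hR x C hw hz hl₁ hs hm h1 h2 h3
      · rw [inv_div] at h3
        rw [Set.pair_comm] at hm
        exact vr_le_of_dom hL hR x C hw hz hl₂ ht hm h1 h2 h3
    · obtain ⟨l, hl, h3⟩ := hL.sep x z hzx
      refine absurd ?_ (not_cst C (mul_mem_bl hl hl.1) (mul_ne_zero h3.1 h3.1))
      rw [chart_bl_sq hl h3.1]
      intro g hg
      obtain ⟨c, hc⟩ := pt_le_cst S.model.fin z (h3.chart_le hg)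
      exact ⟨c, h2 _ hc⟩
  · right
    have hb : cen _ _ h ≠ ⊥ := fun hb => Pl.ring_ne_top C.pl (by
      rw [eq_top_iff]
      intro f _
      have := S.model.frac w hw h0
      obtain ⟨a, b, hb', rfl⟩ := IsFractionRing.div_surjective (A := chart S.W w) f
      have h1 : ¬ Vn C.alg b := fun h2 =>
        nonZeroDivisors.ne_zero hb' (by rw [← Ideal.mem_bot, ← hb]; exact (mem_cen h b).2 h2)
      rw [div_eq_mul_inv]
      exact C.alg.mul_mem (h a.2) (inv_mem (h b.2) h1).2)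
    obtain ⟨C₀, h1⟩ := hL.crv_of_prime w hw h0 _ (cen_prime h) hb hm
    exact ⟨C₀, Pl.eq_of_le' fun f hf =>
      loc_le (cen_prime h) h (fun a ha => (mem_cen h a).2 ha) ((h1 f).1 hf)⟩

omit hL hR in
theorem exists_dom (y : Pt (bl x)) : ∃ z : Pt S.W, z.ring ≤ y.ring ∧ ∀ f, z.Van f → y.Van f := by
  obtain ⟨w', hw', hy⟩ := y.exists_in
  obtain ⟨w, hw, h0, h⟩ := exists_chart hw' hy.1 hy.chart_le
  have hm : (cen _ _ h).IsMaximal := isMaximal_of_const (cen_prime h).ne_top fun a => by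
    obtain ⟨c, hc⟩ := pt_le_cst (fin_bl S.model.fin x) y (h a.2)
    exact ⟨c, (mem_cen h _).2 hc⟩
  obtain ⟨z, -, h1, h2⟩ := exists_center hw h0 h hm
  exact ⟨z, h1, h2⟩

end Bl

open Bl

theorem bl2 : BL2 := by
  intro K _ _ S hL hR x
  obtain ⟨E, hE, s, hs1, hs2⟩ := exists_exc hL hR x
  choose ι hι using exists_strict hL x
  refine ⟨E, ι, hι, fun C hC => ?_, fun C' => ?_, fun f hf => hE ▸ (ov hL hR x).le_vr hf,
    fun g n hg => (ov hL hR x).le_ord_iff hE hs1 hs2 g n hg, in_crv hL x⟩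
  · obtain ⟨l, hl, h1⟩ := in_crv hL x C
    obtain ⟨w, hw, hx⟩ := x.exists_in
    refine div_not hL hR x hl h1.1 hw hx ?_
    rw [← hE, ← hC, hι]
    exact h1.2 w hw
  · rcases crv_cases hL hR x C' with h | ⟨C, h⟩
    · exact Or.inl (Crv.ext (Pl.eq_of_le' (hE ▸ h)).symm)
    · exact Or.inr ⟨C, Crv.ext ((hι C).trans h)⟩

theorem bl3 : BL3 := by
  intro K _ _ S hL hR x
  choose π h1 h2 using exists_dom x
  refine ⟨π, fun z => ?_, fun y => ⟨h1 y, h2 y⟩⟩
  by_cases hz : x = z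
  · subst hz
    obtain ⟨E, hE, -⟩ := exists_exc hL hR x
    obtain ⟨w', hw', h0, p, hp, -, h⟩ := E.prop
    obtain ⟨m, hm, hpm⟩ := Ideal.exists_le_maximal p hp.ne_top
    refine ⟨⟨loc _ m hm.isPrime, w', hw', h0, m, hm, rfl⟩, ?_⟩
    by_contra hc
    obtain ⟨l, hl, h3⟩ := hL.sep x _ (Ne.symm hc)
    obtain ⟨w, hw, hx⟩ := x.exists_in
    refine div_not hL hR x hl h3.1 hw hx ?_
    obtain ⟨a, b, hb, hab⟩ := h1 _ (h3.2 w hw)
    rw [← hE, h]
    exact ⟨a, b, fun h4 => hb (hpm h4), hab⟩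
  · obtain ⟨l, hl, h3⟩ := hL.sep x z hz
    have h := hL.pt_chart z l hl.1 h3
    rw [← chart_bl_sq hl h3.1] at h
    obtain ⟨m, hm, h4, -⟩ := h
    exact ⟨⟨z.ring, l * l, mul_mem_bl hl hl.1, mul_ne_zero h3.1 h3.1, m, hm, h4⟩,
      hL.pt_ext _ _ (h1 _)⟩

end Vale.Agent.P297Z.Sf
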