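import Vale.Agent.P297Z.Surf.Bl4a

/-! The invariants of the blowing up of a point. -/

set_option linter.all false

open IsLocalRing Polynomial

namespace Vale.Agent.P297Z.Sf

open Vale.Agent.P297 (Place)

variable {K : Type} [Field K] [Algebra ℂ K]

namespace Bl5

open Bl4

theorem div_apply (S : Surf K) (hL : S.Loc) (f : K) (C : Crv S.W) : div S.W f C = C.ord f :=
  toDiv_apply (hL.fin_div f) C

/-- The change of the rational two-form. -/
theorem can_change (S : Surf K) (hL : S.Loc) (hC : S.Can) {u v : K}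
    (h : AlgebraicIndependent ℂ ![u, v]) :
    ∃ c : K, c ≠ 0 ∧ canDiv S.W u v = S.kap + div S.W c := by
  obtain ⟨c, hc, hw⟩ := hC.change _ _ u v S.indep h
  refine ⟨c, hc, ?_⟩
  ext C
  rw [Finsupp.add_apply, div_apply S hL]
  refine (hC.least u v h C).unique ⟨?_, ?_⟩
  · obtain ⟨δ₁, δ₂, h1, h2, h3, h4⟩ := (hC.least _ _ S.indep C).1
    refine ⟨δ₁, δ₂, h1, h2, by rw [hw]; exact mul_ne_zero hc h3, ?_⟩
    rw [hw, Pl.ord_mul _ hc h3, h4]
    exact add_comm _ _
  · rintro k ⟨δ₁, δ₂, h1, h2, h3, h4⟩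
    rw [hw] at h3 h4
    have h5 := right_ne_zero_of_mul h3
    have h6 := (hC.least _ _ S.indep C).2 ⟨δ₁, δ₂, h1, h2, h5, rfl⟩
    rw [Pl.ord_mul _ hc h5] at h4
    unfold Surf.kap Crv.ord
    omega

theorem core (S : Surf K) (hA : S.All) {x : Pt S.W} {E : Crv (bl x)}
    {ι : Crv S.W → Crv (bl x)} (hB : BlData x E ι)
    (hin : ∀ (C : Crv (bl x)), ∀ w ∈ bl x, C.In w → hyp (bl x) C = - C.ord w)
    {u v : K} (huv : AlgebraicIndependent ℂ ![u, v])
    (hleast : ∀ C : Crv (bl x), IsLeast (canSet u v C.pl) (canDiv (bl x) u v C))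
    (hsymm : ∀ D : Div (bl x), chi (canDiv (bl x) u v - D) = chi D)
    (hF : ∀ (D' : Div (bl x)) (D : Div S.W) (s : K), (∀ C, D' (ι C) = D C) → GenAt x D s →
      2 * chi D' = 2 * chi D - (D' E + E.ord s) * (D' E + E.ord s - 1))
    (hG : S.Good) :
    (chi (0 : Div (bl x)) = 1 ∧ H0 (canDiv (bl x) u v) = ⊥) ∧
    inter (canDiv (bl x) u v) (canDiv (bl x) u v) = inter S.kap S.kap - 1 := by
  have hL : S.Loc := hA.toLoc
  have hR : S.Reg2 := hA.toReg2
  obtain ⟨c, hc, hκ⟩ := can_change S hL hA.toCan huv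
  have hι : ∀ C, canDiv (bl x) u v (ι C) = canDiv S.W u v C := fun C => by
    have h1 := hleast (ι C)
    rw [hB.pl] at h1
    exact h1.unique (hA.least u v huv C)
  generalize canDiv (bl x) u v = κ' at *
  generalize canDiv S.W u v = κ at *
  obtain ⟨s, hs⟩ := hL.gen x κ
  have g1 : GenAt x (0 : Div S.W) 1 := ⟨one_ne_zero, fun C _ => by simp⟩
  have e0 : ∀ C, (Finsupp.single E (1 : ℤ)) (ι C) = 0 := fun C =>
    Finsupp.single_eq_of_ne (hB.ne C)
  have f1 := hF 0 0 1 (fun C => rfl) g1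
  have f2 := hF κ' κ s hι hs
  have f3 := hF (Finsupp.single E 1) 0 1 e0 g1
  have f4 := hF (κ' - Finsupp.single E 1) κ s
    (fun C => by rw [Finsupp.sub_apply, e0, hι, sub_zero]) hs
  have f5 := hF (κ' + κ') (κ + κ) (s * s)
    (fun C => by rw [Finsupp.add_apply, Finsupp.add_apply, hι]) (gen_mul hs hs)
  have s1 := hsymm 0
  have s2 := hsymm (Finsupp.single E 1)
  have s3 := hA.symm 0
  have l1 : chi κ = chi S.kap := by rw [hκ]; exact hA.lin _ c hc
  have l2 : chi (κ + κ) = chi (S.kap + S.kap) := by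
    have e : κ + κ = S.kap + S.kap + div S.W c + div S.W c := by rw [hκ]; abel
    rw [e, hA.lin _ c hc, hA.lin _ c hc]
  have o2 : E.ord (s * s) = E.ord s + E.ord s := Pl.ord_mul _ hs.1 hs.1
  rw [sub_zero] at s1 s3
  simp only [Finsupp.coe_zero, Pi.zero_apply, Pl.ord_one, Finsupp.single_eq_same,
    Finsupp.sub_apply, Finsupp.add_apply, o2] at f1 f3 f4 f5
  have ha : κ' E + E.ord s = 1 := by nlinarith
  have hκC : ∀ C, κ C = S.kap C + C.ord c := fun C => by
    rw [hκ, Finsupp.add_apply, div_apply S hL]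
  refine ⟨⟨?_, ?_⟩, ?_⟩
  · have := hG.chi_zero
    linarith
  · rw [eq_bot_iff]
    intro f hf
    by_contra h0
    have h0 : f ≠ 0 := h0
    have h1 : f * c ∈ H0 S.kap := Or.inr fun C _ => by
      have a1 := hf.resolve_left h0 (ι C) trivial
      rw [hι, ord_iota hB, hκC] at a1
      unfold Crv.ord at *
      rw [Pl.ord_mul _ h0 hc]
      omega
    rw [hG.pg] at h1
    exact mul_ne_zero h0 hc h1
  · unfold inter
    have e : κ' E + κ' E + (E.ord s + E.ord s) = 2 := by linarith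
    rw [e] at f5
    linarith

end Bl5

theorem bl5 : BL5 := by
  intro K _ _ S hA x S' h hA' E ι hB hF hG
  obtain ⟨W', h1, y, h2, h3, h4, h5⟩ := S'
  dsimp only at h
  subst h
  obtain ⟨⟨a1, a2⟩, a4⟩ := Bl5.core S hA hB hA'.hyp_in h4 (hA'.least _ _ h4) hA'.symm hF hG
  exact ⟨⟨a1, a2⟩, a4⟩

end Vale.Agent.P297Z.Sf
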