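import Mathlib

/-! A graded submodule of a finitely generated graded module is generated in bounded degrees. -/

set_option linter.all false

open Polynomial

namespace Vale.Agent.P297Z.Sf

section Noeth

variable {k A V ι : Type*} [Field k] [CommRing A] [Algebra k A] [AddCommGroup V] [Module k V]
  [Module A V] [IsScalarTower k A V]

theorem single_ksmul (m : ℕ) (c : k) (z : V) :
    PolynomialModule.single A m (c • z) = c • PolynomialModule.single A m z := by
  rw [← algebraMap_smul A c z, PolynomialModule.single_smul, algebraMap_smul]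

theorem coeff_ksmul (c : k) (p : PolynomialModule A V) (j : ℕ) :
    (c • p).coeff j = c • p.coeff j := by
  have h := (PolynomialModule.coeffLinearEquiv A k (M := V)).map_smul c p
  have h2 : (c • p).coeff = c • p.coeff := h
  rw [h2, Finsupp.smul_apply]

/-- The graded version of the basis theorem. -/
theorem noeth [Finite ι] (x : ι → A) (E : Submodule k V) (hE : E.FG) (Z : ℕ → Submodule k V)
    (h1 : ∀ m, Submodule.span k (Set.range x) • Z m ≤ Z (m + 1))
    (h2 : ∀ m, Z m ≤ Submodule.span k (Set.range x) ^ m • E) :
    ∃ m₁, ∀ m, m₁ ≤ m → Z (m + 1) ≤ Submodule.span k (Set.range x) • Z m := by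
  classical
  set X := Submodule.span k (Set.range x) with hX
  let G : Subalgebra k A[X] := Algebra.adjoin k (Set.range fun i => monomial 1 (x i))
  haveI : IsNoetherianRing G :=
    isNoetherianRing_of_fg (Subalgebra.fg_def.2 ⟨_, Set.finite_range _, rfl⟩)
  obtain ⟨s, hs⟩ := hE
  let N : Submodule G (PolynomialModule A V) :=
    Submodule.span G (PolynomialModule.single A 0 '' (s : Set V))
  have hNfg : N.FG := Submodule.fg_span (s.finite_toSet.image _)
  have hN : ∀ m, ∀ z ∈ X ^ m • E, PolynomialModule.single A m z ∈ N := by
    intro m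
    induction m with
    | zero =>
      intro z hz
      rw [pow_zero, Submodule.one_smul, ← hs] at hz
      induction hz using Submodule.span_induction with
      | mem y hy => exact Submodule.subset_span ⟨y, hy, rfl⟩
      | zero => simpa using N.zero_mem
      | add y y' _ _ a b => rw [PolynomialModule.single_add]; exact N.add_mem a b
      | smul c y _ a => rw [single_ksmul]; exact N.smul_of_tower_mem c a
    | succ m ih =>
      intro z hz
      rw [pow_succ', ← smul_eq_mul, Submodule.smul_assoc] at hz
      refine Submodule.smul_induction_on hz (fun r hr y hy => ?_) (fun y y' a b => ?_)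
      · induction hr using Submodule.span_induction with
        | mem r hr =>
          obtain ⟨i, rfl⟩ := hr
          have e : PolynomialModule.single A (m + 1) (x i • y) =
              (⟨monomial 1 (x i), Algebra.subset_adjoin ⟨i, rfl⟩⟩ : G) •
                PolynomialModule.single A m y := by
            rw [Subalgebra.smul_def, PolynomialModule.monomial_smul_single, add_comm]
          rw [e]
          exact N.smul_mem _ (ih y hy)
        | zero => simpa using N.zero_mem
        | add r r' _ _ a b => rw [add_smul, PolynomialModule.single_add]; exact N.add_mem a b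
        | smul c r _ a => rw [smul_assoc, single_ksmul]; exact N.smul_of_tower_mem c a
      · rw [PolynomialModule.single_add]; exact N.add_mem a b
  let P : ℕ → PolynomialModule A V → Prop := fun n p =>
    (∀ j, p.coeff j ∈ Z j) ∧ ∀ j, n ≤ j → p.coeff (j + 1) ∈ X • Z j
  have Padd : ∀ n p q, P n p → P n q → P n (p + q) := fun n p q a b =>
    ⟨fun j => (Z j).add_mem (a.1 j) (b.1 j), fun j hj => Submodule.add_mem _ (a.2 j hj) (b.2 j hj)⟩
  have Psm : ∀ n, ∀ g ∈ G, ∀ p, P n p → P n (g • p) := by
    intro n g hg
    induction hg using Algebra.adjoin_induction with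
    | mem g hg =>
      obtain ⟨i, rfl⟩ := hg
      intro p hp
      have hx : x i ∈ X := Submodule.subset_span ⟨i, rfl⟩
      have e : ∀ j, (monomial 1 (x i) • p).coeff (j + 1) ∈ X • Z j := by
        intro j
        rw [PolynomialModule.monomial_smul_apply, if_pos (by omega), Nat.add_sub_cancel]
        exact Submodule.smul_mem_smul hx (hp.1 j)
      refine ⟨fun j => ?_, fun j _ => e j⟩
      rcases j with _ | j
      · rw [PolynomialModule.monomial_smul_apply, if_neg (by omega)]
        exact Submodule.zero_mem _
      · exact h1 j (e j)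
    | algebraMap c =>
      intro p hp
      rw [algebraMap_smul]
      exact ⟨fun j => by rw [coeff_ksmul]; exact (Z j).smul_mem c (hp.1 j),
        fun j hj => by rw [coeff_ksmul]; exact Submodule.smul_mem _ c (hp.2 j hj)⟩
    | add g g' _ _ a b => intro p hp; rw [add_smul]; exact Padd n _ _ (a p hp) (b p hp)
    | mul g g' _ _ a b => intro p hp; rw [mul_smul]; exact a _ (b p hp)
  let Q : ℕ → Submodule G (PolynomialModule A V) := fun n =>
    { carrier := {p | P n p}
      zero_mem' := ⟨fun j => (Z j).zero_mem, fun j _ => Submodule.zero_mem _⟩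
      add_mem' := fun a b => Padd n _ _ a b
      smul_mem' := fun g p hp => Psm n g g.2 p hp }
  have Qmono : Monotone Q := fun n n' h p hp => ⟨hp.1, fun j hj => hp.2 j (h.trans hj)⟩
  have QN : ∀ n, Q n ≤ N := by
    intro n p hp
    have e : p = ∑ j ∈ p.coeff.support, PolynomialModule.single A j (p.coeff j) := by
      apply PolynomialModule.ext
      rw [PolynomialModule.coeff_sum]
      exact (Finsupp.sum_single p.coeff).symm
    rw [e]
    exact N.sum_mem fun j _ => hN j _ (h2 j (hp.1 j))
  haveI : IsNoetherian G N := isNoetherian_of_fg_of_noetherian N hNfg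
  obtain ⟨m₁, hm⟩ := monotone_stabilizes_iff_noetherian.2 (inferInstance : IsNoetherian G N)
    ⟨fun n => (Q n).comap N.subtype, fun n n' h => Submodule.comap_mono (Qmono h)⟩
  refine ⟨m₁, fun m hle z hz => ?_⟩
  have a1 : PolynomialModule.single A (m + 1) z ∈ Q (m + 1) := by
    refine ⟨fun j => ?_, fun j hj => ?_⟩
    · rw [PolynomialModule.coeff_single, Finsupp.single_apply]
      split_ifs with h
      · exact h ▸ hz
      · exact (Z j).zero_mem
    · rw [PolynomialModule.coeff_single, Finsupp.single_apply, if_neg (by omega)]
      exact Submodule.zero_mem _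
  have a2 : (⟨_, QN _ a1⟩ : N) ∈ (Q m₁).comap N.subtype := by
    have : (Q m₁).comap N.subtype = (Q (m + 1)).comap N.subtype := hm (m + 1) (by omega)
    rw [this]
    exact a1
  have a3 := (show P m₁ (PolynomialModule.single A (m + 1) z) from a2).2 m hle
  rwa [PolynomialModule.coeff_single, Finsupp.single_eq_same] at a3

/-- The same with integer degrees. -/
theorem noeth_int [Finite ι] (x : ι → A) (E : Submodule k V) (hE : E.FG) (Z : ℤ → Submodule k V)
    (d : ℤ) (h1 : ∀ m, Submodule.span k (Set.range x) • Z m ≤ Z (m + 1))
    (h2 : ∀ m, 0 ≤ m + d → Z m ≤ Submodule.span k (Set.range x) ^ (m + d).toNat • E) :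
    ∃ m₁, ∀ m, m₁ ≤ m → Z (m + 1) ≤ Submodule.span k (Set.range x) • Z m := by
  obtain ⟨m₁, hm⟩ := noeth x E hE (fun n : ℕ => Z (n - d))
    (fun n => by
      have := h1 (n - d)
      rwa [show (n : ℤ) - d + 1 = ((n + 1 : ℕ) : ℤ) - d by push_cast; ring] at this)
    (fun n => by
      have := h2 (n - d) (by omega)
      rwa [show ((n : ℤ) - d + d).toNat = n by omega] at this)
  refine ⟨m₁ - d, fun m hle => ?_⟩
  have := hm (m + d).toNat (by omega)
  rwa [show (((m + d).toNat + 1 : ℕ) : ℤ) - d = m + 1 by omega,
    show (((m + d).toNat : ℕ) : ℤ) - d = m by omega] at this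

end Noeth

end Vale.Agent.P297Z.Sf
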