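import Mathlib

/-! Traces of integral elements and forms of a given degree in three variables. -/

set_option linter.all false

namespace Vale.Agent.P297Z.Sf

variable {K : Type} [Field K] [Algebra ℂ K]

open scoped IntermediateField.algebraAdjoinAdjoin in
/-- The ring generated by independent elements is integrally closed. -/
theorem mem_adjoin_of_integral {ι : Type} (y : ι → K) (hy : AlgebraicIndependent ℂ y) {t : K}
    (ht : t ∈ IntermediateField.adjoin ℂ (Set.range y))
    (hi : IsIntegral (Algebra.adjoin ℂ (Set.range y)) t) :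
    t ∈ Algebra.adjoin ℂ (Set.range y) := by
  haveI : IsIntegrallyClosed (Algebra.adjoin ℂ (Set.range y)) :=
    IsIntegrallyClosed.of_equiv hy.aevalEquiv.toRingEquiv
  have h1 : IsIntegral (Algebra.adjoin ℂ (Set.range y))
      (⟨t, ht⟩ : IntermediateField.adjoin ℂ (Set.range y)) :=
    (isIntegral_algebraMap_iff
      (algebraMap (IntermediateField.adjoin ℂ (Set.range y)) K).injective).1 hi
  obtain ⟨a, ha⟩ := IsIntegrallyClosed.isIntegral_iff.1 h1
  have : (a : K) = t := congrArg Subtype.val ha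
  rw [← this]
  exact a.2

theorem trace_integral (F : IntermediateField ℂ K) [FiniteDimensional F K] (A : Subalgebra ℂ K)
    (hA : A ≤ F.toSubalgebra) {h : K} (hi : IsIntegral A h) :
    IsIntegral A (Algebra.trace F K h : K) := by
  letI : Algebra A F := (Subalgebra.inclusion hA).toAlgebra
  haveI : IsScalarTower A F K := Subalgebra.inclusion.isScalarTower_right hA _
  exact (Algebra.isIntegral_trace (R := A) (L := F) hi).algebraMap (B := K)

section Forms

variable (x : Fin 3 → K)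

theorem exists_poly_of_mem_pow (h0 : x 0 ≠ 0) (N : ℕ) :
    ∀ q ∈ Submodule.span ℂ (Set.range x) ^ N, ∃ Q : MvPolynomial (Fin 2) ℂ,
      Q.totalDegree ≤ N ∧ q = MvPolynomial.aeval ![x 1 / x 0, x 2 / x 0] Q * x 0 ^ N := by
  have h1 : ∀ l ∈ Submodule.span ℂ (Set.range x), ∃ L : MvPolynomial (Fin 2) ℂ,
      L.totalDegree ≤ 1 ∧ l = MvPolynomial.aeval ![x 1 / x 0, x 2 / x 0] L * x 0 := by
    intro l hl
    induction hl using Submodule.span_induction with
    | mem l hl =>
      obtain ⟨i, rfl⟩ := hl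
      fin_cases i
      · exact ⟨1, by simp, by simp⟩
      · exact ⟨MvPolynomial.X 0, by simp, by simp [h0]⟩
      · exact ⟨MvPolynomial.X 1, by simp, by simp [h0]⟩
    | zero => exact ⟨0, by simp, by simp⟩
    | add a b _ _ ha hb =>
      obtain ⟨L, a1, rfl⟩ := ha
      obtain ⟨L', b1, rfl⟩ := hb
      exact ⟨L + L', (MvPolynomial.totalDegree_add _ _).trans (max_le a1 b1), by
        rw [map_add, add_mul]⟩
    | smul c a _ ha =>
      obtain ⟨L, a1, rfl⟩ := ha
      exact ⟨c • L, (MvPolynomial.totalDegree_smul_le _ _).trans a1, by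
        rw [map_smul, smul_mul_assoc]⟩
  induction N with
  | zero =>
    intro q hq
    rw [pow_zero, Submodule.mem_one] at hq
    obtain ⟨c, rfl⟩ := hq
    exact ⟨MvPolynomial.C c, by simp, by simp⟩
  | succ N ih =>
    intro q hq
    rw [pow_succ'] at hq
    refine Submodule.mul_induction_on hq (fun l hl q hq => ?_) ?_
    · obtain ⟨L, a1, rfl⟩ := h1 l hl
      obtain ⟨Q, b1, rfl⟩ := ih q hq
      refine ⟨L * Q, (MvPolynomial.totalDegree_mul _ _).trans (by omega), ?_⟩
      rw [map_mul]; ring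
    · rintro a b ⟨L, a1, rfl⟩ ⟨L', b1, rfl⟩
      exact ⟨L + L', (MvPolynomial.totalDegree_add _ _).trans (max_le a1 b1), by
        rw [map_add, add_mul]⟩

theorem poly_mem_pow (h0 : x 0 ≠ 0) (N : ℕ) (Q : MvPolynomial (Fin 2) ℂ)
    (hQ : Q.totalDegree ≤ N) :
    MvPolynomial.aeval ![x 1 / x 0, x 2 / x 0] Q * x 0 ^ N ∈
      Submodule.span ℂ (Set.range x) ^ N := by
  have hx : ∀ i, x i ∈ Submodule.span ℂ (Set.range x) := fun i => Submodule.subset_span ⟨i, rfl⟩
  rw [Q.as_sum, map_sum, Finset.sum_mul]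
  refine Submodule.sum_mem _ fun d hd => ?_
  have h1 := (MvPolynomial.le_totalDegree hd).trans hQ
  rw [Finsupp.sum_fintype _ _ (fun _ => rfl), Fin.sum_univ_two] at h1
  obtain ⟨e, rfl⟩ := Nat.exists_eq_add_of_le h1
  rw [MvPolynomial.aeval_monomial, Finsupp.prod_fintype _ _ (fun _ => pow_zero _),
    Fin.prod_univ_two]
  have e1 : algebraMap ℂ K (MvPolynomial.coeff d Q) *
      (![x 1 / x 0, x 2 / x 0] 0 ^ d 0 * ![x 1 / x 0, x 2 / x 0] 1 ^ d 1) *
      x 0 ^ (d 0 + d 1 + e) = MvPolynomial.coeff d Q • (x 1 ^ d 0 * x 2 ^ d 1 * x 0 ^ e) := by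
    rw [Algebra.smul_def]
    simp only [Matrix.cons_val_zero, Matrix.cons_val_one, div_pow, pow_add]
    field_simp
  rw [e1, pow_add, pow_add]
  exact Submodule.smul_mem _ _ (Submodule.mul_mem_mul (Submodule.mul_mem_mul
    (Submodule.pow_mem_pow _ (hx 1) _) (Submodule.pow_mem_pow _ (hx 2) _))
    (Submodule.pow_mem_pow _ (hx 0) _))

theorem exists_pow_of_mem_adjoin (X : Submodule ℂ K) {w : K} (hw : w ∈ X) (h0 : w ≠ 0)
    {s : Set K} (hs : ∀ a ∈ s, a * w ∈ X) {a : K} (ha : a ∈ Algebra.adjoin ℂ s) :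
    ∃ N : ℕ, a * w ^ N ∈ X ^ N := by
  induction ha using Algebra.adjoin_induction with
  | mem a ha => exact ⟨1, by simpa using hs a ha⟩
  | algebraMap c => exact ⟨0, by simp⟩
  | add a b _ _ ha hb =>
    obtain ⟨N, a1⟩ := ha
    obtain ⟨N', b1⟩ := hb
    refine ⟨N + N', ?_⟩
    have e : (a + b) * w ^ (N + N') = a * w ^ N * w ^ N' + w ^ N * (b * w ^ N') := by ring
    rw [e, pow_add]
    exact Submodule.add_mem _ (Submodule.mul_mem_mul a1 (Submodule.pow_mem_pow _ hw _))
      (Submodule.mul_mem_mul (Submodule.pow_mem_pow _ hw _) b1)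
  | mul a b _ _ ha hb =>
    obtain ⟨N, a1⟩ := ha
    obtain ⟨N', b1⟩ := hb
    refine ⟨N + N', ?_⟩
    have e : a * b * w ^ (N + N') = a * w ^ N * (b * w ^ N') := by ring
    rw [e, pow_add]
    exact Submodule.mul_mem_mul a1 b1

/-- A rational function on the plane with poles only on the line at infinity, of order at most
`j`, is a form of degree `j`. -/
theorem form_of_two_charts (h0 : x 0 ≠ 0) (h1 : x 1 ≠ 0)
    (hy : AlgebraicIndependent ℂ ![x 1 / x 0, x 2 / x 0]) (t : K) (j : ℤ)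
    (a0 : t ∈ Algebra.adjoin ℂ (Set.range ![x 1 / x 0, x 2 / x 0]))
    (a1 : t * (x 0 / x 1) ^ j ∈ Algebra.adjoin ℂ (Set.range ![x 0 / x 1, x 2 / x 1])) :
    t * x 0 ^ j ∈
      (if 0 ≤ j then Submodule.span ℂ (Set.range x) ^ j.toNat else ⊥ : Submodule ℂ K) := by
  have hx : ∀ i, x i ∈ Submodule.span ℂ (Set.range x) := fun i => Submodule.subset_span ⟨i, rfl⟩
  rw [Algebra.adjoin_range_eq_range_aeval] at a0
  obtain ⟨P, rfl⟩ := a0
  change MvPolynomial.aeval _ P * _ ∈ _
  change MvPolynomial.aeval _ P * _ ∈ _ at a1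
  by_cases hP : P = 0
  · rw [hP, map_zero, zero_mul]; exact Submodule.zero_mem _
  obtain ⟨N, hN⟩ := exists_pow_of_mem_adjoin _ (hx 1) h1 (by
    rintro _ ⟨i, rfl⟩
    fin_cases i
    · simpa [h1] using hx 0
    · simpa [h1] using hx 2) a1
  obtain ⟨Q, b1, b2⟩ := exists_poly_of_mem_pow x h0 N _ hN
  have hX : ∀ n : ℕ, (MvPolynomial.X 0 ^ n : MvPolynomial (Fin 2) ℂ) ≠ 0 := fun n =>
    pow_ne_zero _ (MvPolynomial.X_ne_zero _)
  obtain ⟨n, rfl | rfl⟩ := Int.eq_nat_or_neg j
  · rw [if_pos (by omega), Int.toNat_natCast, zpow_natCast]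
    refine poly_mem_pow x h0 n P ?_
    have e : P * MvPolynomial.X 0 ^ N = MvPolynomial.X 0 ^ n * Q := by
      apply hy
      rw [zpow_natCast] at b2
      simp only [map_mul, map_pow, MvPolynomial.aeval_X, Matrix.cons_val_zero, div_pow] at b2 ⊢
      field_simp at b2 ⊢
      linear_combination b2
    have c1 := MvPolynomial.totalDegree_mul_of_isDomain hP (hX N)
    have c2 := MvPolynomial.totalDegree_mul (MvPolynomial.X 0 ^ n) Q
    rw [e] at c1
    rw [MvPolynomial.totalDegree_X_pow] at c1 c2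
    omega
  · have e : P * MvPolynomial.X 0 ^ (N + n) = Q := by
      apply hy
      rw [zpow_neg, zpow_natCast] at b2
      simp only [map_mul, map_pow, MvPolynomial.aeval_X, Matrix.cons_val_zero, div_pow,
        pow_add] at b2 ⊢
      field_simp at b2 ⊢
      linear_combination b2
    have c1 := MvPolynomial.totalDegree_mul_of_isDomain hP (hX (N + n))
    rw [e, MvPolynomial.totalDegree_X_pow] at c1
    obtain rfl : n = 0 := by omega
    have := poly_mem_pow x h0 0 P (by omega)
    simpa using this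

theorem adjoin_chart0 (h0 : x 0 ≠ 0) : Algebra.adjoin ℂ (Set.range fun j => x j / x 0) =
    Algebra.adjoin ℂ (Set.range ![x 1 / x 0, x 2 / x 0]) := by
  apply le_antisymm
  · refine Algebra.adjoin_le ?_
    rintro _ ⟨i, rfl⟩
    fin_cases i
    · simpa [h0] using one_mem _
    · exact Algebra.subset_adjoin ⟨0, rfl⟩
    · exact Algebra.subset_adjoin ⟨1, rfl⟩
  · refine Algebra.adjoin_le ?_
    rintro _ ⟨i, rfl⟩
    fin_cases i
    · exact Algebra.subset_adjoin ⟨1, rfl⟩
    · exact Algebra.subset_adjoin ⟨2, rfl⟩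

theorem adjoin_chart1 (h1 : x 1 ≠ 0) : Algebra.adjoin ℂ (Set.range fun j => x j / x 1) =
    Algebra.adjoin ℂ (Set.range ![x 0 / x 1, x 2 / x 1]) := by
  apply le_antisymm
  · refine Algebra.adjoin_le ?_
    rintro _ ⟨i, rfl⟩
    fin_cases i
    · exact Algebra.subset_adjoin ⟨0, rfl⟩
    · simpa [h1] using one_mem _
    · exact Algebra.subset_adjoin ⟨1, rfl⟩
  · refine Algebra.adjoin_le ?_
    rintro _ ⟨i, rfl⟩
    fin_cases i
    · exact Algebra.subset_adjoin ⟨0, rfl⟩
    · exact Algebra.subset_adjoin ⟨2, rfl⟩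

theorem field_chart0 : IntermediateField.adjoin ℂ (Set.range ![x 1 / x 0, x 2 / x 0]) =
    IntermediateField.adjoin ℂ {x 1 / x 0, x 2 / x 0} := by
  rw [Matrix.range_cons, Matrix.range_cons, Matrix.range_empty, Set.union_empty]
  rfl

theorem field_chart1 (h0 : x 0 ≠ 0) (h1 : x 1 ≠ 0) :
    IntermediateField.adjoin ℂ (Set.range ![x 0 / x 1, x 2 / x 1]) =
    IntermediateField.adjoin ℂ {x 1 / x 0, x 2 / x 0} := by
  apply le_antisymm
  · rw [IntermediateField.adjoin_le_iff]
    have u : x 1 / x 0 ∈ IntermediateField.adjoin ℂ {x 1 / x 0, x 2 / x 0} :=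
      IntermediateField.subset_adjoin _ _ (by simp)
    have v : x 2 / x 0 ∈ IntermediateField.adjoin ℂ {x 1 / x 0, x 2 / x 0} :=
      IntermediateField.subset_adjoin _ _ (by simp)
    rintro _ ⟨i, rfl⟩
    fin_cases i
    · simpa using inv_mem u
    · have := div_mem v u
      rwa [show x 2 / x 0 / (x 1 / x 0) = x 2 / x 1 by field_simp] at this
  · rw [IntermediateField.adjoin_le_iff]
    have u : x 0 / x 1 ∈ IntermediateField.adjoin ℂ (Set.range ![x 0 / x 1, x 2 / x 1]) :=
      IntermediateField.subset_adjoin _ _ ⟨0, rfl⟩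
    have v : x 2 / x 1 ∈ IntermediateField.adjoin ℂ (Set.range ![x 0 / x 1, x 2 / x 1]) :=
      IntermediateField.subset_adjoin _ _ ⟨1, rfl⟩
    rintro _ (rfl | rfl)
    · have := inv_mem u
      rwa [inv_div] at this
    · have := div_mem v u
      rwa [show x 2 / x 1 / (x 0 / x 1) = x 2 / x 0 by field_simp] at this

theorem indep_of_findim {y : Fin 2 → K} (td : Algebra.trdeg ℂ K = 2)
    (hf : FiniteDimensional (IntermediateField.adjoin ℂ (Set.range y)) K) :
    AlgebraicIndependent ℂ y := by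
  haveI : Algebra.IsAlgebraic (Algebra.adjoin ℂ (Set.range y)) K :=
    IntermediateField.isAlgebraic_adjoin_iff_top.1 inferInstance
  exact (Algebra.IsAlgebraic.isTranscendenceBasis_of_le_trdeg_of_finite ℂ y
    (by rw [td]; simp)).1

end Forms

end Vale.Agent.P297Z.Sf
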