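import Vale.Agent.P297Z.Surf.Sk
import Vale.Agent.P297Z.Surf.FG1
import Vale.Agent.P297Z.Surf.FG2

/-! The modules of sections are finitely generated over the coordinate ring of the plane. -/

set_option linter.all false

namespace Vale.Agent.P297Z.Sf

open Vale.Agent.P297 (Place)

variable {K : Type} [Field K] [Algebra ℂ K]

namespace Surf

variable (S : Surf K)

theorem div_zpow_mem_chart (hL : S.Loc) {j : ℤ} {h : K} (hh : h ∈ M (0 : Div S.W) j) {w : K}
    (hw : w ∈ S.W) (h0 : w ≠ 0) : h / w ^ j ∈ chart S.W w := by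
  rw [← hL.sec_chart w hw h0]
  by_cases h1 : h = 0
  · rw [h1, zero_div]; exact Submodule.zero_mem _
  refine Or.inr fun C hC => ?_
  have a1 := hh.resolve_left h1 C trivial
  have a2 := hL.hyp_in C w hw hC
  rw [zero_add, Finsupp.smul_apply, smul_eq_mul] at a1
  change hyp S.W C = _ at a2
  rw [a2] at a1
  unfold Crv.ord at *
  rw [Pl.ord_div _ h1 (zpow_ne_zero _ h0), Pl.ord_zpow, Finsupp.zero_apply]
  linarith

theorem mem_M_one (hL : S.Loc) {w : K} (hw : w ∈ S.W) : w ∈ M (0 : Div S.W) 1 := by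
  by_cases h1 : w = 0
  · exact Or.inl h1
  refine Or.inr fun C _ => ?_
  obtain ⟨w₀, b1, b2⟩ := C.exists_in
  have a2 := hL.hyp_in C w₀ b1 b2
  change hyp S.W C = _ at a2
  have a3 := Pl.ord_nonneg_of_mem _ (b2.2 w hw)
  rw [Pl.ord_div _ h1 b2.1] at a3
  rw [zero_add, one_smul, a2]
  unfold Crv.ord
  linarith

theorem X_le_W : S.X ≤ S.W := Submodule.span_le.2 (by rintro _ ⟨i, rfl⟩; exact S.x_mem i)

theorem X_mul_M_le (hL : S.Loc) (D : Div S.W) (m : ℤ) : S.X * M D m ≤ M D (m + 1) := by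
  refine Submodule.mul_le.2 fun l hl f hf => ?_
  have := mul_mem_M (S.mem_M_one hL (S.X_le_W hl)) hf
  rwa [zero_add, add_comm] at this

theorem Xp_fg (n : ℤ) : (S.Xp n).FG := by
  unfold Xp
  split_ifs
  · exact (Submodule.fg_span (Set.finite_range _)).pow _
  · exact Submodule.fg_bot

theorem indep1 (hL : S.Loc) : AlgebraicIndependent ℂ ![S.x 0 / S.x 1, S.x 2 / S.x 1] :=
  indep_of_findim S.model.td (by
    rw [field_chart1 S.x (S.x_ne 0) (S.x_ne 1)]
    exact hL.findim)

/-- The trace of a section of `O(j)` is a form of degree `j`. -/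
theorem tr_mem (hL : S.Loc) {j : ℤ} {h : K} (hh : h ∈ M (0 : Div S.W) j) :
    (Algebra.trace S.F K (h / S.x 0 ^ j) : K) * S.x 0 ^ j ∈ S.Xp j := by
  haveI := hL.findim
  have h0 := S.x_ne 0
  have h1 := S.x_ne 1
  have e0 : IntermediateField.adjoin ℂ (Set.range ![S.x 1 / S.x 0, S.x 2 / S.x 0]) = S.F :=
    field_chart0 S.x
  have e1 : IntermediateField.adjoin ℂ (Set.range ![S.x 0 / S.x 1, S.x 2 / S.x 1]) = S.F :=
    field_chart1 S.x h0 h1
  refine form_of_two_charts S.x h0 h1 S.indep _ j ?_ ?_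
  · refine mem_adjoin_of_integral _ S.indep (by rw [e0]; exact Subtype.property _) ?_
    refine trace_integral S.F _ ?_ ?_
    · rw [← e0]; exact IntermediateField.algebra_adjoin_le_adjoin _ _
    · rw [← adjoin_chart0 S.x h0]
      exact hL.int 0 _ (S.div_zpow_mem_chart hL hh (S.x_mem 0) h0)
  · have hc : (S.x 0 / S.x 1) ^ j ∈ S.F := by
      rw [← e1]
      exact zpow_mem (IntermediateField.subset_adjoin _ _ (Set.mem_range_self 0)) j
    have e2 : h / S.x 1 ^ j = (⟨_, hc⟩ : S.F) • (h / S.x 0 ^ j) := by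
      change _ = (S.x 0 / S.x 1) ^ j * _
      have := zpow_ne_zero j h0
      have := zpow_ne_zero j h1
      rw [div_zpow]
      field_simp
    have e3 : (Algebra.trace S.F K (h / S.x 0 ^ j) : K) * (S.x 0 / S.x 1) ^ j =
        (Algebra.trace S.F K (h / S.x 1 ^ j) : K) := by
      rw [e2, map_smul, mul_comm]
      rfl
    rw [e3]
    refine mem_adjoin_of_integral _ (S.indep1 hL) (by rw [e1]; exact Subtype.property _) ?_
    refine trace_integral S.F _ ?_ ?_
    · rw [← e1]; exact IntermediateField.algebra_adjoin_le_adjoin _ _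
    · rw [← adjoin_chart1 S.x h1]
      exact hL.int 1 _ (S.div_zpow_mem_chart hL hh (S.x_mem 1) h1)

/-- A common denominator for finitely many rational functions. -/
theorem exists_denom (hL : S.Loc) {ι : Type} [Finite ι] (b : ι → K) (D : Div S.W) :
    ∃ (d : ℤ) (g : K), g ≠ 0 ∧ ∀ k, g * b k ∈ M D d := by
  haveI := S.model.frac _ (S.x_mem 0) (S.x_ne 0)
  obtain ⟨c, hc⟩ := IsLocalization.exist_integer_multiples_of_finite
    (nonZeroDivisors (chart S.W (S.x 0))) b
  have hc0 : ((c : chart S.W (S.x 0)) : K) ≠ 0 := fun h =>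
    nonZeroDivisors.ne_zero c.2 (Subtype.ext h)
  have h1 : ∀ k, ∃ n₀ : ℕ, ∀ n : ℕ, n₀ ≤ n →
      ((c : chart S.W (S.x 0)) : K) * b k * S.x 0 ^ n ∈ M (0 : Div S.W) n := by
    intro k
    refine hL.sec_mul _ (S.x_mem 0) (S.x_ne 0) 0 _ ?_
    rw [hL.sec_chart _ (S.x_mem 0) (S.x_ne 0)]
    obtain ⟨a, ha⟩ := hc k
    have : (a : K) = ((c : chart S.W (S.x 0)) : K) * b k := ha
    rw [← this]
    exact a.2
  choose n₀ hn using h1
  obtain ⟨n, hn'⟩ := (Set.finite_range n₀).bddAbove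
  obtain ⟨m₀, hm⟩ := hL.gen_sec D
  obtain ⟨p⟩ := hL.pt_ne
  obtain ⟨s, s1, s2, -⟩ := hm m₀ le_rfl p
  refine ⟨m₀ + n, s * (c : chart S.W (S.x 0)) * S.x 0 ^ n,
    mul_ne_zero (mul_ne_zero s2 hc0) (pow_ne_zero _ (S.x_ne 0)), fun k => ?_⟩
  have := mul_mem_M s1 (hn k n (hn' ⟨k, rfl⟩))
  rw [add_zero] at this
  convert this using 1
  ring

/-- The module of sections is contained in a finitely generated graded module. -/
theorem exists_bound (hL : S.Loc) (D : Div S.W) :
    ∃ (d : ℤ) (E : Submodule ℂ K), E.FG ∧ ∀ m, M D m ≤ S.Xp (m + d) * E := by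
  classical
  haveI := hL.findim
  haveI : CharZero S.F := algebraRat.charZero _
  let b := Module.finBasis S.F K
  obtain ⟨d, g, g0, hg⟩ := S.exists_denom hL b (-D)
  refine ⟨d, Submodule.span ℂ (Set.range fun k => b.traceDual k / g),
    Submodule.fg_span (Set.finite_range _), fun m f hf => ?_⟩
  have hz := zpow_ne_zero (m + d) (S.x_ne 0)
  have e1 := b.traceDual.sum_repr (f * g / S.x 0 ^ (m + d))
  have e2 : f = ∑ k, (Algebra.trace S.F K (f * (g * b k) / S.x 0 ^ (m + d)) : K) *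
      S.x 0 ^ (m + d) * (b.traceDual k / g) := by
    have e3 : f = f * g / S.x 0 ^ (m + d) * (S.x 0 ^ (m + d) / g) := by field_simp
    refine e3.trans ?_
    rw [← e1, Finset.sum_mul]
    refine Finset.sum_congr rfl fun k _ => ?_
    rw [Module.Basis.traceDual_repr_apply, Algebra.traceForm_apply,
      show f * g / S.x 0 ^ (m + d) * b k = f * (g * b k) / S.x 0 ^ (m + d) by ring]
    change (_ : K) * _ * _ = _
    ring
  rw [e2]
  refine Submodule.sum_mem _ fun k _ => Submodule.mul_mem_mul ?_ (Submodule.subset_span ⟨k, rfl⟩)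
  refine S.tr_mem hL ?_
  have := mul_mem_M hf (hg k)
  rwa [add_neg_cancel] at this

end Surf

theorem fg : FG := by
  intro K _ _ S hL D
  obtain ⟨d, E, hE, hb⟩ := S.exists_bound hL D
  refine ⟨fun m => ?_, ⟨-d, fun m hm => ?_⟩, ?_⟩
  · haveI : FiniteDimensional ℂ (S.Xp (m + d) * E : Submodule ℂ K) :=
      Module.Finite.iff_fg.2 ((S.Xp_fg _).mul hE)
    exact Submodule.finiteDimensional_of_le (hb m)
  · have := hb m
    rw [Surf.Xp, if_neg (by omega), Submodule.bot_mul] at this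
    exact le_bot_iff.1 this
  · exact noeth_int S.x E hE (M D) d (S.X_mul_M_le hL D) (fun m hm => by
      have := hb m
      rwa [Surf.Xp, if_pos hm] at this)

end Vale.Agent.P297Z.Sf
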