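import Vale.Agent.P297Z.Surf.Sk
import Vale.Agent.P297Z.Gr.Chi

/-! The Hilbert polynomial of a divisor. -/

set_option linter.unusedSectionVars false

namespace Vale.Agent.P297Z.Gr

open MvPolynomial

theorem aeval_scale {A : Type} [CommRing A] [Algebra ℂ A] (y : Fin 3 → A) (c : A) (n : ℕ) :
    ∀ t ∈ Tz n, aeval (fun i => c * y i) t = c ^ n * aeval y t := by
  induction n with
  | zero =>
    intro t ht
    rw [eq_C ht]
    simp
  | succ n ih =>
    intro t ht
    obtain ⟨g, hg, rfl⟩ := exists_X_sum (by omega) ht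
    rw [map_sum, map_sum, Finset.mul_sum]
    refine Finset.sum_congr rfl fun i _ => ?_
    rw [map_mul, map_mul, aeval_X, aeval_X, ih (g i) (by simpa using hg i)]
    ring

theorem deh_inj {n : ℕ} {t : T} (ht : t ∈ Tz n)
    (h : aeval (![1, X 0, X 1] : Fin 3 → MvPolynomial (Fin 2) ℂ) t = 0) : t = 0 := by
  have h1 : X 0 * t = 0 := by
    apply MvPolynomial.funext
    intro p
    rw [map_mul, eval_X, map_zero]
    by_cases hp : p 0 = 0
    · rw [hp, zero_mul]
    · have h2 := congrArg (aeval (![p 1 / p 0, p 2 / p 0] : Fin 2 → ℂ)) h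
      rw [map_zero, ← AlgHom.comp_apply, comp_aeval] at h2
      have h3 := aeval_scale (fun i => aeval (![p 1 / p 0, p 2 / p 0] : Fin 2 → ℂ)
        ((![1, X 0, X 1] : Fin 3 → MvPolynomial (Fin 2) ℂ) i)) (p 0) n t ht
      rw [h2, mul_zero] at h3
      have h4 : (fun i => p 0 * aeval (![p 1 / p 0, p 2 / p 0] : Fin 2 → ℂ)
          ((![1, X 0, X 1] : Fin 3 → MvPolynomial (Fin 2) ℂ) i)) = p := by
        funext i
        fin_cases i <;> simp [mul_div_cancel₀ _ hp]
      rw [h4] at h3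
      rw [← coe_aeval_eq_eval]
      change p 0 * aeval p t = 0
      rw [h3, mul_zero]
  exact (mul_eq_zero.1 h1).resolve_left (X_ne_zero 0)

variable {V : Type} [AddCommGroup V] [Module ℂ V] [Module T V] [IsScalarTower ℂ T V]

theorem FG.of_mm {M : ℤ → Submodule ℂ V} (hfin : ∀ m, Module.Finite ℂ (M m)) {lo hi : ℤ}
    (hlo : ∀ m < lo, M m = ⊥) (hhi : ∀ m, hi ≤ m → M (m + 1) ≤ mm M (m + 1)) : FG M := by
  classical
  let ι : Type := Σ m : Finset.Icc lo hi, Fin (Module.finrank ℂ (M m))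
  refine ⟨ι, inferInstance, fun p => p.1, fun p => (Module.finBasis ℂ (M p.1) p.2).1,
    fun p => (Module.finBasis ℂ (M p.1) p.2).2, ?_⟩
  refine int_ind lo (fun m hm x hx => ⟨0, zero_mem _, ?_⟩) fun m ih x hx => ?_
  · rw [hlo m hm, Submodule.mem_bot] at hx
    rw [hx, map_zero]
  · rcases lt_or_ge hi m with h | h
    · obtain ⟨z, h1, rfl⟩ := hhi (m - 1) (by omega) (by rwa [sub_add_cancel])
      choose w hw hw' using fun i => ih (z i) (by simpa using h1 i)
      refine ⟨∑ i, (X i : T) • w i, sum_mem fun i _ =>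
        (stab_Fr _).smul (X_mem i) (hw i) (by ring), ?_⟩
      rw [map_sum]
      simp only [map_smul, hw']
    · rcases lt_or_ge m lo with h' | h'
      · rw [hlo m h', Submodule.mem_bot] at hx
        exact ⟨0, zero_mem _, by rw [hx, map_zero]⟩
      · let m' : Finset.Icc lo hi := ⟨m, Finset.mem_Icc.2 ⟨h', h⟩⟩
        let b := Module.finBasis ℂ (M m)
        refine ⟨∑ j, b.repr ⟨x, hx⟩ j • Pi.single (⟨m', j⟩ : ι) 1, sum_mem fun j _ =>
          Submodule.smul_mem _ _ (single_mem_Fr (fun p : ι => (p.1 : ℤ)) ⟨m', j⟩), ?_⟩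
        rw [map_sum]
        simp only [lc_csmul, lc_single]
        have h2 := congrArg Subtype.val (b.sum_repr ⟨x, hx⟩)
        rw [AddSubmonoidClass.coe_finsetSum] at h2
        exact h2

end Vale.Agent.P297Z.Gr

namespace Vale.Agent.P297Z.Sf

open Gr MvPolynomial Filter

variable {K : Type} [Field K] [Algebra ℂ K]

theorem mem_M' {W : Submodule ℂ K} {D : Div W} {m : ℤ} {f : K} :
    f ∈ M D m ↔ f = 0 ∨ ∀ C, 0 ≤ C.ord f + D C + m * hyp W C := by
  refine or_congr_right (forall_congr' fun C => ?_)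
  simp only [true_implies, Finsupp.add_apply, Finsupp.smul_apply, smul_eq_mul, add_assoc]

theorem h0_eq {W : Submodule ℂ K} (D : Div W) (m : ℤ) :
    h0 (D + m • hyp W) = Module.finrank ℂ (M D m) := rfl

theorem chi_eq_of {W : Submodule ℂ K} {D : Div W} {χ : ℤ → ℤ}
    (h1 : ∃ A B C : ℤ, ∀ m, 2 * χ m = A * m ^ 2 + B * m + C)
    (h2 : ∃ m₀ : ℤ, ∀ m, m₀ ≤ m → χ m = Module.finrank ℂ (M D m)) (m : ℤ) :
    chi (D + m • hyp W) = χ m := by
  obtain ⟨A, B, C, h1⟩ := h1
  obtain ⟨m₀, h2⟩ := h2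
  have h3 : ∀ᶠ k : ℤ in atTop, 3 * h0 (D + m • hyp W + k • hyp W) -
      3 * h0 (D + m • hyp W + (2 * k) • hyp W) + h0 (D + m • hyp W + (3 * k) • hyp W) = χ m := by
    filter_upwards [eventually_ge_atTop (max 0 (m₀ - m))] with k hk
    have h4 := le_max_left 0 (m₀ - m)
    have h5 := le_max_right 0 (m₀ - m)
    simp only [add_assoc, ← add_smul, h0_eq]
    rw [← h2 _ (by omega), ← h2 _ (by omega), ← h2 _ (by omega)]
    have h6 := h1 m
    have h7 := h1 (m + k)
    have h8 := h1 (m + 2 * k)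
    have h9 := h1 (m + 3 * k)
    nlinarith
  have h4 := Classical.epsilon_spec (p := fun c : ℤ => ∀ᶠ k : ℤ in atTop,
    3 * h0 (D + m • hyp W + k • hyp W) - 3 * h0 (D + m • hyp W + (2 * k) • hyp W) +
      h0 (D + m • hyp W + (3 * k) • hyp W) = c) ⟨_, h3⟩
  obtain ⟨k, h5, h6⟩ := (h3.and h4).exists
  exact h6.symm.trans h5

namespace Surf

variable (S : Surf K)

theorem aeval_inj {d : ℤ} {t : T} (ht : t ∈ Tz d) (h : aeval S.x t = 0) : t = 0 := by
  rcases lt_or_ge d 0 with h1 | h1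
  · exact eq_zero_of_neg h1 ht
  obtain ⟨n, rfl⟩ := Int.eq_ofNat_of_zero_le h1
  refine deh_inj ht (S.indep ?_)
  rw [map_zero, ← AlgHom.comp_apply, comp_aeval]
  have h2 := aeval_scale S.x (S.x 0)⁻¹ n t ht
  rw [h, mul_zero] at h2
  rw [← h2]
  congr 2
  funext i
  fin_cases i <;> simp [S.x_ne 0, div_eq_inv_mul]

theorem hs_x_mem (i : Fin 3) : S.x i ∈ S.X := Submodule.subset_span ⟨i, rfl⟩

theorem hs_X_le : S.X ≤ S.W := Submodule.span_le.2 (by rintro _ ⟨i, rfl⟩; exact S.x_mem i)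

variable {S}

theorem hs_mem_one (hL : S.Loc) {w : K} (hw : w ∈ S.W) : w ∈ M (0 : Div S.W) 1 := by
  rw [mem_M']
  by_cases h0 : w = 0
  · exact Or.inl h0
  refine Or.inr fun C => ?_
  obtain ⟨w₀, hw₀, h⟩ := C.exists_in
  have h1 := Pl.ord_nonneg_of_mem _ (h.2 w hw)
  rw [Pl.ord_div _ h0 h.1] at h1
  have h2 := hL.hyp_in C w₀ hw₀ h
  simp only [Finsupp.coe_zero, Pi.zero_apply, Crv.ord, H] at h2 ⊢
  omega

theorem hs_mul_mem (hL : S.Loc) {w : K} (hw : w ∈ S.W) {D : Div S.W} {m : ℤ} {f : K}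
    (hf : f ∈ M D m) : w * f ∈ M D (m + 1) := by
  have h := mul_mem_M (hs_mem_one hL hw) hf
  rwa [zero_add, add_comm] at h

theorem div_mem_M (hL : S.Loc) {l₀ l₁ : K} (h0 : l₀ ∈ S.X) (h1 : l₁ ∈ S.X)
    (hl : LinearIndependent ℂ ![l₀, l₁]) {D : Div S.W} {m : ℤ} {f f' : K} (hf : f ∈ M D m)
    (hf' : f' ∈ M D m) (h : l₁ * f = l₀ * f') : f / l₀ ∈ M D (m - 1) := by
  have n0 : l₀ ≠ 0 := hl.ne_zero 0
  have n1 : l₁ ≠ 0 := hl.ne_zero 1
  by_cases hf0 : f = 0
  · rw [hf0, zero_div]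
    exact zero_mem _
  have hf1 : f' ≠ 0 := by
    rintro rfl
    exact mul_ne_zero n1 hf0 (by rw [h, mul_zero])
  rw [mem_M'] at hf hf' ⊢
  refine Or.inr fun C => ?_
  rcases hL.two l₀ h0 l₁ h1 hl C with hC | hC
  · have h2 := hL.hyp_in C _ (S.hs_X_le h0) hC
    have h3 := hf.resolve_left hf0 C
    simp only [Crv.ord, H] at h2 h3 ⊢
    rw [Pl.ord_div _ hf0 n0, sub_mul]
    omega
  · have h2 := hL.hyp_in C _ (S.hs_X_le h1) hC
    have h3 := hf'.resolve_left hf1 C
    have h4 : f / l₀ = f' / l₁ := by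
      field_simp
      linear_combination h
    simp only [Crv.ord, H] at h2 h3 ⊢
    rw [h4, Pl.ord_div _ hf1 n1, sub_mul]
    omega

variable (S) in
/-- The structure of algebra over the coordinate ring of the plane. -/
@[reducible] noncomputable def alg : Algebra T K := (aeval S.x : T →ₐ[ℂ] K).toRingHom.toAlgebra

variable (S) in
/-- The polynomials act through the three linear forms. -/
def Act [Module T K] : Prop := ∀ (t : T) (f : K), t • f = aeval S.x t * f

variable (S) in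
theorem exists_act : ∃ (_ : Module T K) (_ : IsScalarTower ℂ T K), S.Act := by
  let _ := S.alg
  exact ⟨inferInstance, IsScalarTower.of_algebraMap_eq fun c =>
    ((aeval S.x : T →ₐ[ℂ] K).commutes c).symm, fun _ _ => rfl⟩

variable [Module T K] [IsScalarTower ℂ T K]

theorem stab (hA : S.Act) (hL : S.Loc) (D : Div S.W) : Stab (M D) := by
  intro i m f hf
  rw [hA, aeval_X]
  exact hs_mul_mem hL (S.x_mem i) hf

theorem fg_M (hA : S.Act) (hF : S.Fg) (D : Div S.W) : Gr.FG (M D) := by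
  obtain ⟨h1, ⟨lo, h2⟩, hi, h3⟩ := hF D
  refine FG.of_mm h1 h2 fun m hm => (h3 m hm).trans (Submodule.mul_le.2 fun l hl f hf => ?_)
  obtain ⟨c, rfl⟩ := (Submodule.mem_span_range_iff_exists_fun ℂ).1 hl
  refine ⟨fun i => c i • f, fun i => Submodule.smul_mem _ _ (by rwa [add_sub_cancel_right]), ?_⟩
  rw [Finset.sum_mul]
  refine Finset.sum_congr rfl fun i _ => ?_
  rw [hA, aeval_X, smul_mul_assoc, mul_smul_comm]

theorem regAll (hA : S.Act) (hL : S.Loc) (D : Div S.W) : RegAll (M D) := by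
  intro i j k hij hik hjk α β
  have hX : ∀ (j : Fin 3) (α : ℂ), aeval S.x (MvPolynomial.X j - C α * MvPolynomial.X i : T) ∈ S.X :=
    fun j α => by
      rw [map_sub, map_mul, aeval_X, aeval_X, aeval_C, ← Algebra.smul_def]
      exact sub_mem (S.hs_x_mem j) (Submodule.smul_mem _ _ (S.hs_x_mem i))
  have hl : LinearIndependent ℂ ![aeval S.x (MvPolynomial.X j - C α * MvPolynomial.X i : T),
      aeval S.x (MvPolynomial.X k - C β * MvPolynomial.X i : T)] := by
    rw [LinearIndependent.pair_iff]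
    intro s t hst
    rw [← map_smul, ← map_smul, ← map_add] at hst
    have h1 := S.aeval_inj (add_mem (Submodule.smul_mem _ s (lin_mem i j α))
      (Submodule.smul_mem _ t (lin_mem i k β))) hst
    have h2 := congrArg (eval (Pi.single j 1)) h1
    have h3 := congrArg (eval (Pi.single k 1)) h1
    simp [hij, hik, hjk, hjk.symm] at h2 h3
    exact ⟨h2, h3⟩
  have n0 : aeval S.x (MvPolynomial.X j - C α * MvPolynomial.X i : T) ≠ 0 := hl.ne_zero 0
  refine ⟨fun m f _ h => ?_, fun m f hf f' hf' h => ?_⟩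
  · rw [hA] at h
    exact (mul_eq_zero.1 h).resolve_left n0
  · rw [hA, hA] at h
    refine ⟨_, div_mem_M hL (hX j α) (hX k β) hl hf hf' h, ?_⟩
    rw [hA, mul_div_cancel₀ _ n0]

end Surf

theorem hilb : HILB := fun K _ _ S hL hF => by
  obtain ⟨_, _, hA⟩ := S.exists_act
  constructor
  · intro D
    obtain ⟨χ, h1, h2, -⟩ := exists_chi (Surf.stab hA hL D) (Surf.fg_M hA hF D) (Surf.regAll hA hL D)
    obtain ⟨m₀, h3⟩ := h2
    exact ⟨m₀, fun m hm => by rw [chi_eq_of h1 ⟨m₀, h3⟩, h3 m hm, h0_eq]⟩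
  · intro D
    obtain ⟨χ, h1, h2, -⟩ := exists_chi (Surf.stab hA hL D) (Surf.fg_M hA hF D) (Surf.regAll hA hL D)
    have e0 := chi_eq_of h1 h2 0
    have e1 := chi_eq_of h1 h2 1
    have e2 := chi_eq_of h1 h2 (2 : ℕ)
    have e3 := chi_eq_of h1 h2 (3 : ℕ)
    rw [zero_smul, add_zero] at e0
    rw [one_smul] at e1
    rw [natCast_zsmul] at e2 e3
    rw [e0, e1, e2, e3]
    obtain ⟨A, B, C, h1⟩ := h1
    have h6 := h1 0
    have h7 := h1 1
    have h8 := h1 2
    have h9 := h1 3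
    push_cast
    linarith

end Vale.Agent.P297Z.Sf
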