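import Vale.Agent.P297Z.Surf.Sk

/-! A graded submodule of a finitely generated graded module is finitely generated. -/

set_option linter.all false

open Polynomial

namespace Vale.Agent.P297Z.Sf

namespace Mu

variable {K : Type} [Field K] [Algebra ℂ K]

/-- The ring generated by the elements `x i * T`. -/
noncomputable def rees (x : Fin 3 → K) : Subalgebra ℂ K[X] :=
  Algebra.adjoin ℂ (Set.range fun i => monomial 1 (x i))

theorem rees_noeth (x : Fin 3 → K) : IsNoetherianRing (rees x) :=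
  isNoetherianRing_of_fg (Subalgebra.fg_def.2 ⟨_, Set.finite_range _, rfl⟩)

theorem monomial_mem_rees (x : Fin 3 → K) {a : K} (ha : a ∈ Submodule.span ℂ (Set.range x)) :
    monomial 1 a ∈ rees x := by
  induction ha using Submodule.span_induction with
  | mem a h =>
    obtain ⟨i, rfl⟩ := h
    exact Algebra.subset_adjoin ⟨i, rfl⟩
  | zero => simp
  | add a b _ _ h1 h2 => rw [map_add]; exact add_mem h1 h2
  | smul c a _ h => rw [← smul_monomial]; exact Subalgebra.smul_mem _ h c

/-- A subspace stable under the generators is a submodule. -/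
noncomputable def toSub (x : Fin 3 → K) (V : Submodule ℂ K[X])
    (h : ∀ i, ∀ p ∈ V, monomial 1 (x i) * p ∈ V) : Submodule (rees x) K[X] where
  carrier := V
  zero_mem' := V.zero_mem
  add_mem' := V.add_mem
  smul_mem' := by
    rintro ⟨r, hr⟩ p hp
    change r * p ∈ V
    induction hr using Algebra.adjoin_induction generalizing p with
    | mem r h' =>
      obtain ⟨i, rfl⟩ := h'
      exact h i p hp
    | algebraMap c => rw [← Algebra.smul_def]; exact V.smul_mem c hp
    | add a b _ _ h1 h2 => rw [add_mul]; exact add_mem (h1 hp) (h2 hp)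
    | mul a b _ _ h1 h2 => rw [mul_assoc]; exact h1 (h2 hp)

theorem coeff_mono_mul (a : K) (p : K[X]) (k : ℕ) :
    (monomial 1 a * p).coeff (k + 1) = a * p.coeff k := by
  rw [coeff_monomial_mul]

theorem coeff_mono_mul_zero (a : K) (p : K[X]) : (monomial 1 a * p).coeff 0 = 0 := by
  simp

theorem noeth (x : Fin 3 → K) (M N : ℕ → Submodule ℂ K) (h0 : (M 0).FG)
    (hM : ∀ k, M (k + 1) ≤ Submodule.span ℂ (Set.range x) * M k) (hN : ∀ k, N k ≤ M k)
    (hs : ∀ k i, ∀ f ∈ N k, x i * f ∈ N (k + 1)) :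
    ∃ d, ∀ k, d ≤ k → N (k + 1) ≤ Submodule.span ℂ (Set.range x) * N k := by
  classical
  have := rees_noeth x
  obtain ⟨s, hs0⟩ := h0
  let G : Submodule (rees x) K[X] := Submodule.span (rees x) (monomial 0 '' (s : Set K))
  have hG : IsNoetherian (rees x) G :=
    isNoetherian_span_of_finite _ (s.finite_toSet.image _)
  have h1 : ∀ k, ∀ f ∈ M k, monomial k f ∈ G := by
    intro k
    induction k with
    | zero =>
      intro f hf
      rw [← hs0] at hf
      induction hf using Submodule.span_induction with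
      | mem a h => exact Submodule.subset_span ⟨a, h, rfl⟩
      | zero => simp
      | add a b _ _ h1 h2 => rw [map_add]; exact add_mem h1 h2
      | smul c a _ h =>
        rw [← smul_monomial, ← algebraMap_smul (rees x)]
        exact G.smul_mem _ h
    | succ k ih =>
      intro f hf
      refine Submodule.mul_induction_on (hM k hf) (fun a ha g hg => ?_) fun a b h1 h2 => ?_
      · have h2 := G.smul_mem ⟨_, monomial_mem_rees x ha⟩ (ih g hg)
        have e : monomial (k + 1) (a * g) = monomial 1 a * monomial k g := by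
          rw [monomial_mul_monomial, add_comm]
        rw [e]
        exact h2
      · rw [map_add]
        exact add_mem h1 h2
  let V : ℕ → Submodule ℂ K[X] := fun d =>
    { carrier := {p | (∀ k, p.coeff k ∈ N k) ∧
        ∀ k, d ≤ k → p.coeff (k + 1) ∈ Submodule.span ℂ (Set.range x) * N k}
      zero_mem' := ⟨fun k => by simp, fun k _ => by simp⟩
      add_mem' := fun h1 h2 => ⟨fun k => by rw [coeff_add]; exact add_mem (h1.1 k) (h2.1 k),
        fun k hk => by rw [coeff_add]; exact add_mem (h1.2 k hk) (h2.2 k hk)⟩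
      smul_mem' := fun c p h => ⟨fun k => by
          rw [coeff_smul]; exact Submodule.smul_mem _ _ (h.1 k),
        fun k hk => by rw [coeff_smul]; exact Submodule.smul_mem _ _ (h.2 k hk)⟩ }
  have hV : ∀ d i, ∀ p ∈ V d, monomial 1 (x i) * p ∈ V d := by
    intro d i p hp
    refine ⟨fun k => ?_, fun k _ => ?_⟩
    · cases k with
      | zero => rw [coeff_mono_mul_zero]; exact zero_mem _
      | succ k => rw [coeff_mono_mul]; exact hs k i _ (hp.1 k)
    · rw [coeff_mono_mul]
      exact Submodule.mul_mem_mul (Submodule.subset_span ⟨i, rfl⟩) (hp.1 k)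
  let F : ℕ →o Submodule (rees x) G :=
    { toFun := fun d => (toSub x (V d) (hV d)).comap G.subtype
      monotone' := fun a b hab p hp => ⟨hp.1, fun k hk => hp.2 k (hab.trans hk)⟩ }
  obtain ⟨d, hd⟩ := monotone_stabilizes_iff_noetherian.2 hG F
  refine ⟨d, fun k hk f hf => ?_⟩
  have h2 : (⟨monomial (k + 1) f, h1 _ f (hN _ hf)⟩ : G) ∈ F (k + 1) := by
    refine ⟨fun l => ?_, fun l hl => ?_⟩
    · change (monomial (k + 1) f).coeff l ∈ N l
      rw [coeff_monomial]
      split_ifs with e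
      · exact e ▸ hf
      · exact zero_mem _
    · change (monomial (k + 1) f).coeff (l + 1) ∈ _
      rw [coeff_monomial, if_neg (by omega)]
      exact zero_mem _
  rw [← hd (k + 1) (by omega)] at h2
  have h3 := h2.2 k hk
  change (monomial (k + 1) f).coeff (k + 1) ∈ _ at h3
  rwa [coeff_monomial, if_pos rfl] at h3

/-- A family which is generated in one degree and killed by powers of the variables modulo a
second family is contained in it in large degrees. -/
theorem nil (x : Fin 3 → K) (N Q : ℕ → Submodule ℂ K) (d : ℕ) (h0 : (N d).FG)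
    (hN : ∀ k, d ≤ k → N (k + 1) ≤ Submodule.span ℂ (Set.range x) * N k)
    (hQ : ∀ k i, ∀ f ∈ Q k, x i * f ∈ Q (k + 1))
    (hn : ∀ i, ∀ f ∈ N d, ∃ e : ℕ, x i ^ e * f ∈ Q (d + e)) :
    ∃ k₀, ∀ k, k₀ ≤ k → N k ≤ Q k := by
  classical
  have hQ' : ∀ (e k : ℕ) i, ∀ f ∈ Q k, x i ^ e * f ∈ Q (k + e) := by
    intro e k i f hf
    induction e with
    | zero => simpa using hf
    | succ e ih => rw [pow_succ', mul_assoc]; exact hQ _ i _ ih
  obtain ⟨s, hs⟩ := h0
  choose e he using fun p : Fin 3 × s => hn p.1 p.2 (hs ▸ Submodule.subset_span p.2.2)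
  obtain ⟨E, hE⟩ := (Set.finite_range e).bddAbove
  have h1 : ∀ i, ∀ f ∈ N d, x i ^ E * f ∈ Q (d + E) := by
    intro i f hf
    rw [← hs] at hf
    induction hf using Submodule.span_induction with
    | mem a h =>
      obtain ⟨c, hc⟩ := Nat.exists_eq_add_of_le (hE ⟨(i, ⟨a, h⟩), rfl⟩)
      have h2 := hQ' c _ i _ (he (i, ⟨a, h⟩))
      rw [← mul_assoc, ← pow_add, add_comm c, add_assoc, ← hc] at h2
      exact h2
    | zero => simp
    | add a b _ _ h1 h2 => rw [mul_add]; exact add_mem h1 h2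
    | smul c a _ h => rw [mul_smul_comm]; exact Submodule.smul_mem _ _ h
  have h2 : ∀ (k : ℕ) (a : Fin 3 → ℕ), 3 * E ≤ a 0 + a 1 + a 2 + k → ∀ f ∈ N (d + k),
      x 0 ^ a 0 * (x 1 ^ a 1 * (x 2 ^ a 2 * f)) ∈ Q (d + k + (a 0 + a 1 + a 2)) := by
    intro k
    induction k with
    | zero =>
      intro a ha f hf
      rcases (by omega : E ≤ a 0 ∨ E ≤ a 1 ∨ E ≤ a 2) with h | h | h
      · obtain ⟨c, hc⟩ := Nat.exists_eq_add_of_le h
        have h3 := hQ' (a 2) _ 2 _ (hQ' (a 1) _ 1 _ (hQ' c _ 0 _ (h1 0 f hf)))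
        have e1 : d + E + c + a 1 + a 2 = d + 0 + (a 0 + a 1 + a 2) := by omega
        have e2 : x 2 ^ a 2 * (x 1 ^ a 1 * (x 0 ^ c * (x 0 ^ E * f))) =
            x 0 ^ a 0 * (x 1 ^ a 1 * (x 2 ^ a 2 * f)) := by rw [hc]; ring
        rwa [e1, e2] at h3
      · obtain ⟨c, hc⟩ := Nat.exists_eq_add_of_le h
        have h3 := hQ' (a 2) _ 2 _ (hQ' (a 0) _ 0 _ (hQ' c _ 1 _ (h1 1 f hf)))
        have e1 : d + E + c + a 0 + a 2 = d + 0 + (a 0 + a 1 + a 2) := by omega
        have e2 : x 2 ^ a 2 * (x 0 ^ a 0 * (x 1 ^ c * (x 1 ^ E * f))) =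
            x 0 ^ a 0 * (x 1 ^ a 1 * (x 2 ^ a 2 * f)) := by rw [hc]; ring
        rwa [e1, e2] at h3
      · obtain ⟨c, hc⟩ := Nat.exists_eq_add_of_le h
        have h3 := hQ' (a 1) _ 1 _ (hQ' (a 0) _ 0 _ (hQ' c _ 2 _ (h1 2 f hf)))
        have e1 : d + E + c + a 0 + a 1 = d + 0 + (a 0 + a 1 + a 2) := by omega
        have e2 : x 1 ^ a 1 * (x 0 ^ a 0 * (x 2 ^ c * (x 2 ^ E * f))) =
            x 0 ^ a 0 * (x 1 ^ a 1 * (x 2 ^ a 2 * f)) := by rw [hc]; ring
        rwa [e1, e2] at h3
    | succ k ih =>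
      intro a ha f hf
      refine Submodule.mul_induction_on (hN (d + k) (by omega) hf) (fun l hl g hg => ?_)
        fun a b h1 h2 => ?_
      · obtain ⟨c, rfl⟩ := (Submodule.mem_span_range_iff_exists_fun ℂ).1 hl
        have a0 := ih ![a 0 + 1, a 1, a 2] (by simp; omega) g hg
        have a1 := ih ![a 0, a 1 + 1, a 2] (by simp; omega) g hg
        have a2 := ih ![a 0, a 1, a 2 + 1] (by simp; omega) g hg
        simp only [Matrix.cons_val_zero, Matrix.cons_val_one, Matrix.cons_val] at a0 a1 a2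
        rw [show d + k + (a 0 + 1 + a 1 + a 2) = d + (k + 1) + (a 0 + a 1 + a 2) by omega] at a0
        rw [show d + k + (a 0 + (a 1 + 1) + a 2) = d + (k + 1) + (a 0 + a 1 + a 2) by omega] at a1
        rw [show d + k + (a 0 + a 1 + (a 2 + 1)) = d + (k + 1) + (a 0 + a 1 + a 2) by omega] at a2
        have h3 := add_mem (add_mem (Submodule.smul_mem _ (c 0) a0) (Submodule.smul_mem _ (c 1) a1))
          (Submodule.smul_mem _ (c 2) a2)
        have e : x 0 ^ a 0 * (x 1 ^ a 1 * (x 2 ^ a 2 * ((∑ i, c i • x i) * g))) =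
            c 0 • (x 0 ^ (a 0 + 1) * (x 1 ^ a 1 * (x 2 ^ a 2 * g))) +
            c 1 • (x 0 ^ a 0 * (x 1 ^ (a 1 + 1) * (x 2 ^ a 2 * g))) +
            c 2 • (x 0 ^ a 0 * (x 1 ^ a 1 * (x 2 ^ (a 2 + 1) * g))) := by
          rw [Fin.sum_univ_three]
          simp only [Algebra.smul_def]
          ring
        rw [e]
        exact h3
      · simp only [mul_add]
        exact add_mem h1 h2
  refine ⟨d + 3 * E, fun k hk f hf => ?_⟩
  obtain ⟨c, rfl⟩ := Nat.exists_eq_add_of_le (show d ≤ k by omega)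
  simpa using h2 c 0 (by simp; omega) f hf

end Mu

end Vale.Agent.P297Z.Sf
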