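import Vale.Agent.P297Z.Surf.Mult
import Vale.Agent.P297Z.Surf.IntN

/-! The second difference of the Euler characteristic is the sum of the local multiplicities. -/

set_option linter.all false

open IsLocalRing

namespace Vale.Agent.P297Z.Sf

open Vale.Agent.P297 (Place)

variable {K : Type} [Field K] [Algebra ℂ K] {S : Surf K}

namespace Mu

theorem mem_hyp (hL : S.Loc) {P : Crv S.W → Prop} {a : K} (ha : a ∈ S.W) : a ∈ secOn P S.H := by
  by_cases h0 : a = 0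
  · exact Or.inl h0
  refine Or.inr fun C _ => ?_
  obtain ⟨w, hw, hC⟩ := C.exists_in
  have h1 := Pl.ord_nonneg_of_mem _ (hC.2 a ha)
  rw [Pl.ord_div _ h0 hC.1] at h1
  rw [hL.hyp_in C w hw hC]
  unfold Crv.ord
  omega

theorem mul_mem_succ (hL : S.Loc) {P : Crv S.W → Prop} {D : Div S.W} {m : ℕ} {a f : K}
    (ha : a ∈ S.W) (hf : f ∈ secOn P (D + (m : ℤ) • S.H)) :
    a * f ∈ secOn P (D + ((m + 1 : ℕ) : ℤ) • S.H) := by
  have h := mul_mem_secOn (mem_hyp hL ha) hf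
  have e : S.H + (D + (m : ℤ) • S.H) = D + ((m + 1 : ℕ) : ℤ) • S.H := by
    push_cast
    rw [add_smul, one_smul]
    abel
  rwa [e] at h

theorem ord_pow_add (hL : S.Loc) {C : Crv S.W} {w : K} (hw : w ∈ S.W) (hC : C.In w)
    (D : Div S.W) (n : ℕ) : (D + (n : ℤ) • S.H) C + C.ord (w ^ n) = D C := by
  have h1 := hL.hyp_in C w hw hC
  rw [Finsupp.add_apply, Finsupp.smul_apply, smul_eq_mul, h1]
  unfold Crv.ord
  rw [Pl.ord_pow]
  ring

theorem div_pow_mem (hL : S.Loc) {P : Crv S.W → Prop} {w f : K} (hw : w ∈ S.W) (h0 : w ≠ 0)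
    (hP : ∀ C, P C → C.In w) (D : Div S.W) (n : ℕ) :
    f / w ^ n ∈ secOn P D ↔ f ∈ secOn P (D + (n : ℤ) • S.H) :=
  div_mem_secOn (pow_ne_zero n h0) fun C hC => ord_pow_add hL hw (hP C hC) D n

theorem genAt_pow (hL : S.Loc) {x : Pt S.W} {w s : K} (hw : w ∈ S.W) (hx : x.In w)
    {D : Div S.W} (hs : GenAt x D s) (n : ℕ) : GenAt x (D + (n : ℤ) • S.H) (s * w ^ n) := by
  refine ⟨mul_ne_zero hs.1 (pow_ne_zero n hx.1), fun C hC => ?_⟩
  have h1 := ord_pow_add hL hw (hC.crv_in hx) D n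
  have h2 := hs.2 C hC
  unfold Crv.ord at *
  rw [Pl.ord_mul _ hs.1 (pow_ne_zero n hx.1)]
  omega

theorem chart_mul (hL : S.Loc) {w b f : K} (hw : w ∈ S.W) (h0 : w ≠ 0) {D : Div S.W}
    (hb : b ∈ chart S.W w) (hf : f ∈ secIn w D) : b * f ∈ secIn w D := by
  have h := mul_mem_secOn ((hL.sec_chart w hw h0 b).2 hb) hf
  rwa [zero_add] at h

theorem mul_mem_sup {A B A' B' : Submodule ℂ K} {b f : K} (hA : ∀ g ∈ A, b * g ∈ A')
    (hB : ∀ g ∈ B, b * g ∈ B') (hf : f ∈ A ⊔ B) : b * f ∈ A' ⊔ B' := by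
  obtain ⟨f₁, h1, f₂, h2, rfl⟩ := Submodule.mem_sup.1 hf
  rw [mul_add]
  exact Submodule.add_mem_sup (hA _ h1) (hB _ h2)

/-- The local-global principle on a chart. -/
theorem loc_glob (hL : S.Loc) {w g : K} (hw : w ∈ S.W) (h0 : w ≠ 0) {D₁ D₂ : Div S.W}
    (h : ∀ x : Pt S.W, x.In w → g ∈ stalk x D₁ ⊔ stalk x D₂) :
    g ∈ secIn w D₁ ⊔ secIn w D₂ := by
  let J : Ideal (chart S.W w) :=
    { carrier := {b | (b : K) * g ∈ secIn w D₁ ⊔ secIn w D₂}
      zero_mem' := by simp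
      add_mem' := fun {a b} ha hb => by
        change ((a : K) + b) * g ∈ secIn w D₁ ⊔ secIn w D₂
        rw [add_mul]
        exact add_mem ha hb
      smul_mem' := fun c b hb => by
        change ((c : K) * b) * g ∈ secIn w D₁ ⊔ secIn w D₂
        rw [mul_assoc]
        exact mul_mem_sup (fun _ => chart_mul hL hw h0 c.2) (fun _ => chart_mul hL hw h0 c.2) hb }
  have hJ : J = ⊤ := by
    by_contra hne
    obtain ⟨m, hm, hJm⟩ := Ideal.exists_le_maximal J hne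
    let x : Pt S.W := ⟨loc _ m hm.isPrime, w, hw, h0, m, hm, rfl⟩
    have hx : x.In w := ⟨h0, fun a ha => le_loc _ m hm.isPrime (div_mem_chart ha)⟩
    have hv : ∀ b : chart S.W w, b ∈ m → x.Van b := fun b hb =>
      ⟨le_loc _ m hm.isPrime b.2, or_iff_not_imp_left.2 fun h1 h2 =>
        (inv_mem_loc_iff hm.isPrime h1).1 h2 hb⟩
    obtain ⟨g₁, h1, g₂, h2, rfl⟩ := Submodule.mem_sup.1 (h x hx)
    obtain ⟨b₁, a1, a2, a3⟩ := hL.stalk_sec x w hw hx D₁ g₁ h1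
    obtain ⟨b₂, c1, c2, c3⟩ := hL.stalk_sec x w hw hx D₂ g₂ h2
    have h3 : (⟨b₁, a1⟩ * ⟨b₂, c1⟩ : chart S.W w) ∈ J := by
      change (b₁ * b₂) * (g₁ + g₂) ∈ secIn w D₁ ⊔ secIn w D₂
      have e : (b₁ * b₂) * (g₁ + g₂) = b₂ * (b₁ * g₁) + b₁ * (b₂ * g₂) := by ring
      rw [e]
      exact Submodule.add_mem_sup (chart_mul hL hw h0 c1 a3) (chart_mul hL hw h0 a1 c3)
    rcases hm.isPrime.mem_or_mem (hJm h3) with h4 | h4
    · exact a2 (hv _ h4)
    · exact c2 (hv _ h4)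
  have h1 : (1 : chart S.W w) ∈ J := hJ ▸ Submodule.mem_top
  have h2 : ((1 : chart S.W w) : K) * g ∈ secIn w D₁ ⊔ secIn w D₂ := h1
  simpa using h2

/-- The sections which are locally sums. -/
noncomputable def locSum (E D₁ D₂ : Div S.W) : Submodule ℂ K :=
  H0 E ⊓ ⨅ x : Pt S.W, (stalk x D₁ ⊔ stalk x D₂)

theorem mem_locSum {E D₁ D₂ : Div S.W} {f : K} :
    f ∈ locSum E D₁ D₂ ↔ f ∈ H0 E ∧ ∀ x : Pt S.W, f ∈ stalk x D₁ ⊔ stalk x D₂ := by
  rw [locSum, Submodule.mem_inf, Submodule.mem_iInf]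

theorem locSum_le (hL : S.Loc) (hF : S.Fg) (E D₁ D₂ : Div S.W) : ∃ k₀ : ℕ, ∀ k : ℕ, k₀ ≤ k →
    locSum (E + (k : ℤ) • S.H) (D₁ + (k : ℤ) • S.H) (D₂ + (k : ℤ) • S.H) ≤ M D₁ k ⊔ M D₂ k := by
  obtain ⟨hf, -, m₁, hm⟩ := hF E
  let N : ℕ → Submodule ℂ K := fun k =>
    locSum (E + (k : ℤ) • S.H) (D₁ + (k : ℤ) • S.H) (D₂ + (k : ℤ) • S.H)
  have hN : ∀ k, N k ≤ M E k := fun k => inf_le_left
  have hs : ∀ k i, ∀ f ∈ N k, S.x i * f ∈ N (k + 1) := by
    intro k i f hf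
    obtain ⟨h1, h2⟩ := mem_locSum.1 hf
    exact mem_locSum.2 ⟨mul_mem_succ hL (S.x_mem i) h1, fun x =>
      mul_mem_sup (fun _ => mul_mem_succ hL (S.x_mem i)) (fun _ => mul_mem_succ hL (S.x_mem i))
        (h2 x)⟩
  have hfg : ∀ k : ℕ, (M E k).FG := fun k => Module.Finite.iff_fg.1 (hf k)
  obtain ⟨d, hd⟩ := noeth S.x (fun k => M E ((m₁.toNat + k : ℕ) : ℤ)) (fun k => N (m₁.toNat + k))
    (hfg _) (fun k => by
      have h1 := hm ((m₁.toNat + k : ℕ) : ℤ) (by omega)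
      have e : ((m₁.toNat + (k + 1) : ℕ) : ℤ) = ((m₁.toNat + k : ℕ) : ℤ) + 1 := by push_cast; ring
      rw [e]
      exact h1) (fun k => hN _) (fun k => hs _)
  refine nil S.x N (fun k => M D₁ k ⊔ M D₂ k) (m₁.toNat + d) ?_ (fun k hk => ?_)
    (fun k i f hf => ?_) fun i f hf => ?_
  · have := hf ((m₁.toNat + d : ℕ) : ℤ)
    exact Module.Finite.iff_fg.1 (Submodule.finiteDimensional_of_le (hN _))
  · obtain ⟨c, rfl⟩ := Nat.exists_eq_add_of_le (show m₁.toNat ≤ k by omega)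
    exact hd c (by omega)
  · exact mul_mem_sup (fun _ => mul_mem_succ hL (S.x_mem i))
      (fun _ => mul_mem_succ hL (S.x_mem i)) hf
  · generalize m₁.toNat + d = k at hf ⊢
    obtain ⟨-, h2⟩ := mem_locSum.1 hf
    have hw := S.x_mem i
    have h0 := S.x_ne i
    have h3 : f / S.x i ^ k ∈ secIn (S.x i) D₁ ⊔ secIn (S.x i) D₂ := by
      refine loc_glob hL hw h0 fun x hx => ?_
      rw [div_eq_inv_mul]
      refine mul_mem_sup (fun g hg => ?_) (fun g hg => ?_) (h2 x)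
      · rw [← div_eq_inv_mul]
        exact (div_pow_mem hL hw h0 (fun C hC => hC.crv_in hx) D₁ k).2 hg
      · rw [← div_eq_inv_mul]
        exact (div_pow_mem hL hw h0 (fun C hC => hC.crv_in hx) D₂ k).2 hg
    obtain ⟨g₁, a1, g₂, a2, e⟩ := Submodule.mem_sup.1 h3
    obtain ⟨n₁, b1⟩ := hL.sec_mul _ hw h0 D₁ g₁ a1
    obtain ⟨n₂, b2⟩ := hL.sec_mul _ hw h0 D₂ g₂ a2
    refine ⟨n₁ + n₂, ?_⟩
    have e2 : S.x i ^ (n₁ + n₂) * f =
        g₁ * S.x i ^ (k + (n₁ + n₂)) + g₂ * S.x i ^ (k + (n₁ + n₂)) := by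
      rw [← add_mul, e, pow_add _ k, ← mul_assoc, div_mul_cancel₀ _ (pow_ne_zero k h0), mul_comm]
    rw [e2]
    exact Submodule.add_mem_sup (b1 _ (by omega)) (b2 _ (by omega))

theorem mem_idl_sup (hL : S.Loc) {x : Pt S.W} {Z Z' E D₁ D₂ : Div S.W} (hZ : 0 ≤ Z) (hZ' : 0 ≤ Z')
    (h1 : ∀ C, D₁ C + Z' C = E C) (h2 : ∀ C, D₂ C + Z C = E C) {s f : K} (hs : GenAt x E s)
    (hf : f / s ∈ x.ring) :
    (⟨f / s, hf⟩ : x.ring) ∈ idl x Z ⊔ idl x Z' ↔ f ∈ stalk x D₁ ⊔ stalk x D₂ := by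
  have k1 : ∀ g, g / s ∈ stalk x (-Z') ↔ g ∈ stalk x D₁ := fun g =>
    div_mem_secOn hs.1 fun C hC => by
      have a := hs.2 C hC
      have b := h1 C
      rw [Finsupp.neg_apply]
      omega
  have k2 : ∀ g, g / s ∈ stalk x (-Z) ↔ g ∈ stalk x D₂ := fun g =>
    div_mem_secOn hs.1 fun C hC => by
      have a := hs.2 C hC
      have b := h2 C
      rw [Finsupp.neg_apply]
      omega
  constructor
  · intro h
    obtain ⟨u, hu, v, hv, e⟩ := Submodule.mem_sup.1 h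
    have e1 : (u : K) + v = f / s := congrArg Subtype.val e
    have e2 : f = v * s + u * s := by rw [← add_mul, add_comm, e1, div_mul_cancel₀ _ hs.1]
    rw [e2]
    refine Submodule.add_mem_sup ((k1 _).1 ?_) ((k2 _).1 ?_)
    · rw [mul_div_cancel_right₀ _ hs.1]
      exact hv
    · rw [mul_div_cancel_right₀ _ hs.1]
      exact hu
  · intro h
    obtain ⟨f₁, a1, f₂, a2, rfl⟩ := Submodule.mem_sup.1 h
    have b1 : f₁ / s ∈ x.ring := (div_mem_ring hL hs).2 (secOn_mono (fun C hC => ⟨hC, by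
      have a := h1 C
      have b : 0 ≤ Z' C := hZ' C
      omega⟩) a1)
    have b2 : f₂ / s ∈ x.ring := (div_mem_ring hL hs).2 (secOn_mono (fun C hC => ⟨hC, by
      have a := h2 C
      have b : 0 ≤ Z C := hZ C
      omega⟩) a2)
    have e : (⟨(f₁ + f₂) / s, hf⟩ : x.ring) = ⟨f₂ / s, b2⟩ + ⟨f₁ / s, b1⟩ :=
      Subtype.ext ((add_div _ _ _).trans (add_comm _ _))
    rw [e]
    exact Submodule.add_mem_sup (mem_idl.2 ((k2 _).2 a2)) (mem_idl.2 ((k1 _).2 a1))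

/-- The Chinese remainder theorem for sections on a chart. -/
theorem exists_approx (hL : S.Loc) (P : Finset (Pt S.W)) {w : K} (hw : w ∈ S.W)
    (hP : ∀ y ∈ P, y.In w) {E : Div S.W} {s : Pt S.W → K} (hs : ∀ y, GenAt y E (s y)) (n : ℕ)
    {x : Pt S.W} (hx : x ∈ P) (u : x.ring) : ∃ g ∈ secIn w E,
      (∃ h : g / s x ∈ x.ring, ⟨g / s x, h⟩ - u ∈ maximalIdeal x.ring ^ n) ∧
      ∀ y ∈ P, y ≠ x → ∃ h : g / s y ∈ y.ring,
        (⟨g / s y, h⟩ : y.ring) ∈ maximalIdeal y.ring ^ n := by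
  classical
  have hxw := hP x hx
  have h0 := hxw.1
  choose! l hl hl' using fun y (hy : y ≠ x) => hL.sep y x hy
  have hprod : ∀ T : Finset (Pt S.W), x ∉ T →
      (∏ y ∈ T, (l y / w) ^ n) ∈ chart S.W w ∧ ¬ x.Van (∏ y ∈ T, (l y / w) ^ n) := by
    intro T hT
    have hm : ∀ a b : K, a ∈ chart S.W w ∧ ¬ x.Van a → b ∈ chart S.W w ∧ ¬ x.Van b →
        a * b ∈ chart S.W w ∧ ¬ x.Van (a * b) := fun a b ha hb =>
      ⟨mul_mem ha.1 hb.1, fun h =>
        (Pt.van_or (hxw.chart_le ha.1) (hxw.chart_le hb.1) h).elim ha.2 hb.2⟩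
    refine Finset.prod_induction _ (fun a => a ∈ chart S.W w ∧ ¬ x.Van a) hm
      ⟨one_mem _, x.not_van_one⟩ fun y hy => ?_
    have hy' : y ≠ x := fun e => hT (e ▸ hy)
    have h1 : l y / w ∈ chart S.W w ∧ ¬ x.Van (l y / w) :=
      ⟨div_mem_chart (hl y hy').1, (Pt.in_iff hxw hw (hl y hy').1).1 (hl' y hy')⟩
    induction n with
    | zero => rw [pow_zero]; exact ⟨one_mem _, x.not_van_one⟩
    | succ n ih => rw [pow_succ]; exact hm _ _ ih h1
  obtain ⟨p1, p2⟩ := hprod (P.erase x) (Finset.notMem_erase x P)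
  set π := ∏ y ∈ P.erase x, (l y / w) ^ n with hπ
  have hu : (u : K) * s x ∈ stalk x E := by
    rw [← div_mem_ring hL (hs x), mul_div_cancel_right₀ _ (hs x).1]
    exact u.2
  obtain ⟨b, b1, b2, b3⟩ := hL.stalk_sec x w hw hxw E _ hu
  obtain ⟨c, hc⟩ := hL.val x (b * π) (hxw.chart_le (mul_mem b1 p1))
  have hc0 : c ≠ 0 := by
    rintro rfl
    rw [map_zero, sub_zero] at hc
    exact (Pt.van_or (hxw.chart_le b1) (hxw.chart_le p1) hc).elim b2 p2
  set e : K := c⁻¹ • (b * π) with he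
  have e1 : 1 - e ∈ chart S.W w := sub_mem (one_mem _) (Subalgebra.smul_mem _ (mul_mem b1 p1) _)
  have e2 : x.Van (1 - e) := by
    have h1 := (hc.smul c⁻¹).neg
    rwa [smul_sub, neg_sub, Algebra.smul_def c⁻¹ (algebraMap ℂ K c), ← map_mul,
      inv_mul_cancel₀ hc0, map_one] at h1
  set h : K := ∑ i ∈ Finset.range n, (1 - e) ^ i with hh
  have e3 : h ∈ chart S.W w := sum_mem fun i _ => pow_mem e1 i
  have e4 : e * h = 1 - (1 - e) ^ n := by
    have := mul_neg_geom_sum (1 - e) n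
    rwa [sub_sub_cancel] at this
  have e5 : c⁻¹ • h ∈ chart S.W w := Subalgebra.smul_mem _ e3 _
  refine ⟨π * (c⁻¹ • h * (b * (u * s x))), chart_mul hL hw h0 p1 (chart_mul hL hw h0 e5 b3),
    ?_, fun y hy hyx => ?_⟩
  · have e6 : π * (c⁻¹ • h * (b * (u * s x))) / s x = u - (1 - e) ^ n * u := by
      rw [div_eq_iff (hs x).1, ← one_sub_mul, ← e4, he]
      simp only [Algebra.smul_def]
      ring
    refine ⟨e6 ▸ sub_mem u.2 (mul_mem (pow_mem e2.1 n) u.2), ?_⟩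
    have h1 := Ideal.mul_mem_right u _ (Ideal.pow_mem_pow ((x.mem_max ⟨_, e2.1⟩).2 e2) n)
    have h2 := neg_mem h1
    refine (congrArg (· ∈ maximalIdeal x.ring ^ n) (Subtype.ext ?_)).mpr h2
    push_cast
    rw [e6]
    ring
  · have hyw := hP y hy
    have r1 : c⁻¹ • h * (b * (u * s x)) / s y ∈ y.ring :=
      (div_mem_ring hL (hs y)).2 (secOn_mono (fun C hC => ⟨hC.crv_in hyw, le_rfl⟩)
        (chart_mul hL hw h0 e5 b3))
    have r2 : (∏ z ∈ (P.erase x).erase y, (l z / w) ^ n) ∈ y.ring :=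
      hyw.chart_le (hprod _ fun hz => Finset.notMem_erase x P (Finset.mem_of_mem_erase hz)).1
    have r3 : y.Van (l y / w) := (hl y hyx).2 w hw hyw
    have e6 : π * (c⁻¹ • h * (b * (u * s x))) / s y = (l y / w) ^ n *
        ((∏ z ∈ (P.erase x).erase y, (l z / w) ^ n) * (c⁻¹ • h * (b * (u * s x)) / s y)) := by
      rw [← mul_assoc ((l y / w) ^ n), Finset.mul_prod_erase _ (fun z => (l z / w) ^ n)
        (Finset.mem_erase.2 ⟨hyx, hy⟩), mul_div_assoc]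
    refine ⟨e6 ▸ mul_mem (pow_mem r3.1 n) (mul_mem r2 r1), ?_⟩
    have h1 := Ideal.mul_mem_right (⟨_, mul_mem r2 r1⟩ : y.ring) _
      (Ideal.pow_mem_pow ((y.mem_max ⟨_, r3.1⟩).2 r3) n)
    refine (congrArg (· ∈ maximalIdeal y.ring ^ n) (Subtype.ext ?_)).mpr h1
    push_cast
    exact e6

/-- The map to the local quotients. -/
noncomputable def rho (hL : S.Loc) (P : Finset (Pt S.W)) (I : ∀ x : Pt S.W, Ideal x.ring)
    (E : Div S.W) (s : Pt S.W → K) (hs : ∀ x ∈ P, GenAt x E (s x)) :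
    H0 E →ₗ[ℂ] ∀ x : P, x.1.ring ⧸ I x.1 :=
  LinearMap.pi fun x => (Ideal.Quotient.mkₐ ℂ (I x.1)).toLinearMap ∘ₗ
    { toFun := fun f => ⟨f / s x, (div_mem_ring hL (hs x x.2)).2
        (secOn_mono (fun _ _ => ⟨trivial, le_rfl⟩) f.2)⟩
      map_add' := fun f g => Subtype.ext (add_div _ _ _)
      map_smul' := fun c f => Subtype.ext (smul_div_assoc _ _ _) }

theorem rho_apply (hL : S.Loc) (P : Finset (Pt S.W)) (I : ∀ x : Pt S.W, Ideal x.ring)
    (E : Div S.W) (s : Pt S.W → K) (hs : ∀ x ∈ P, GenAt x E (s x)) (f : H0 E) (x : P)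
    {a : K} (h : a ∈ x.1.ring) (e : f / s x = a) :
    rho hL P I E s hs f x = Ideal.Quotient.mk _ ⟨a, h⟩ := by
  subst e
  rfl

theorem rho_surj (hL : S.Loc) (P : Finset (Pt S.W)) (I : ∀ x : Pt S.W, Ideal x.ring)
    (hI : ∀ x, ∃ n : ℕ, maximalIdeal x.ring ^ n ≤ I x) {w : K} (hw : w ∈ S.W) (h0 : w ≠ 0)
    (hP : ∀ y ∈ P, y.In w) {E : Div S.W} {s : Pt S.W → K} (hs : ∀ y, GenAt y E (s y)) :
    ∃ k₀ : ℕ, ∀ k : ℕ, k₀ ≤ k → LinearMap.range (rho hL P I (E + (k : ℤ) • S.H)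
      (fun x => s x * w ^ k) fun x hx => genAt_pow hL hw (hP x hx) (hs x) k) = ⊤ := by
  classical
  choose n hn using hI
  obtain ⟨N, hN⟩ := (Set.finite_range fun x : P => n x).bddAbove
  have hN' : ∀ x ∈ P, maximalIdeal x.ring ^ N ≤ I x := fun x hx =>
    (Ideal.pow_le_pow_right (hN ⟨⟨x, hx⟩, rfl⟩)).trans (hn x)
  let R : ℕ → Submodule ℂ (∀ x : P, x.1.ring ⧸ I x.1) := fun k =>
    LinearMap.range (rho hL P I (E + (k : ℤ) • S.H)
      (fun x => s x * w ^ k) fun x hx => genAt_pow hL hw (hP x hx) (hs x) k)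
  have h1 : ∀ t, ∃ k₀ : ℕ, ∀ k, k₀ ≤ k → t ∈ R k := by
    intro t
    have h2 : ∀ x : P, ∃ k₀ : ℕ, ∀ k, k₀ ≤ k → Pi.single x (t x) ∈ R k := by
      intro x
      obtain ⟨u, hu⟩ := Ideal.Quotient.mk_surjective (t x)
      obtain ⟨g, g1, ⟨g2, g3⟩, g4⟩ := exists_approx hL P hw hP hs N x.2 u
      obtain ⟨k₀, hk⟩ := hL.sec_mul w hw h0 E g g1
      refine ⟨k₀, fun k hk' => ⟨⟨g * w ^ k, hk k hk'⟩, funext fun y => ?_⟩⟩
      have e : g * w ^ k / (s y * w ^ k) = g / s y := mul_div_mul_right _ _ (pow_ne_zero k h0)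
      by_cases hy : y = x
      · subst hy
        rw [rho_apply hL P I _ _ _ _ y g2 e, Pi.single_eq_same, ← hu]
        exact Ideal.Quotient.eq.2 (hN' _ y.2 g3)
      · obtain ⟨g5, g6⟩ := g4 y y.2 fun e => hy (Subtype.ext e)
        rw [rho_apply hL P I _ _ _ _ y g5 e, Pi.single_eq_of_ne hy]
        exact Ideal.Quotient.eq_zero_iff_mem.2 (hN' _ y.2 g6)
    choose k hk using h2
    obtain ⟨k₀, hk₀⟩ := (Set.finite_range k).bddAbove
    refine ⟨k₀, fun j hj => ?_⟩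
    rw [← Finset.univ_sum_single t]
    exact sum_mem fun x _ => hk x j ((hk₀ ⟨x, rfl⟩).trans hj)
  have : ∀ x : P, Module.Finite ℂ (x.1.ring ⧸ I x.1) := fun x => finite_quot hL x.1 (hn x)
  obtain ⟨T, hT⟩ : (⊤ : Submodule ℂ (∀ x : P, x.1.ring ⧸ I x.1)).FG := Module.Finite.fg_top
  choose k hk using h1
  obtain ⟨k₀, hk₀⟩ := (T.finite_toSet.image k).bddAbove
  refine ⟨k₀, fun j hj => ?_⟩
  rw [eq_top_iff, ← hT, Submodule.span_le]
  exact fun t ht => hk t j ((hk₀ ⟨t, ht, rfl⟩).trans hj)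

theorem finite_mult (hL : S.Loc) (hM : S.MultPos) {Z Z' : Div S.W} (hZ : 0 ≤ Z) (hZ' : 0 ≤ Z')
    (h : ∀ C, Z C = 0 ∨ Z' C = 0) : {x : Pt S.W | mult x Z Z' ≠ 0}.Finite := by
  refine (Set.Finite.biUnion Z.support.finite_toSet fun C hC =>
    Set.Finite.biUnion Z'.support.finite_toSet fun C' hC' => hL.fin_meet C C' ?_).subset ?_
  · rintro rfl
    exact (h C).elim (Finsupp.mem_support_iff.1 hC) (Finsupp.mem_support_iff.1 hC')
  · intro x hx
    obtain ⟨⟨C, a1, a2⟩, C', b1, b2⟩ := (hM x Z Z' hZ hZ' h).2.1 hx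
    exact Set.mem_biUnion (Finsupp.mem_support_iff.2 a2)
      (Set.mem_biUnion (Finsupp.mem_support_iff.2 b2) ⟨a1, b1⟩)

theorem h0_large (hL : S.Loc) (hF : S.Fg) (hM : S.MultPos) (D : Div S.W) {Z Z' : Div S.W}
    (hZ : 0 ≤ Z) (hZ' : 0 ≤ Z') (h : ∀ C, Z C = 0 ∨ Z' C = 0) : ∃ k₀ : ℕ, ∀ k : ℕ, k₀ ≤ k →
    h0 (D + Z + Z' + (k : ℤ) • S.H) - h0 (D + Z + (k : ℤ) • S.H) - h0 (D + Z' + (k : ℤ) • S.H) +
      h0 (D + (k : ℤ) • S.H) = ∑ᶠ x, (mult x Z Z' : ℤ) := by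
  classical
  have hfin := finite_mult hL hM hZ hZ' h
  let P := hfin.toFinset
  obtain ⟨w, hw, h0', hP, -⟩ := hL.avoid P ∅
  choose s hs using fun x => hL.gen x (D + Z + Z')
  obtain ⟨k₁, hk₁⟩ := rho_surj hL P (fun x => idl x Z ⊔ idl x Z')
    (fun x => exists_pow_le hL x hZ hZ' h) hw h0' hP hs
  obtain ⟨k₂, hk₂⟩ := locSum_le hL hF (D + Z + Z') (D + Z) (D + Z')
  refine ⟨k₁ + k₂, fun k hk => ?_⟩
  have c1 : ∀ C, (D + Z + (k : ℤ) • S.H) C + Z' C = (D + Z + Z' + (k : ℤ) • S.H) C := fun C => by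
    simp only [Finsupp.add_apply]
    ring
  have c2 : ∀ C, (D + Z' + (k : ℤ) • S.H) C + Z C = (D + Z + Z' + (k : ℤ) • S.H) C := fun C => by
    simp only [Finsupp.add_apply]
    ring
  have f1 : FiniteDimensional ℂ (H0 (D + Z + Z' + (k : ℤ) • S.H)) := (hF _).1 k
  have f2 : FiniteDimensional ℂ (H0 (D + Z + (k : ℤ) • S.H)) := (hF _).1 k
  have f3 : FiniteDimensional ℂ (H0 (D + Z' + (k : ℤ) • S.H)) := (hF _).1 k
  have hle : H0 (D + Z + (k : ℤ) • S.H) ⊔ H0 (D + Z' + (k : ℤ) • S.H) ≤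
      H0 (D + Z + Z' + (k : ℤ) • S.H) := by
    refine sup_le (secOn_mono fun C _ => ⟨trivial, ?_⟩) (secOn_mono fun C _ => ⟨trivial, ?_⟩)
    · have a := c1 C
      have b : 0 ≤ Z' C := hZ' C
      omega
    · have a := c2 C
      have b : 0 ≤ Z C := hZ C
      omega
  have hinf : H0 (D + Z + (k : ℤ) • S.H) ⊓ H0 (D + Z' + (k : ℤ) • S.H) =
      H0 (D + (k : ℤ) • S.H) := by
    refine le_antisymm (fun f hf => ?_) (le_inf (secOn_mono fun C _ => ⟨trivial, ?_⟩)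
      (secOn_mono fun C _ => ⟨trivial, ?_⟩))
    · refine or_iff_not_imp_left.2 fun hf0 C _ => ?_
      have a := hf.1.resolve_left hf0 C trivial
      have b := hf.2.resolve_left hf0 C trivial
      simp only [Finsupp.add_apply] at a b ⊢
      rcases h C with e | e <;> omega
    · have b : 0 ≤ Z C := hZ C
      simp only [Finsupp.add_apply]
      omega
    · have b : 0 ≤ Z' C := hZ' C
      simp only [Finsupp.add_apply]
      omega
  have hker : LinearMap.ker (rho hL P (fun x => idl x Z ⊔ idl x Z') (D + Z + Z' + (k : ℤ) • S.H)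
      (fun x => s x * w ^ k) fun x hx => genAt_pow hL hw (hP x hx) (hs x) k) =
      (H0 (D + Z + (k : ℤ) • S.H) ⊔ H0 (D + Z' + (k : ℤ) • S.H)).comap
        (H0 (D + Z + Z' + (k : ℤ) • S.H)).subtype := by
    ext f
    have hf : ∀ x : Pt S.W, f.1 ∈ stalk x (D + Z + Z' + (k : ℤ) • S.H) := fun x =>
      secOn_mono (fun _ _ => ⟨trivial, le_rfl⟩) f.2
    rw [LinearMap.mem_ker, Submodule.mem_comap, funext_iff]
    constructor
    · intro h1
      refine hk₂ k (by omega) (mem_locSum.2 ⟨f.2, fun x => ?_⟩)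
      by_cases hx : x ∈ P
      · have hg := genAt_pow hL hw (hP x hx) (hs x) k
        have h2 := h1 ⟨x, hx⟩
        rw [rho_apply hL P _ _ _ _ f ⟨x, hx⟩ ((div_mem_ring hL hg).2 (hf x)) rfl] at h2
        exact (mem_idl_sup hL hZ hZ' c1 c2 hg _).1 (Ideal.Quotient.eq_zero_iff_mem.1 h2)
      · obtain ⟨t, ht⟩ := hL.gen x (D + Z + Z' + (k : ℤ) • S.H)
        refine (mem_idl_sup hL hZ hZ' c1 c2 ht ((div_mem_ring hL ht).2 (hf x))).1 ?_
        have h2 : mult x Z Z' = 0 := by_contra fun e => hx (hfin.mem_toFinset.2 e)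
        have := (hM x Z Z' hZ hZ' h).1
        rw [mult, Module.finrank_zero_iff, Ideal.Quotient.subsingleton_iff] at h2
        rw [h2]
        exact Submodule.mem_top
    · intro h1 x
      have hg := genAt_pow hL hw (hP x x.2) (hs x) k
      rw [rho_apply hL P _ _ _ _ f x ((div_mem_ring hL hg).2 (hf x)) rfl]
      refine Ideal.Quotient.eq_zero_iff_mem.2 ((mem_idl_sup hL hZ hZ' c1 c2 hg _).2 ?_)
      exact sup_le_sup (secOn_mono fun _ _ => ⟨trivial, le_rfl⟩)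
        (secOn_mono fun _ _ => ⟨trivial, le_rfl⟩) h1
  have a1 := LinearMap.finrank_range_add_finrank_ker (rho hL P (fun x => idl x Z ⊔ idl x Z')
    (D + Z + Z' + (k : ℤ) • S.H) (fun x => s x * w ^ k)
    fun x hx => genAt_pow hL hw (hP x hx) (hs x) k)
  have : ∀ x : P, Module.Finite ℂ (x.1.ring ⧸ (idl x.1 Z ⊔ idl x.1 Z')) := fun x =>
    (hM x Z Z' hZ hZ' h).1
  have : ∀ x : P, Module.Free ℂ (x.1.ring ⧸ (idl x.1 Z ⊔ idl x.1 Z')) := fun x =>
    Module.Free.of_divisionRing _ _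
  rw [hk₁ k (by omega), hker, finrank_top, Module.finrank_pi_fintype,
    (Submodule.comapSubtypeEquivOfLe hle).finrank_eq] at a1
  have a2 := Submodule.finrank_sup_add_finrank_inf_eq (H0 (D + Z + (k : ℤ) • S.H))
    (H0 (D + Z' + (k : ℤ) • S.H))
  rw [hinf] at a2
  have a3 : ∑ᶠ x, (mult x Z Z' : ℤ) = ((∑ x : P, mult x.1 Z Z' : ℕ) : ℤ) := by
    rw [finsum_eq_sum_of_support_subset (s := P) _ fun x hx => by
      simpa [P] using hx, Finset.sum_coe_sort P fun x => mult x Z Z', Nat.cast_sum]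
  rw [a3]
  unfold mult h0
  omega

theorem const_of_third {φ : ℤ → ℤ} {c : ℤ} {m₀ : ℤ}
    (h3 : ∀ m, φ (m + 3) - 3 * φ (m + 2) + 3 * φ (m + 1) - φ m = 0) (h : ∀ m, m₀ ≤ m → φ m = c)
    (m : ℤ) : φ m = c := by
  have key : ∀ (k : ℕ) (m : ℤ), m₀ - k ≤ m → φ m = c := by
    intro k
    induction k with
    | zero => exact fun m hm => h m (by omega)
    | succ k ih =>
      intro m hm
      have a := h3 m
      rw [ih (m + 3) (by omega), ih (m + 2) (by omega), ih (m + 1) (by omega)] at a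
      omega
  exact key (m₀ - m).toNat m (by omega)

theorem third_at (hH : S.Hilb) (D : Div S.W) (m : ℤ) :
    chi (D + (m + 3) • S.H) - 3 * chi (D + (m + 2) • S.H) + 3 * chi (D + (m + 1) • S.H) -
      chi (D + m • S.H) = 0 := by
  have h := hH.third (D + m • S.H)
  have e3 : D + (m + 3) • S.H = D + m • S.H + 3 • S.H := by
    ext C
    simp only [Finsupp.add_apply, Finsupp.smul_apply, smul_eq_mul, nsmul_eq_mul]
    push_cast
    ring
  have e2 : D + (m + 2) • S.H = D + m • S.H + 2 • S.H := by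
    ext C
    simp only [Finsupp.add_apply, Finsupp.smul_apply, smul_eq_mul, nsmul_eq_mul]
    push_cast
    ring
  have e1 : D + (m + 1) • S.H = D + m • S.H + S.H := by rw [add_smul, one_smul, add_assoc]
  rw [e3, e2, e1]
  exact h

end Mu

theorem inte : INT := by
  intro K _ _ S hL hF hH hM D Z Z' hZ hZ' h
  obtain ⟨k₀, hk⟩ := Mu.h0_large hL hF hM D hZ hZ' h
  obtain ⟨m₁, h1⟩ := hH.large (D + Z + Z')
  obtain ⟨m₂, h2⟩ := hH.large (D + Z)
  obtain ⟨m₃, h3⟩ := hH.large (D + Z')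
  obtain ⟨m₄, h4⟩ := hH.large D
  have key := Mu.const_of_third (φ := fun m => chi (D + Z + Z' + m • S.H) -
    chi (D + Z + m • S.H) - chi (D + Z' + m • S.H) + chi (D + m • S.H))
    (c := ∑ᶠ x, (mult x Z Z' : ℤ)) (m₀ := max (max (max m₁ m₂) (max m₃ m₄)) k₀) (fun m => by
      have a1 := Mu.third_at hH (D + Z + Z') m
      have a2 := Mu.third_at hH (D + Z) m
      have a3 := Mu.third_at hH (D + Z') m
      have a4 := Mu.third_at hH D m
      linarith) (fun m hm => by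
      simp only [max_le_iff] at hm
      obtain ⟨⟨⟨b1, b2⟩, b3, b4⟩, b5⟩ := hm
      obtain ⟨k, rfl⟩ := Int.eq_ofNat_of_zero_le (le_trans (Int.natCast_nonneg k₀) b5)
      rw [← h1 _ b1, ← h2 _ b2, ← h3 _ b3, ← h4 _ b4]
      exact hk k (by exact_mod_cast b5)) 0
  simpa only [zero_smul, add_zero] using key

end Vale.Agent.P297Z.Sf
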