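import Vale.Agent.P297Z.Surf.Loc2A
import Mathlib.GroupTheory.CosetCover
import Mathlib.RingTheory.Valuation.LocalSubring
import Mathlib.FieldTheory.IsAlgClosed.Basic
import Mathlib.Analysis.Complex.Polynomial.Basic

/-! Divisors and sections, second half. -/

set_option linter.all false

open IsLocalRing

namespace Vale.Agent.P297Z.Sf

open Vale.Agent.P297 (Place)

namespace L2

variable {K : Type} [Field K] [Algebra ℂ K] {S : Surf K}

theorem avoid_sub {ι : Type} [Finite ι] (W : Submodule ℂ K) (p : ι → Submodule ℂ K)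
    (h : ∀ i, ∃ w ∈ W, w ∉ p i) : ∃ w ∈ W, ∀ i, w ∉ p i := by
  by_contra hc
  push Not at hc
  obtain ⟨i, hi⟩ := Subspace.exists_eq_top_of_iUnion_eq_univ
    (p := fun i => (p i).comap W.subtype)
    (Set.eq_univ_of_forall fun w => Set.mem_iUnion.2 (hc w.1 w.2))
  obtain ⟨w, hw, h1⟩ := h i
  exact h1 (show (⟨w, hw⟩ : W) ∈ (p i).comap W.subtype from hi ▸ Submodule.mem_top)

theorem avoid (h : S.Loc1) (P : Finset (Pt S.W)) (F : Finset (Crv S.W)) :
    ∃ w ∈ S.W, w ≠ 0 ∧ (∀ x ∈ P, x.In w) ∧ ∀ C ∈ F, C.In w := by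
  obtain ⟨w, hw, h1⟩ := avoid_sub (ι := Option (P ⊕ F)) S.W (fun o => o.elim ⊥
    (Sum.elim (fun x => van x.1)
      fun C => secOn (fun C' => C' = C.1) (S.H - Finsupp.single C.1 1))) (by
    rintro (_ | x | C)
    · exact ⟨S.x 0, S.x_mem 0, S.x_ne 0⟩
    · obtain ⟨w, h1, h2⟩ := x.1.exists_in
      exact ⟨w, h1, fun h3 => (mem_van.1 h3).2 h2⟩
    · obtain ⟨w, h1, h2⟩ := C.1.exists_in
      refine ⟨w, h1, fun h3 => ?_⟩
      have h4 := (mem_secOn.1 h3).resolve_left h2.1 C.1 rfl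
      rw [Finsupp.sub_apply, Finsupp.single_eq_same, hyp_in h C.1 w h1 h2] at h4
      omega)
  have h0 : w ≠ 0 := h1 none
  refine ⟨w, hw, h0, fun x hx => ?_, fun C hC => ?_⟩
  · by_contra h2
    exact h1 (some (Sum.inl ⟨x, hx⟩)) (mem_van.2 ⟨hw, h2⟩)
  · by_contra h2
    refine h1 (some (Sum.inr ⟨C, hC⟩)) (mem_secOn.2 (Or.inr fun C' e => ?_))
    obtain ⟨w₀, h3, h4⟩ := C.exists_in
    have h5 := ord_le h4 hw h0
    have h6 := mt (Crv.in_iff h4 h3 hw h0).2 h2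
    change 0 ≤ C'.ord w + (S.H - Finsupp.single C 1 : Div S.W) C'
    rw [show C' = C from e, Finsupp.sub_apply, Finsupp.single_eq_same, hyp_in h C w₀ h3 h4]
    omega

theorem sep (h : S.Loc1) (x y : Pt S.W) (hxy : x ≠ y) : ∃ w ∈ van x, y.In w := by
  classical
  obtain ⟨w, hw, h0, h1, -⟩ := avoid h {x, y} ∅
  have hx := h1 x (by simp)
  have hy := h1 y (by simp)
  by_contra hc
  push Not at hc
  have key : ∀ g ∈ chart S.W w, ∃ c : ℂ, x.Van (g - algebraMap ℂ K c) ∧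
      y.Van (g - algebraMap ℂ K c) := by
    intro g hg
    induction hg using Algebra.adjoin_induction with
    | mem g hg =>
      obtain ⟨a, ha, rfl⟩ := hg
      obtain ⟨c, h2⟩ := h.val x _ (hx.2 a ha)
      have h3 : a - c • w ∈ S.W := sub_mem ha (S.W.smul_mem c hw)
      have e : (a - c • w) / w = a / w - algebraMap ℂ K c := by
        rw [Algebra.smul_def, sub_div, mul_div_cancel_right₀ _ h0]
      refine ⟨c, h2, ?_⟩
      have h4 := hc _ (mem_van.2 ⟨h3, fun h5 => (Pt.in_iff hx hw h3).1 h5 (e ▸ h2)⟩)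
      rw [Pt.in_iff hy hw h3, not_not, e] at h4
      exact h4
    | algebraMap c => exact ⟨c, by simpa using x.van_zero, by simpa using y.van_zero⟩
    | add f g _ _ hf hg =>
      obtain ⟨c, h2, h3⟩ := hf
      obtain ⟨d, h4, h5⟩ := hg
      have e : f + g - algebraMap ℂ K (c + d) = f - algebraMap ℂ K c + (g - algebraMap ℂ K d) := by
        rw [map_add]
        ring
      exact ⟨c + d, e ▸ h2.add h4, e ▸ h3.add h5⟩
    | mul f g hf' _ hf hg =>
      obtain ⟨c, h2, h3⟩ := hf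
      obtain ⟨d, h4, h5⟩ := hg
      have e : f * g - algebraMap ℂ K (c * d) =
          f * (g - algebraMap ℂ K d) + d • (f - algebraMap ℂ K c) := by
        rw [map_mul, Algebra.smul_def]
        ring
      exact ⟨c * d, e ▸ (h4.mul_left (hx.chart_le hf')).add (h2.smul d),
        e ▸ (h5.mul_left (hy.chart_le hf')).add (h3.smul d)⟩
  obtain ⟨m, hm, h2, h3⟩ := h.pt_chart x w hw hx
  obtain ⟨m', hm', h4, h5⟩ := h.pt_chart y w hw hy
  have hle : m' ≤ m := fun a ha => by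
    obtain ⟨c, h6, h7⟩ := key a a.2
    have h8 := ((h5 a).1 ha).sub h7
    rw [sub_sub_cancel] at h8
    rw [Pt.van_const h8, map_zero, sub_zero] at h6
    exact (h3 a).2 h6
  exact hxy (h.pt_ext x y (h2 ▸ h4 ▸ loc_anti hm.isPrime hm'.isPrime hle))

/-- The functions on a chart which vanish along a curve to order at least `k`. -/
def cid {C : Crv S.W} {w : K} (hC : C.In w) (k : ℤ) : Ideal (chart S.W w) where
  carrier := {a | (a : K) = 0 ∨ k ≤ C.ord a}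
  zero_mem' := Or.inl rfl
  add_mem' := fun {a b} ha hb => by
    have key : ∀ f : K, f ∈ secOn (fun C' => C' = C) (Finsupp.single C (-k)) ↔
        f = 0 ∨ k ≤ C.ord f := fun f => by simp [mem_secOn]
    exact (key _).1 (add_mem ((key _).2 ha) ((key _).2 hb))
  smul_mem' := fun c a ha => by
    change (c : K) * a = 0 ∨ k ≤ C.pl.ord ((c : K) * a)
    by_cases h0 : (a : K) = 0
    · exact Or.inl (by simp [h0])
    by_cases h1 : (c : K) = 0
    · exact Or.inl (by simp [h1])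
    have h2 := Pl.ord_nonneg_of_mem _ (hC.chart_mem c.2)
    have h3 : k ≤ C.pl.ord a := ha.resolve_left h0
    rw [Pl.ord_mul _ h1 h0]
    exact Or.inr (by omega)

theorem mem_cid {C : Crv S.W} {w : K} (hC : C.In w) (k : ℤ) (a : chart S.W w) :
    a ∈ cid hC k ↔ (a : K) = 0 ∨ k ≤ C.ord a := Iff.rfl

theorem cid_one (h : S.Loc1) {C : Crv S.W} {w : K} (hw : w ∈ S.W) (hC : C.In w) :
    ∃ hp : (cid hC 1).IsPrime, ∀ f, f ∈ C.pl.ring ↔ f ∈ loc _ (cid hC 1) hp := by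
  obtain ⟨p, hp, -, -, h2, h3⟩ := h.crv_chart C w hw hC
  have e : p = cid hC 1 := Ideal.ext fun a => h3 a
  subst e
  exact ⟨hp, h2⟩

theorem cid_le (h : S.Loc1) {C C' : Crv S.W} {w : K} (hw : w ∈ S.W) (hC : C.In w)
    (hC' : C'.In w) (hle : cid hC 1 ≤ cid hC' 1) : C' = C := by
  obtain ⟨hp, h1⟩ := cid_one h hw hC
  obtain ⟨hp', h2⟩ := cid_one h hw hC'
  exact Crv.ext (Pl.eq_of_le' fun f hf => (h1 f).2 (loc_anti hp' hp hle ((h2 f).1 hf)))

theorem cid_two (h : S.Loc1) {C : Crv S.W} {w : K} (hw : w ∈ S.W) (hC : C.In w) :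
    ¬ cid hC 1 ≤ cid hC 2 := by
  intro hle
  obtain ⟨hp, h1⟩ := cid_one h hw hC
  obtain ⟨π, h5, h6⟩ := Pl.exists_ord_eq_one C.pl
  obtain ⟨a, b, hb, h7⟩ := (h1 π).1 ((Pl.ord_nonneg_iff _ h5).1 (zero_le_one.trans h6.ge))
  have hb0 := ne_zero_of_notMem hb
  have h8 := Pl.ord_nonneg_of_mem _ (hC.chart_mem b.2)
  have h9 : ¬ 1 ≤ C.pl.ord b := fun h10 => hb (Or.inr h10)
  have h10 : C.pl.ord a = 1 := by
    rw [← h7, Pl.ord_mul _ h5 hb0]
    omega
  have h11 : (a : K) = 0 ∨ 2 ≤ C.pl.ord a := hle (Or.inr h10.ge)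
  rcases h11 with h11 | h11
  · exact mul_ne_zero h5 hb0 (h7.trans h11)
  · omega

theorem exists_unif (h : S.Loc1) (F : Finset (Crv S.W)) {C₀ : Crv S.W} (h₀ : C₀ ∈ F) :
    ∃ τ : K, τ ≠ 0 ∧ C₀.ord τ = 1 ∧ ∀ C ∈ F, C ≠ C₀ → C.ord τ = 0 := by
  classical
  obtain ⟨w, hw, h0, -, hF⟩ := avoid h ∅ F
  have h4 := (Ideal.subset_union_prime (s := Finset.univ)
    (f := fun C : F => cid (hF C.1 C.2) (if C.1 = C₀ then 2 else 1)) ⟨C₀, h₀⟩ ⟨C₀, h₀⟩
    (fun C _ e _ => by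
      rw [if_neg fun e' => e (Subtype.ext e')]
      exact (cid_one h hw _).1) (I := cid (hF C₀ h₀) 1)).not.2 (by
    rintro ⟨⟨C, hC⟩, -, hle⟩
    by_cases e : C = C₀
    · subst e
      rw [if_pos rfl] at hle
      exact cid_two h hw _ hle
    · rw [if_neg e] at hle
      exact e (cid_le h hw _ _ hle))
  obtain ⟨a, h5, h6⟩ := Set.not_subset.1 h4
  have h7 : ∀ C (hC : C ∈ F), ¬ ((a : K) = 0 ∨ (if C = C₀ then 2 else 1) ≤ C.ord a) :=
    fun C hC h8 => h6 (Set.mem_iUnion₂.2 ⟨⟨C, hC⟩, Finset.mem_univ _, h8⟩)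
  have h9 := h7 C₀ h₀
  have h10 : (a : K) = 0 ∨ 1 ≤ C₀.ord a := h5
  have h11 : (a : K) ≠ 0 := fun e => h9 (Or.inl e)
  rw [if_pos rfl, not_or] at h9
  refine ⟨a, h11, ?_, fun C hC e => ?_⟩
  · have := h10.resolve_left h11
    omega
  · have h12 := h7 C hC
    rw [if_neg e, not_or] at h12
    have h14 : 0 ≤ C.ord a := Pl.ord_nonneg_of_mem _ ((hF C hC).chart_mem a.2)
    omega

theorem move (h : S.Loc1) (F : Finset (Crv S.W)) (n : Crv S.W → ℤ) :
    ∃ g : K, g ≠ 0 ∧ ∀ C ∈ F, C.ord g = n C := by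
  choose! τ h0 h1 h2 using fun C (hC : C ∈ F) => exists_unif h F hC
  have h3 : ∀ C ∈ F, τ C ^ n C ≠ 0 := fun C hC => zpow_ne_zero _ (h0 C hC)
  refine ⟨∏ C ∈ F, τ C ^ n C, Finset.prod_ne_zero_iff.2 h3, fun C hC => ?_⟩
  unfold Crv.ord at *
  rw [ord_prod _ _ _ h3, Finset.sum_eq_single_of_mem C hC fun C' hC' e => by
    rw [Pl.ord_zpow, h2 C' hC' C hC e.symm, mul_zero], Pl.ord_zpow, h1 C hC, mul_one]

theorem const (h : S.Loc1) (f : K) (hf : f ∈ H0 (0 : Div S.W)) :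
    ∃ c : ℂ, f = algebraMap ℂ K c := by
  have hi : IsIntegral ℂ f := by
    by_contra hc
    haveI : IsIntegrallyClosedIn (integralClosure ℂ K).toSubring K :=
      inferInstanceAs (IsIntegrallyClosedIn (integralClosure ℂ K) K)
    obtain ⟨V, h1, h2⟩ := Subring.exists_le_valuationSubring_of_isIntegrallyClosedIn
      (R := (integralClosure ℂ K).toSubring) (x := f) hc
    have h3 : ∀ c, algebraMap ℂ K c ∈ V := fun c => h1 ((integralClosure ℂ K).algebraMap_mem c)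
    obtain ⟨i, hi⟩ := h.center V h3
    exact h2 (chart_le (B := { V.toSubring with algebraMap_mem' := h3 }) hi
      ((sec_chart h _ (S.x_mem i) (S.x_ne i) f).1
        (secOn_mono (fun _ _ => ⟨trivial, le_rfl⟩) hf)))
  obtain ⟨c, hc⟩ := minpoly.degree_eq_one_iff.1
    (IsAlgClosed.degree_eq_one_of_irreducible ℂ (minpoly.irreducible hi))
  exact ⟨c, hc.symm⟩

theorem gen_chart (h : S.Loc1) {w : K} (hw : w ∈ S.W) (h0 : w ≠ 0) (D : Div S.W) :
    ∃ n₀ : ℕ, ∀ n : ℕ, n₀ ≤ n → ∀ x : Pt S.W, x.In w →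
      ∃ s ∈ M D n, GenAt x (D + (n : ℤ) • S.H) s := by
  let T₀ : Set (chart S.W w) :=
    {a | ∃ f ∈ secIn w D, ∀ y : Pt S.W, y.In w → ¬ y.Van a → GenAt y D f}
  have h1 : Ideal.span T₀ = ⊤ := by
    by_contra hc
    obtain ⟨m, hm, hle⟩ := Ideal.exists_le_maximal _ hc
    obtain ⟨x, hx, h2, -⟩ := exists_pt hw h0 m hm
    obtain ⟨s, hs0, hs⟩ := gen h x D
    obtain ⟨b, hb, h3, h4⟩ := stalk_sec h x w hw hx D s (Or.inr fun C hC => (hs C hC).ge)
    obtain ⟨hb0, hb1⟩ := Pt.inv_mem (hx.chart_le hb) h3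
    obtain ⟨a, ha, h5, h6⟩ := exists_kill h hw hx 1
      (T := {C | C.In w ∧ C.ord (b * s) + D C ≠ 0}) ((fin_bad h _ D).subset fun C hC => hC.2)
      fun C hC => ⟨hC.1, fun h7 => hC.2 (by
        have h8 := hs C h7
        unfold Crv.ord at *
        rw [Pl.ord_mul _ hb0 hs0, Pl.ord_unit _ (h7 _ (hx.chart_le hb)) (h7 _ hb1), zero_add, h8])⟩
    have h7 : (⟨a, ha⟩ : chart S.W w) ∈ T₀ := by
      refine ⟨b * s, h4, fun y hy h8 => ⟨mul_ne_zero hb0 hs0, fun C hC => ?_⟩⟩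
      by_contra h9
      exact h8 ((h.on_iff y C w hw hy (hC.crv_in hy)).1 hC a ha (h6 C ⟨hC.crv_in hy, h9⟩))
    obtain ⟨h8, h9⟩ := Pt.inv_mem (hx.chart_le ha) h5
    rw [h2] at h9
    exact (inv_mem_loc_iff hm.isPrime (b := ⟨a, ha⟩) h8).1 h9 (hle (Ideal.subset_span h7))
  obtain ⟨T, hT, h2⟩ := Submodule.mem_span_finite_of_mem_span ((Ideal.eq_top_iff_one _).1 h1)
  choose f hf h3 using fun a : T => hT a.2
  choose N hN using fun a : T => sec_mul h w hw h0 D (f a) (hf a)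
  refine ⟨∑ a, N a, fun n hn x hx => ?_⟩
  obtain ⟨m, hm, -, h4⟩ := h.pt_chart x w hw hx
  obtain ⟨a, ha, h5⟩ : ∃ a ∈ T, a ∉ m := by
    by_contra hc
    push Not at hc
    exact hm.ne_top ((Ideal.eq_top_iff_one _).2 (Submodule.span_le.2 hc h2))
  obtain ⟨h6, h7⟩ := h3 ⟨a, ha⟩ x hx fun h6 => h5 ((h4 a).2 h6)
  refine ⟨_, hN ⟨a, ha⟩ n ((Finset.single_le_sum (fun _ _ => Nat.zero_le _)
    (Finset.mem_univ _)).trans hn), mul_ne_zero h6 (pow_ne_zero _ h0), fun C hC => ?_⟩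
  have h8 := h7 C hC
  have h9 := hyp_in h C w hw (hC.crv_in hx)
  unfold Crv.ord at *
  rw [Pl.ord_mul _ h6 (pow_ne_zero _ h0), Pl.ord_pow, Finsupp.add_apply, Finsupp.smul_apply, h9,
    smul_eq_mul]
  linarith

theorem gen_sec (h : S.Loc1) (D : Div S.W) : ∃ m₀ : ℤ, ∀ m, m₀ ≤ m → ∀ x : Pt S.W,
    ∃ s ∈ M D m, GenAt x (D + m • S.H) s := by
  choose N hN using fun i => gen_chart h (S.x_mem i) (S.x_ne i) D
  refine ⟨(∑ i, N i : ℕ), fun m hm x => ?_⟩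
  obtain ⟨n, rfl⟩ := Int.eq_ofNat_of_zero_le ((Int.natCast_nonneg _).trans hm)
  obtain ⟨i, hi⟩ := h.pt_cover x
  exact hN i n ((Finset.single_le_sum (fun _ _ => Nat.zero_le _)
    (Finset.mem_univ _)).trans (Int.ofNat_le.1 hm)) x hi

end L2

theorem loc2 : LOC2 := fun _ _ _ _ h =>
  ⟨L2.fin_div h, L2.hyp_in h, L2.normal h, L2.gen h, L2.sec_chart h, L2.sec_mul h,
    L2.stalk_sec h, L2.avoid h, L2.sep h, L2.move h, L2.const h, L2.gen_sec h⟩

end Vale.Agent.P297Z.Sf
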