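import Vale.Agent.P297Z.Surf.Sk
import Mathlib.RingTheory.Ideal.Height

/-! Local intersection multiplicities. -/

set_option linter.all false

open IsLocalRing

namespace Vale.Agent.P297Z.Sf

open Vale.Agent.P297 (Place)

variable {K : Type} [Field K] [Algebra ℂ K] {S : Surf K}

namespace Mu

theorem div_mem_secOn {W : Submodule ℂ K} {P : Crv W → Prop} {D D' : Div W} {s f : K}
    (hs : s ≠ 0) (h : ∀ C, P C → D C + C.ord s = D' C) :
    f / s ∈ secOn P D' ↔ f ∈ secOn P D := by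
  by_cases hf : f = 0
  · subst hf
    simp
  rw [mem_secOn, mem_secOn]
  simp only [hf, div_ne_zero hf hs, false_or]
  refine forall₂_congr fun C hC => ?_
  have := h C hC
  unfold Crv.ord at *
  rw [Pl.ord_div _ hf hs]
  omega

theorem div_mem_ring (hL : S.Loc) {x : Pt S.W} {D : Div S.W} {s f : K} (hs : GenAt x D s) :
    f / s ∈ x.ring ↔ f ∈ stalk x D := by
  rw [← hL.normal]
  refine div_mem_secOn hs.1 fun C hC => ?_
  have := hs.2 C hC
  rw [Finsupp.zero_apply]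
  omega

/-- The ideal of an effective divisor is generated by a local equation. -/
theorem exists_eqn (hL : S.Loc) (x : Pt S.W) {Z : Div S.W} (hZ : 0 ≤ Z) :
    ∃ a : x.ring, a ≠ 0 ∧ idl x Z = Ideal.span {a} ∧ ∀ C, x.On C → C.ord a = Z C := by
  obtain ⟨s, hs⟩ := hL.gen x (-Z)
  have h1 : ∀ C, x.On C → C.ord s = Z C := fun C hC => by
    have := hs.2 C hC
    rw [Finsupp.neg_apply] at this
    omega
  have h2 : s ∈ x.ring := (hL.normal x s).1 (Or.inr fun C hC => by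
    have : 0 ≤ Z C := hZ C
    rw [h1 C hC, Finsupp.zero_apply]
    omega)
  refine ⟨⟨s, h2⟩, fun h => hs.1 (congrArg Subtype.val h), ?_, h1⟩
  ext f
  rw [mem_idl, ← div_mem_ring hL hs, Ideal.mem_span_singleton']
  constructor
  · intro h
    exact ⟨⟨_, h⟩, Subtype.ext (div_mul_cancel₀ _ hs.1)⟩
  · rintro ⟨c, rfl⟩
    have : ((c * ⟨s, h2⟩ : x.ring) : K) / s = c := mul_div_cancel_right₀ _ hs.1
    rw [this]
    exact c.2

theorem exists_pow_le (hL : S.Loc) (x : Pt S.W) {Z Z' : Div S.W} (hZ : 0 ≤ Z) (hZ' : 0 ≤ Z')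
    (h : ∀ C, Z C = 0 ∨ Z' C = 0) :
    ∃ n : ℕ, maximalIdeal x.ring ^ n ≤ idl x Z ⊔ idl x Z' := by
  have := hL.reg x
  have := hL.ufd x
  obtain ⟨a, ha, h1, h2⟩ := exists_eqn hL x hZ
  obtain ⟨b, hb, h3, h4⟩ := exists_eqn hL x hZ'
  refine Ideal.exists_pow_le_of_le_radical_of_fg ?_ (IsNoetherian.noetherian _)
  rw [Ideal.radical_eq_sInf]
  refine le_sInf ?_
  rintro P ⟨hP, hp⟩
  by_contra hne
  have hlt : P < maximalIdeal x.ring :=
    lt_of_le_of_ne (le_maximalIdeal hp.ne_top) fun e => hne e.ge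
  have haP : a ∈ P := hP (Ideal.mem_sup_left (h1 ▸ Ideal.mem_span_singleton_self a))
  have hbP : b ∈ P := hP (Ideal.mem_sup_right (h3 ▸ Ideal.mem_span_singleton_self b))
  obtain ⟨t, htP, ht⟩ := hp.exists_mem_prime_of_ne_bot fun e => ha (by simpa [e] using haP)
  have htp : (Ideal.span {t}).IsPrime := (Ideal.span_singleton_prime ht.ne_zero).2 ht
  have hle : Ideal.span {t} ≤ P := (Ideal.span_singleton_le_iff_mem P).2 htP
  have heq : Ideal.span {t} = P := by
    by_contra hc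
    have b0 : (⊥ : Ideal x.ring).IsPrime := Ideal.isPrime_bot
    have a1 := Ideal.height_add_one_le_of_lt_of_isPrime
      (show (⊥ : Ideal x.ring) < Ideal.span {t} from
        bot_lt_iff_ne_bot.2 fun e => ht.ne_zero (Ideal.span_singleton_eq_bot.1 e))
    have a2 := Ideal.height_add_one_le_of_lt_of_isPrime (lt_of_le_of_ne hle hc)
    have a3 := Ideal.height_add_one_le_of_lt_of_isPrime hlt
    have a4 := Ideal.height_le_ringKrullDim_of_isPrime (I := maximalIdeal x.ring)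
    rw [hL.dim x] at a4
    have a5 : (maximalIdeal x.ring).height ≤ 2 := WithBot.coe_le_coe.1 a4
    have a6 : (3 : ℕ∞) ≤ (maximalIdeal x.ring).height := by
      have c1 : (1 : ℕ∞) ≤ (Ideal.span {t}).height := le_add_self.trans a1
      have c2 : (1 : ℕ∞) + 1 ≤ P.height := (add_le_add_left c1 1).trans a2
      have c3 : (1 : ℕ∞) + 1 + 1 ≤ (maximalIdeal x.ring).height := (add_le_add_left c2 1).trans a3
      exact c3
    exact absurd (a6.trans a5) (by decide)
  obtain ⟨C, hC, -, -, h5⟩ := hL.crv_of_irr x t ht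
  rw [← heq, Ideal.mem_span_singleton, h5] at haP hbP
  have c1 := haP.resolve_left fun e => ha (Subtype.ext e)
  have c2 := hbP.resolve_left fun e => hb (Subtype.ext e)
  rw [h2 C hC] at c1
  rw [h4 C hC] at c2
  rcases h C with e | e <;> omega

theorem exists_fg_mod (hL : S.Loc) (x : Pt S.W) (J : Ideal x.ring) :
    ∃ V : Submodule ℂ x.ring, V.FG ∧ ∀ f ∈ J, ∃ v ∈ V, f - v ∈ J * maximalIdeal x.ring := by
  have := hL.reg x
  obtain ⟨s, rfl⟩ : J.FG := IsNoetherian.noetherian _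
  refine ⟨Submodule.span ℂ s, ⟨s, rfl⟩, fun f hf => ?_⟩
  obtain ⟨c, -, rfl⟩ := Submodule.mem_span_finset.1 hf
  choose l hl using fun g : x.ring => hL.val x (c g) (c g).2
  refine ⟨∑ g ∈ s, l g • g, sum_mem fun g hg => Submodule.smul_mem _ _ (Submodule.subset_span hg),
    ?_⟩
  rw [← Finset.sum_sub_distrib]
  refine sum_mem fun g hg => ?_
  have e : c g • g - l g • g = g * (c g - algebraMap ℂ x.ring (l g)) := by
    rw [smul_eq_mul, Algebra.smul_def]
    ring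
  rw [e]
  exact Ideal.mul_mem_mul (Ideal.subset_span hg) ((x.mem_max _).2 (hl g))

theorem exists_fg_pow (hL : S.Loc) (x : Pt S.W) (n : ℕ) :
    ∃ V : Submodule ℂ x.ring, V.FG ∧ ∀ f, ∃ v ∈ V, f - v ∈ maximalIdeal x.ring ^ n := by
  induction n with
  | zero => exact ⟨⊥, Submodule.fg_bot, fun f => ⟨0, zero_mem _, by simp⟩⟩
  | succ n ih =>
    obtain ⟨V, hV, h1⟩ := ih
    obtain ⟨V', hV', h2⟩ := exists_fg_mod hL x (maximalIdeal x.ring ^ n)
    refine ⟨V ⊔ V', hV.sup hV', fun f => ?_⟩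
    obtain ⟨v, hv, h3⟩ := h1 f
    obtain ⟨v', hv', h4⟩ := h2 _ h3
    refine ⟨v + v', Submodule.add_mem_sup hv hv', ?_⟩
    rw [pow_succ, ← sub_sub]
    exact h4

theorem finite_quot (hL : S.Loc) (x : Pt S.W) {I : Ideal x.ring} {n : ℕ}
    (h : maximalIdeal x.ring ^ n ≤ I) : Module.Finite ℂ (x.ring ⧸ I) := by
  obtain ⟨V, hV, h1⟩ := exists_fg_pow hL x n
  refine ⟨?_⟩
  have e : V.map (Ideal.Quotient.mkₐ ℂ I).toLinearMap = ⊤ := by
    rw [eq_top_iff]
    intro q _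
    obtain ⟨f, rfl⟩ := Ideal.Quotient.mk_surjective q
    obtain ⟨v, hv, h2⟩ := h1 f
    exact ⟨v, hv, (Ideal.Quotient.eq.2 (h h2)).symm⟩
  rw [← e]
  exact hV.map _

theorem idl_le_max (hL : S.Loc) (x : Pt S.W) {Z : Div S.W} (hZ : 0 ≤ Z) :
    idl x Z ≤ maximalIdeal x.ring ↔ ∃ C, x.On C ∧ Z C ≠ 0 := by
  obtain ⟨a, ha, h1, h2⟩ := exists_eqn hL x hZ
  have ha' : (a : K) ≠ 0 := fun e => ha (Subtype.ext e)
  rw [h1, Ideal.span_singleton_le_iff_mem, x.mem_max]
  constructor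
  · intro h
    by_contra hc
    refine h.2.resolve_left ha' ((hL.normal x _).1 (Or.inr fun C hC => ?_))
    have h3 : Z C = 0 := by_contra fun e => hc ⟨C, hC, e⟩
    have h4 := h2 C hC
    unfold Crv.ord at *
    rw [Pl.ord_inv, h4, h3]
    simp
  · rintro ⟨C, hC, h3⟩
    refine ⟨a.2, Or.inr fun h4 => h3 ?_⟩
    rw [← h2 C hC]
    exact Pl.ord_unit _ (hC _ a.2) (hC _ h4)

end Mu

theorem mult_pos : MULT := by
  intro K _ _ S hL x Z Z' hZ hZ' h
  obtain ⟨n, hn⟩ := Mu.exists_pow_le hL x hZ hZ' h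
  have hf := Mu.finite_quot hL x hn
  refine ⟨hf, ?_⟩
  rw [← Mu.idl_le_max hL x hZ, ← Mu.idl_le_max hL x hZ', ← sup_le_iff, mult, Ne,
    Module.finrank_zero_iff, Ideal.Quotient.subsingleton_iff]
  exact ⟨le_maximalIdeal, fun h1 h2 => (maximalIdeal.isMaximal x.ring).ne_top
    (top_le_iff.1 (h2 ▸ h1))⟩

end Vale.Agent.P297Z.Sf
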