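import Vale.Agent.P297Z.Surf.Sk
import Mathlib.Algebra.MvPolynomial.Funext
import Mathlib.RingTheory.AlgebraicIndependent.TranscendenceBasis

/-! Models and the linear Noether normalisation. -/

set_option linter.all false

open Submodule

namespace Vale.Agent.P297Z.Sf

variable {K : Type} [Field K] [Algebra ℂ K] {W : Submodule ℂ K}

namespace NNb

theorem chart_ft (hW : FiniteDimensional ℂ W) (w : K) : Algebra.FiniteType ℂ (chart W w) := by
  classical
  obtain ⟨s, hs⟩ := (Module.Finite.iff_fg (N := W)).1 hW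
  refine (Subalgebra.fg_iff_finiteType _).1 ⟨s.image fun a => a / w, le_antisymm ?_ ?_⟩
  · refine Algebra.adjoin_le fun z hz => ?_
    obtain ⟨a, ha, rfl⟩ := Finset.mem_image.1 (Finset.mem_coe.1 hz)
    exact div_mem_chart (hs ▸ subset_span ha)
  · refine chart_le fun a ha => ?_
    rw [← hs] at ha
    induction ha using span_induction with
    | mem a ha => exact Algebra.subset_adjoin (Finset.mem_coe.2 (Finset.mem_image_of_mem _ ha))
    | zero => rw [zero_div]; exact zero_mem _
    | add a b _ _ h1 h2 => rw [add_div]; exact add_mem h1 h2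
    | smul c a _ h => rw [smul_div_assoc]; exact Subalgebra.smul_mem _ h c

theorem frac_of {w₀ w : K} (hw₀ : w₀ ∈ W) (h : IsFractionRing (chart W w₀) K) (h0 : w ≠ 0) :
    IsFractionRing (chart W w) K := by
  have key : ∀ a ∈ chart W w₀, ∃ p q : chart W w, (q : K) ≠ 0 ∧ a * q = p := by
    have : chart W w₀ ≤ loc (chart W w) ⊥ Ideal.isPrime_bot := chart_le fun a ha => by
      by_cases e : w₀ = 0
      · rw [e, div_zero]; exact zero_mem _
      · refine ⟨⟨a / w, div_mem_chart ha⟩, ⟨w₀ / w, div_mem_chart hw₀⟩, fun hb => ?_, ?_⟩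
        · exact div_ne_zero e h0 (congrArg Subtype.val (Ideal.mem_bot.1 hb))
        · show a / w₀ * (w₀ / w) = a / w
          field_simp
    intro a ha
    obtain ⟨p, q, hq, e⟩ := this ha
    exact ⟨p, q, ne_zero_of_notMem hq, e⟩
  refine IsFractionRing.of_field _ _ fun z => ?_
  obtain ⟨a, b, hb, rfl⟩ := IsFractionRing.div_surjective (A := chart W w₀) z
  obtain ⟨p, q, hq, e⟩ := key a a.2
  obtain ⟨p', q', hq', e'⟩ := key b b.2
  refine ⟨p * q', q * p', ?_⟩
  show (a : K) / b = (p * q' : K) / (q * p')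
  rw [← e, ← e']
  by_cases hb0 : (b : K) = 0
  · simp [hb0]
  · field_simp

/-- `U` is a reduction of `W`. -/
def Red (W U : Submodule ℂ K) : Prop := ∃ n : ℕ, W ^ (n + 1) ≤ U * W ^ n

theorem Red.trans {U U' : Submodule ℂ K} (h : Red W U) (hU : U ≤ W) (h' : Red U U') :
    Red W U' := by
  obtain ⟨n, h⟩ := h
  obtain ⟨d, h'⟩ := h'
  have key : ∀ k, W ^ (n + k) ≤ U ^ k * W ^ n := by
    intro k
    induction k with
    | zero => simp
    | succ k ih =>
      calc W ^ (n + (k + 1)) = W ^ (n + k) * W := by rw [← add_assoc, pow_succ]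
        _ ≤ U ^ k * W ^ n * W := mul_le_mul' ih le_rfl
        _ = U ^ k * W ^ (n + 1) := by rw [mul_assoc, pow_succ]
        _ ≤ U ^ k * (U * W ^ n) := mul_le_mul' le_rfl h
        _ = U ^ (k + 1) * W ^ n := by rw [← mul_assoc, pow_succ]
  refine ⟨n + d, ?_⟩
  calc W ^ (n + d + 1) ≤ U ^ (d + 1) * W ^ n := key (d + 1)
    _ ≤ U' * U ^ d * W ^ n := mul_le_mul' h' le_rfl
    _ ≤ U' * W ^ d * W ^ n := mul_le_mul' (mul_le_mul' le_rfl (pow_le_pow_left' hU d)) le_rfl
    _ = U' * W ^ (n + d) := by rw [mul_assoc, ← pow_add, add_comm]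

theorem red_of_pow {U U' : Submodule ℂ K} {v : K} (hv : v ∈ U) (hU : U ≤ U' ⊔ span ℂ {v}) {d : ℕ}
    (h : v ^ (d + 1) ∈ U' * U ^ d) : Red U U' := by
  have h1 : span ℂ {v} ≤ U := (span_singleton_le_iff_mem v U).2 hv
  have key : ∀ k, U ^ (k + 1) ≤ U' * U ^ k ⊔ span ℂ {v} ^ (k + 1) := by
    intro k
    induction k with
    | zero => simpa using hU
    | succ k ih =>
      calc U ^ (k + 1 + 1) = U * U ^ (k + 1) := pow_succ' _ _
        _ ≤ (U' ⊔ span ℂ {v}) * U ^ (k + 1) := mul_le_mul' hU le_rfl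
        _ = U' * U ^ (k + 1) ⊔ span ℂ {v} * U ^ (k + 1) := sup_mul _ _ _
        _ ≤ U' * U ^ (k + 1) ⊔ span ℂ {v} ^ (k + 1 + 1) := by
          refine sup_le le_sup_left ((mul_le_mul' le_rfl ih).trans ?_)
          rw [Submodule.mul_sup, ← pow_succ']
          refine sup_le_sup_right ?_ _
          rw [mul_left_comm, pow_succ']
          exact mul_le_mul' le_rfl (mul_le_mul' h1 le_rfl)
  refine ⟨d, (key d).trans (sup_le le_rfl ?_)⟩
  rw [span_pow, Set.singleton_pow]
  exact (span_singleton_le_iff_mem _ _).2 h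

theorem poly_mem {N : ℕ} {U U' : Submodule ℂ K} {v : K} (hv : v ∈ U) (h0 : v ≠ 0)
    {u : Fin N → K} (hu : ∀ i, u i ∈ U) {c : Fin N → ℂ} (hc : ∀ i, u i - c i • v ∈ U')
    (P : MvPolynomial (Fin N) ℂ) : ∃ d₀, ∀ d, d₀ ≤ d →
      (MvPolynomial.aeval (fun i => u i / v) P - algebraMap ℂ K (MvPolynomial.eval c P)) *
        v ^ (d + 1) ∈ U' * U ^ d := by
  induction P using MvPolynomial.induction_on with
  | C a => exact ⟨0, fun d _ => by simp⟩
  | add P Q h1 h2 =>
    obtain ⟨d₁, h1⟩ := h1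
    obtain ⟨d₂, h2⟩ := h2
    refine ⟨max d₁ d₂, fun d hd => ?_⟩
    rw [map_add, map_add, map_add, add_sub_add_comm, add_mul]
    exact add_mem (h1 d (le_of_max_le_left hd)) (h2 d (le_of_max_le_right hd))
  | mul_X P i h =>
    obtain ⟨d₀, h⟩ := h
    refine ⟨d₀ + 1, fun d hd => ?_⟩
    obtain ⟨d, rfl⟩ : ∃ e, d = e + 1 := ⟨d - 1, by omega⟩
    have h1 := h d (by omega)
    have e : (MvPolynomial.aeval (fun i => u i / v) (P * MvPolynomial.X i) -
        algebraMap ℂ K (MvPolynomial.eval c (P * MvPolynomial.X i))) * v ^ (d + 1 + 1) =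
        (MvPolynomial.aeval (fun i => u i / v) P - algebraMap ℂ K (MvPolynomial.eval c P)) *
          v ^ (d + 1) * u i + MvPolynomial.eval c P • ((u i - c i • v) * v ^ (d + 1)) := by
      simp only [map_mul, MvPolynomial.aeval_X, MvPolynomial.eval_X, Algebra.smul_def]
      field_simp
      ring
    rw [e]
    refine add_mem ?_ (smul_mem _ _ (mul_mem_mul (hc i) (pow_mem_pow U hv _)))
    rw [pow_succ U, ← mul_assoc]
    exact mul_mem_mul h1 (hu i)

/-- An algebraic relation allows to drop one linear form. -/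
theorem drop {N : ℕ} (x : Fin (N + 1) → K)
    (h : x 0 = 0 ∨ ¬ AlgebraicIndependent ℂ fun i : Fin N => x i.succ / x 0) :
    ∃ y : Fin N → K, (∀ i, y i ∈ span ℂ (Set.range x)) ∧
      Red (span ℂ (Set.range x)) (span ℂ (Set.range y)) := by
  have hx : ∀ i, x i ∈ span ℂ (Set.range x) := fun i => subset_span ⟨i, rfl⟩
  have hle : ∀ c : Fin N → ℂ, span ℂ (Set.range x) ≤
      span ℂ (Set.range fun i => x i.succ - c i • x 0) ⊔ span ℂ {x 0} := fun c => by
    rw [span_le]
    rintro _ ⟨i, rfl⟩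
    refine Fin.cases (mem_sup_right (mem_span_singleton_self _)) (fun i => ?_) i
    rw [← sub_add_cancel (x i.succ) (c i • x 0)]
    exact add_mem_sup (subset_span ⟨i, rfl⟩) (smul_mem _ _ (mem_span_singleton_self _))
  by_cases h0 : x 0 = 0
  · exact ⟨_, fun i => sub_mem (hx _) (smul_mem _ _ (hx 0)),
      red_of_pow (hx 0) (hle 0) (d := 0) (by simp [h0])⟩
  rw [algebraicIndependent_iff] at h
  push Not at h
  obtain ⟨P, hP, hP0⟩ := h.resolve_left h0
  obtain ⟨c, hc⟩ : ∃ c, MvPolynomial.eval c P ≠ 0 := by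
    by_contra hcon
    push Not at hcon
    exact hP0 (MvPolynomial.funext fun c => by rw [hcon c, map_zero])
  obtain ⟨d, hd⟩ := poly_mem (hx 0) h0 (fun i : Fin N => hx i.succ)
    (U' := span ℂ (Set.range fun i => x i.succ - c i • x 0)) (c := c)
    (fun i => subset_span ⟨i, rfl⟩) P
  refine ⟨_, fun i => sub_mem (hx _) (smul_mem _ _ (hx 0)), red_of_pow (hx 0) (hle c) (d := d) ?_⟩
  have h1 := smul_mem _ (-(MvPolynomial.eval c P)⁻¹) (hd d le_rfl)
  rwa [hP, zero_sub, neg_mul, ← Algebra.smul_def, smul_neg, neg_smul, neg_neg, smul_smul,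
    inv_mul_cancel₀ hc, one_smul] at h1

theorem Red.isIntegral (hW : FiniteDimensional ℂ W) (hne : W ≠ ⊥) {U : Submodule ℂ K}
    (h : Red W U) (v : K) {A : Subalgebra ℂ K} (hA : ∀ u ∈ U, u / v ∈ A) {a : K} (ha : a ∈ W) :
    IsIntegral A (a / v) := by
  obtain ⟨n, h⟩ := h
  obtain ⟨w, hw, hw0⟩ := exists_mem_ne_zero_of_ne_bot hne
  have hfg : (W ^ n).FG := ((Module.Finite.iff_fg (N := W)).1 hW).pow n
  refine isIntegral_of_smul_mem_submodule (span A ((W ^ n : Submodule ℂ K) : Set K))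
    (fun e => pow_ne_zero n hw0 ?_) hfg.span _ fun g hg => ?_
  · exact (Submodule.eq_bot_iff _).1 e _ (subset_span (pow_mem_pow W hw n))
  · induction hg using span_induction with
    | mem g hg =>
      have h1 : g * a ∈ U * W ^ n := h (pow_succ W n ▸ mul_mem_mul hg ha)
      have h2 : ∀ z ∈ U * W ^ n, z / v ∈ span A ((W ^ n : Submodule ℂ K) : Set K) :=
        fun z hz => Submodule.mul_induction_on hz (fun u hu m hm => by
          have := smul_mem (span A ((W ^ n : Submodule ℂ K) : Set K)) (⟨u / v, hA u hu⟩ : A)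
            (subset_span hm)
          rw [mul_div_right_comm]
          exact this) fun p q hp hq => by rw [add_div]; exact add_mem hp hq
      rw [smul_eq_mul, div_mul_eq_mul_div, mul_comm]
      exact h2 _ h1
    | zero => rw [smul_zero]; exact zero_mem _
    | add p q _ _ h1 h2 => rw [smul_add]; exact add_mem h1 h2
    | smul c p _ h1 => rw [smul_comm]; exact smul_mem _ _ h1

theorem Red.isAlgebraic (hW : IsModel W) {U : Submodule ℂ K} (h : Red W U) {v : K} (hv : v ∈ W)
    (h0 : v ≠ 0) {A : Subalgebra ℂ K} (hA : ∀ u ∈ U, u / v ∈ A) : Algebra.IsAlgebraic A K := by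
  have h1 : ∀ a ∈ chart W v, IsIntegral A a := fun a ha =>
    chart_le (B := (integralClosure A K).restrictScalars ℂ)
      (fun a ha => h.isIntegral hW.fin hW.ne v hA ha) ha
  have := hW.frac v hv h0
  refine ⟨fun z => ?_⟩
  obtain ⟨a, b, -, rfl⟩ := IsFractionRing.div_surjective (A := chart W v) z
  rw [div_eq_mul_inv]
  exact (h1 a a.2).isAlgebraic.mul (h1 b b.2).isAlgebraic.inv

end NNb

open NNb

theorem model : MODEL := by
  rintro K _ _ W hW hne htd ⟨w₀, hw₀, hf⟩ hreg
  refine ⟨hW, hne, htd, fun w _ h0 => frac_of hw₀ hf h0, fun w hw h0 => ?_⟩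
  have := chart_ft hW w
  have : IsNoetherianRing (chart W w) := Algebra.FiniteType.isNoetherianRing ℂ _
  refine isRegularRing_iff.2 fun p hp => ?_
  have := hreg w hw h0 p hp
  exact IsRegularLocalRing.of_ringEquiv
    (IsLocalization.algEquiv p.primeCompl (loc _ p hp) (Localization.AtPrime p)).toRingEquiv

theorem nn : NN := by
  classical
  intro K _ _ W hW
  have hex : ∃ N, ∃ x : Fin N → K, (∀ i, x i ∈ W) ∧ Red W (span ℂ (Set.range x)) := by
    obtain ⟨N, x, hx⟩ := fg_iff_exists_fin_generating_family.1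
      ((Module.Finite.iff_fg (N := W)).1 hW.fin)
    exact ⟨N, x, fun i => hx ▸ subset_span ⟨i, rfl⟩, 0, by simp [hx]⟩
  obtain ⟨x, hx, hr⟩ := Nat.find_spec hex
  have hmin := fun m => Nat.find_min hex (m := m)
  generalize Nat.find hex = N at x hx hr hmin
  rcases N with _ | N
  · obtain ⟨n, hn⟩ := hr
    obtain ⟨w, hw, hw0⟩ := exists_mem_ne_zero_of_ne_bot hW.ne
    have := hn (pow_mem_pow W hw (n + 1))
    simp [hw0] at this
  have hle : span ℂ (Set.range x) ≤ W := span_le.2 (by rintro _ ⟨i, rfl⟩; exact hx i)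
  have key : ¬ (x 0 = 0 ∨ ¬ AlgebraicIndependent ℂ fun i : Fin N => x i.succ / x 0) := fun h => by
    obtain ⟨y, hy, hy'⟩ := drop x h
    exact hmin N N.lt_succ_self ⟨y, fun i => hle (hy i), hr.trans hle hy'⟩
  rw [not_or, not_not] at key
  obtain ⟨h0, hind⟩ := key
  have halg := hr.isAlgebraic hW (hx 0) h0
    (A := Algebra.adjoin ℂ (Set.range fun i : Fin N => x i.succ / x 0)) fun u hu => by
      induction hu using span_induction with
      | mem u hu =>
        obtain ⟨i, rfl⟩ := hu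
        refine Fin.cases ?_ (fun i => Algebra.subset_adjoin ⟨i, rfl⟩) i
        rw [div_self h0]
        exact one_mem _
      | zero => rw [zero_div]; exact zero_mem _
      | add a b _ _ h1 h2 => rw [add_div]; exact add_mem h1 h2
      | smul c a _ h => rw [smul_div_assoc]; exact Subalgebra.smul_mem _ h c
  have hN := (hind.isTranscendenceBasis_iff_isAlgebraic.2 halg).cardinalMk_eq_trdeg
  rw [hW.td, Cardinal.mk_fin] at hN
  obtain rfl : N = 2 := by exact_mod_cast hN
  refine ⟨⟨W, hW, x, hx, fun i => ?_, ?_, hr⟩, rfl⟩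
  · refine Fin.cases h0 (fun i e => hind.ne_zero i ?_) i
    rw [e, zero_div]
  · rwa [show ![x 1 / x 0, x 2 / x 0] = fun i : Fin 2 => x i.succ / x 0 from by
      funext i
      fin_cases i <;> rfl]

end Vale.Agent.P297Z.Sf
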