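import Vale.Agent.P297Z.Surf.Sk

/-! The theorem of Riemann and Roch, and the positivity of the hyperplane class. -/

set_option linter.all false

namespace Vale.Agent.P297Z.Sf

open Vale.Agent.P297 (Place)

variable {K : Type} [Field K] [Algebra ℂ K] {S : Surf K}

theorem div_apply (h : S.Loc2) (f : K) (C : Crv S.W) : div S.W f C = C.ord f :=
  toDiv_apply (h.fin_div f) C

theorem mem_secOn_div (h : S.Loc2) {P : Crv S.W → Prop} {D : Div S.W} {g : K} (hg : g ≠ 0)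
    (f : K) : f ∈ secOn P (D + div S.W g) ↔ f * g ∈ secOn P D := by
  by_cases hf : f = 0
  · simp [hf]
  rw [mem_secOn, mem_secOn, or_iff_right hf, or_iff_right (mul_ne_zero hf hg)]
  refine forall_congr' fun C => forall_congr' fun _ => ?_
  rw [Finsupp.add_apply, div_apply h]
  unfold Crv.ord
  rw [Pl.ord_mul _ hf hg]
  constructor <;> intro <;> omega

theorem h0_lin (h : S.Loc2) (D : Div S.W) {g : K} (hg : g ≠ 0) : h0 (D + div S.W g) = h0 D := by
  have e : (H0 (D + div S.W g)).map (LinearMap.mulRight ℂ g) = H0 D := by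
    ext f
    constructor
    · rintro ⟨a, ha, rfl⟩
      exact (mem_secOn_div h hg a).1 ha
    · intro hf
      refine ⟨f / g, (mem_secOn_div h hg _).2 (by rwa [div_mul_cancel₀ _ hg]), ?_⟩
      exact div_mul_cancel₀ _ hg
  unfold h0
  rw [← e, (Submodule.equivMapOfInjective (LinearMap.mulRight ℂ g)
    (mul_left_injective₀ hg) _).finrank_eq]

theorem chi_lin (h : S.Loc2) (D : Div S.W) {g : K} (hg : g ≠ 0) :
    chi (D + div S.W g) = chi D := by
  have e : ∀ E, h0 (D + div S.W g + E) = h0 (D + E) := fun E => by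
    rw [add_right_comm, h0_lin h _ hg]
  unfold chi
  simp only [e]

/-- The second difference of the Euler characteristic. -/
noncomputable def dl {W : Submodule ℂ K} (D A B : Div W) : ℤ :=
  chi (D + A + B) - chi (D + A) - chi (D + B) + chi D

theorem dl_zero {W : Submodule ℂ K} (A B : Div W) : dl 0 A B = inter A B := by
  simp only [dl, inter, zero_add]

theorem dl_comm {W : Submodule ℂ K} (D A B : Div W) : dl D A B = dl D B A := by
  unfold dl
  rw [add_right_comm]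
  ring

theorem dl_add {W : Submodule ℂ K} (D A A' B : Div W) :
    dl D (A + A') B = dl (D + A') A B + dl D A' B := by
  unfold dl
  rw [add_comm A A', ← add_assoc]
  ring

theorem dl_sub {W : Submodule ℂ K} {A A' B : Div W} (h : ∀ D, dl D A B = dl 0 A B)
    (h' : ∀ D, dl D A' B = dl 0 A' B) (D : Div W) : dl D (A - A') B = dl 0 (A - A') B := by
  have e : ∀ D, dl D (A - A') B = dl (D - A') A B - dl (D - A') A' B := fun D => by
    unfold dl
    rw [sub_add_cancel, show D + (A - A') = D - A' + A by abel]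
    ring
  rw [e, e, h, h', h (0 - A'), h' (0 - A')]

theorem dl_lin (h : S.Loc2) (D A B : Div S.W) {g : K} (hg : g ≠ 0) :
    dl D (A + div S.W g) B = dl D A B := by
  unfold dl
  rw [← add_assoc, add_right_comm _ _ B, chi_lin h _ hg, chi_lin h _ hg]

theorem dl_ind (h : S.Loc2) (hI : S.Int) (D A B : Div S.W) : dl D A B = dl 0 A B := by
  obtain ⟨g, hg, h1⟩ := h.move B.support fun C => -A C
  rw [← dl_lin h D A B hg, ← dl_lin h 0 A B hg]
  have h2 : ∀ C, (A + div S.W g) C = 0 ∨ B C = 0 := fun C => by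
    by_cases hC : C ∈ B.support
    · left
      rw [Finsupp.add_apply, div_apply h, h1 C hC, add_neg_cancel]
    · exact Or.inr (Finsupp.notMem_support_iff.1 hC)
  generalize A + div S.W g = A' at h2
  have p : ∀ (X : Div S.W) C, X C = 0 → (X ⊔ 0) C = 0 ∧ (-X ⊔ 0) C = 0 := fun X C hC => by
    simp [Finsupp.sup_apply, hC]
  have q : ∀ X : Div S.W, X = (X ⊔ 0) - (-X ⊔ 0) := fun X => (posPart_sub_negPart X).symm
  have k : ∀ Z Z' : Div S.W, 0 ≤ Z → 0 ≤ Z' → (∀ C, Z C = 0 ∨ Z' C = 0) → ∀ D,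
      dl D Z Z' = dl 0 Z Z' := fun Z Z' h1 h2 h3 D => (hI D Z Z' h1 h2 h3).trans
        (hI 0 Z Z' h1 h2 h3).symm
  have k2 : ∀ Z : Div S.W, 0 ≤ Z → (∀ C, A' C = 0 → Z C = 0) → ∀ D, dl D Z B = dl 0 Z B :=
    fun Z h1 h3 D => by
      rw [dl_comm, dl_comm 0, q B]
      refine dl_sub (fun D => k _ _ le_sup_right h1 (fun C => ?_) D)
        (fun D => k _ _ le_sup_right h1 (fun C => ?_) D) D
      · exact (h2 C).symm.imp (fun e => (p B C e).1) (h3 C)
      · exact (h2 C).symm.imp (fun e => (p B C e).2) (h3 C)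
  rw [q A']
  exact dl_sub (k2 _ le_sup_right fun C e => (p A' C e).1)
    (k2 _ le_sup_right fun C e => (p A' C e).2) D

theorem inter_add (h : S.Loc2) (hI : S.Int) (A A' B : Div S.W) :
    inter (A + A') B = inter A B + inter A' B := by
  rw [← dl_zero, dl_add, dl_ind h hI, dl_zero, dl_zero]

theorem rrb : RRB := fun K _ _ S hL _ hS hI => by
  refine ⟨fun D g hg => chi_lin hL.toLoc2 D hg, inter_add hL.toLoc2 hI, fun D => ?_⟩
  have h1 := inter_add hL.toLoc2 hI (S.kap - D) D D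
  have h2 := hS.symm 0
  rw [sub_add_cancel] at h1
  rw [sub_zero] at h2
  have h3 : inter (S.kap - D) D = chi S.kap - chi (S.kap - D) - chi D + chi (0 : Div S.W) := by
    rw [inter, sub_add_cancel]
  rw [hS.symm, h2] at h3
  omega

/-- The intersection form. -/
noncomputable def interHom (h : S.RR) : Div S.W →+ Div S.W →+ ℤ :=
  AddMonoidHom.mk' (fun A => AddMonoidHom.mk' (inter A) fun B B' => by
    rw [inter_comm, h.add, inter_comm B, inter_comm B']) fun A A' =>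
      AddMonoidHom.ext fun B => h.add A A' B

theorem interHom_apply (h : S.RR) (A B : Div S.W) : interHom h A B = inter A B := rfl

theorem inter_lin (h : S.RR) (A B : Div S.W) {g : K} (hg : g ≠ 0) :
    inter (A + div S.W g) B = inter A B := by
  unfold inter
  rw [add_right_comm, h.lin _ g hg, h.lin _ g hg]

theorem inter_eq (hI : S.Int) {Z Z' : Div S.W} (h1 : 0 ≤ Z) (h2 : 0 ≤ Z')
    (h3 : ∀ C, Z C = 0 ∨ Z' C = 0) : inter Z Z' = ∑ᶠ x, (mult x Z Z' : ℤ) := by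
  rw [← dl_zero]
  exact hI 0 Z Z' h1 h2 h3

theorem inter_nonneg (hI : S.Int) {Z Z' : Div S.W} (h1 : 0 ≤ Z) (h2 : 0 ≤ Z')
    (h3 : ∀ C, Z C = 0 ∨ Z' C = 0) : 0 ≤ inter Z Z' := by
  rw [inter_eq hI h1 h2 h3]
  exact finsum_nonneg fun _ => Int.natCast_nonneg _

theorem meet_finite (h : S.Loc1) {Z Z' : Div S.W} (h3 : ∀ C, Z C = 0 ∨ Z' C = 0) :
    {x : Pt S.W | (∃ C, x.On C ∧ Z C ≠ 0) ∧ ∃ C, x.On C ∧ Z' C ≠ 0}.Finite := by
  refine (Z.support.finite_toSet.biUnion fun C hC => Z'.support.finite_toSet.biUnion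
    fun C' hC' => h.fin_meet C C' ?_).subset ?_
  · rintro rfl
    exact (h3 C).elim (Finsupp.mem_support_iff.1 hC) (Finsupp.mem_support_iff.1 hC')
  · rintro x ⟨⟨C, h4, h5⟩, C', h6, h7⟩
    exact Set.mem_biUnion (Finsupp.mem_support_iff.2 h5)
      (Set.mem_biUnion (Finsupp.mem_support_iff.2 h7) ⟨h4, h6⟩)

theorem inter_pos (h : S.Loc1) (hM : S.MultPos) (hI : S.Int) {Z Z' : Div S.W} (h1 : 0 ≤ Z)
    (h2 : 0 ≤ Z') (h3 : ∀ C, Z C = 0 ∨ Z' C = 0) {x : Pt S.W} (h4 : ∃ C, x.On C ∧ Z C ≠ 0)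
    (h5 : ∃ C, x.On C ∧ Z' C ≠ 0) : 0 < inter Z Z' := by
  rw [inter_eq hI h1 h2 h3]
  refine finsum_pos' (fun _ => Int.natCast_nonneg _) ⟨x, ?_⟩ ((meet_finite h h3).subset ?_)
  · exact Int.natCast_pos.2 (Nat.pos_of_ne_zero ((hM x Z Z' h1 h2 h3).2.2 ⟨h4, h5⟩))
  · intro y hy
    exact (hM y Z Z' h1 h2 h3).2.1 fun e => hy (by simp [e])

theorem mem_H0_H (h : S.Loc2) {w : K} (hw : w ∈ S.W) : w ∈ H0 S.H := by
  by_cases h0 : w = 0
  · exact Or.inl h0
  refine Or.inr fun C _ => ?_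
  obtain ⟨w₀, h1, h2⟩ := C.exists_in
  have h3 := Pl.ord_nonneg_of_mem _ (h2.2 w hw)
  rw [Pl.ord_div _ h0 h2.1] at h3
  rw [h.hyp_in C w₀ h1 h2]
  exact h3

theorem eff_of_mem (h : S.Loc2) {D : Div S.W} {f : K} (hf : f ∈ H0 D) (h0 : f ≠ 0) :
    0 ≤ D + div S.W f := fun C => by
  rw [Finsupp.add_apply, div_apply h, add_comm]
  exact hf.resolve_left h0 C trivial

theorem hyp_van (h : S.Loc2) {x : Pt S.W} {w : K} (hw : w ∈ van x) (h0 : w ≠ 0) :
    ∃ C, x.On C ∧ (S.H + div S.W w) C ≠ 0 := by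
  by_contra hc
  push Not at hc
  obtain ⟨w₀, h1, h2⟩ := x.exists_in
  refine ((hw.2 w₀ h1 h2).2.resolve_left (div_ne_zero h0 h2.1)) ((h.normal x _).1 ?_)
  refine Or.inr fun C hC => ?_
  have h3 := hc C hC
  rw [Finsupp.add_apply, div_apply h, h.hyp_in C w₀ h1 (hC.crv_in h2)] at h3
  unfold Crv.ord at *
  rw [Pl.ord_inv, Pl.ord_div _ h0 h2.1, Finsupp.zero_apply]
  omega

theorem exists_van_in (h : S.Loc) (C : Crv S.W) :
    ∃ x : Pt S.W, x.On C ∧ ∃ w ∈ van x, C.In w := by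
  obtain ⟨w₀, h1, h2⟩ := C.exists_in
  obtain ⟨x, hx, y, hy, hxy⟩ := (h.inf_pt C w₀ h1 h2).nontrivial
  obtain ⟨w, h3, h4⟩ := h.sep x y hxy
  exact ⟨x, hx.1, w, h3, hy.1.crv_in h4⟩

theorem crv_ne (h : S.Loc2) : Nonempty (Crv S.W) := by
  by_contra hc
  obtain ⟨c, e⟩ := h.const (S.x 1 / S.x 0) (Or.inr fun C _ => (hc ⟨C⟩).elim)
  have h1 : Transcendental ℂ (S.x 1 / S.x 0) := S.indep.transcendental 0
  exact h1 (e ▸ isAlgebraic_algebraMap c)

theorem eq_sum_single {W : Submodule ℂ K} (Z : Div W) :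
    Z = ∑ C ∈ Z.support, Z C • Finsupp.single C (1 : ℤ) := by
  conv_lhs => rw [← Z.sum_single]
  simp [Finsupp.sum]

theorem amp : AMP := fun K _ _ S hL hM hI hR => by
  have h1 : ∀ C : Crv S.W, 0 < inter S.H (Finsupp.single C 1) := fun C => by
    obtain ⟨x, hx, w, hw, hC⟩ := exists_van_in hL C
    rw [← inter_lin hR _ _ hC.1]
    refine inter_pos hL.toLoc1 hM hI (eff_of_mem hL.toLoc2 (mem_H0_H hL.toLoc2 hw.1) hC.1)
      (Finsupp.single_nonneg.2 zero_le_one) (fun C' => ?_) (hyp_van hL.toLoc2 hw hC.1)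
      ⟨C, hx, by simp⟩
    by_cases e : C' = C
    · left
      rw [e, Finsupp.add_apply, div_apply hL.toLoc2, hL.hyp_in C w hw.1 hC, neg_add_cancel]
    · exact Or.inr (Finsupp.single_eq_of_ne e)
  refine ⟨h1, ?_⟩
  obtain ⟨C⟩ := crv_ne hL.toLoc2
  obtain ⟨x, -, w, hw, hC⟩ := exists_van_in hL C
  obtain ⟨C', -, h2⟩ := hyp_van hL.toLoc2 hw hC.1
  have h3 := eff_of_mem hL.toLoc2 (mem_H0_H hL.toLoc2 hw.1) hC.1
  rw [← inter_lin hR _ _ hC.1, inter_comm, ← interHom_apply hR, eq_sum_single (S.H + _), map_sum]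
  refine Finset.sum_pos (fun C hC => ?_) ⟨C', Finsupp.mem_support_iff.2 h2⟩
  rw [map_zsmul, smul_eq_mul]
  exact mul_pos (lt_of_le_of_ne (h3 C) (Finsupp.mem_support_iff.1 hC).symm) (h1 C)

end Vale.Agent.P297Z.Sf
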