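import Mathlib.Analysis.Complex.Polynomial.Basic
import Mathlib.RingTheory.RegularLocalRing.Defs
import Mathlib.RingTheory.Nakayama
import Mathlib.RingTheory.Finiteness.Finsupp
import Mathlib.Tactic

/-! Regular local rings of dimension two with residue field `ℂ`: parameters and leading forms. -/

set_option linter.all false

open IsLocalRing Polynomial

namespace Vale.Agent.P297Z.Sf.R2

variable {O : Type} [CommRing O] [IsDomain O] [IsRegularLocalRing O]

theorem nak {N : Ideal O} (h : maximalIdeal O ≤ N ⊔ maximalIdeal O ^ 2) : maximalIdeal O ≤ N :=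
  Submodule.le_of_le_smul_of_le_jacobson_bot (IsNoetherian.noetherian _)
    (maximalIdeal_le_jacobson ⊥) (by rwa [smul_eq_mul, ← sq])

theorem rank (hd : ringKrullDim O = 2) : (maximalIdeal O).spanFinrank = 2 := by
  have h := IsRegularLocalRing.spanFinrank_maximalIdeal (R := O)
  rw [hd] at h
  exact_mod_cast h

theorem not_le_span (hd : ringKrullDim O = 2) {s : O} (hs : s ∈ maximalIdeal O) :
    ¬ maximalIdeal O ≤ Ideal.span {s} := by
  intro h
  have h1 : maximalIdeal O = Ideal.span {s} :=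
    le_antisymm h ((Ideal.span_singleton_le_iff_mem _).2 hs)
  have h2 := Submodule.spanFinrank_span_le_ncard_of_finite (R := O) (Set.finite_singleton s)
  have h3 := rank hd
  rw [h1] at h3
  rw [Set.ncard_singleton] at h2
  exact absurd (h3.symm.trans_le h2) (by norm_num)

theorem left_mem {s t : O} (h : maximalIdeal O = Ideal.span {s, t}) : s ∈ maximalIdeal O :=
  h ▸ Ideal.subset_span (by simp)

theorem right_mem {s t : O} (h : maximalIdeal O = Ideal.span {s, t}) : t ∈ maximalIdeal O :=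
  h ▸ Ideal.subset_span (by simp)

/-- exchange of a generator -/
theorem swap {s t g a b : O} (h : maximalIdeal O = Ideal.span {s, t}) (hg : g = a * s + b * t)
    (hb : b ∉ maximalIdeal O) : maximalIdeal O = Ideal.span {s, g} := by
  obtain ⟨u, rfl⟩ := notMem_maximalIdeal.1 hb
  refine le_antisymm (h.le.trans ?_) ?_
  · rw [Ideal.span_le, Set.insert_subset_iff, Set.singleton_subset_iff]
    refine ⟨Ideal.subset_span (by simp), Ideal.mem_span_pair.2 ⟨-(↑u⁻¹ * a), ↑u⁻¹, ?_⟩⟩
    rw [hg]
    linear_combination t * u.inv_mul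
  · rw [Ideal.span_le, Set.insert_subset_iff, Set.singleton_subset_iff, hg]
    exact ⟨left_mem h, add_mem (Ideal.mul_mem_left _ _ (left_mem h))
      (Ideal.mul_mem_left _ _ (right_mem h))⟩

theorem mul_mem_sq {a b : O} (ha : a ∈ maximalIdeal O) (hb : b ∈ maximalIdeal O) :
    a * b ∈ maximalIdeal O ^ 2 := by
  rw [sq]
  exact Ideal.mul_mem_mul ha hb

/-- An element of order one is a parameter, and the second one can be chosen among generators. -/
theorem ext (hd : ringKrullDim O = 2) {G : Set O} (hG : maximalIdeal O = Ideal.span G) {s : O}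
    (hs : s ∈ maximalIdeal O) (hs2 : s ∉ maximalIdeal O ^ 2) :
    ∃ t ∈ G, maximalIdeal O = Ideal.span {s, t} := by
  obtain ⟨t, ht⟩ : ∃ t, maximalIdeal O = Ideal.span {s, t} := by
    classical
    obtain ⟨F, hF, hF'⟩ := Submodule.FG.exists_span_finset_card_eq_spanFinrank
      (IsNoetherian.noetherian (maximalIdeal O))
    rw [rank hd, Finset.card_eq_two] at hF
    obtain ⟨a, b, -, rfl⟩ := hF
    have h : maximalIdeal O = Ideal.span {a, b} := by rw [← hF']; simp
    obtain ⟨α, β, e⟩ := Ideal.mem_span_pair.1 (h ▸ hs)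
    by_cases hβ : β ∈ maximalIdeal O
    · have hα : α ∉ maximalIdeal O := fun hα =>
        hs2 (e ▸ add_mem (mul_mem_sq hα (left_mem h)) (mul_mem_sq hβ (right_mem h)))
      refine ⟨b, ?_⟩
      rw [Set.pair_comm] at h ⊢
      exact swap h (e.symm.trans (add_comm _ _)) hα
    · refine ⟨a, ?_⟩
      rw [Set.pair_comm]
      exact swap h e.symm hβ
  by_contra hc
  refine not_le_span hd hs (nak (hG.le.trans (Ideal.span_le.2 fun g hg => ?_)))
  obtain ⟨α, β, e⟩ := Ideal.mem_span_pair.1 (ht ▸ hG ▸ Ideal.subset_span hg :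
    g ∈ Ideal.span {s, t})
  have hβ : β ∈ maximalIdeal O := by
    by_contra hβ
    exact hc ⟨g, hg, swap ht e.symm hβ⟩
  rw [← e]
  exact Submodule.add_mem_sup (Ideal.mul_mem_left _ _ (Ideal.mem_span_singleton_self s))
    (mul_mem_sq hβ (right_mem ht))

theorem gens (hd : ringKrullDim O = 2) {G : Set O} (hG : maximalIdeal O = Ideal.span G) :
    ∃ s ∈ G, ∃ t ∈ G, maximalIdeal O = Ideal.span {s, t} := by
  obtain ⟨s, hs, hs2⟩ : ∃ s ∈ G, s ∉ maximalIdeal O ^ 2 := by
    by_contra hc
    push Not at hc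
    exact not_le_span hd (zero_mem _) (nak (hG.le.trans
      (Ideal.span_le.2 fun g hg => Ideal.mem_sup_right (hc g hg))))
  exact ⟨s, hs, ext hd hG (hG ▸ Ideal.subset_span hs) hs2⟩

theorem prime_of [UniqueFactorizationMonoid O] {s : O} (hs : s ∈ maximalIdeal O)
    (hs2 : s ∉ maximalIdeal O ^ 2) : Prime s := by
  refine Irreducible.prime ⟨hs, fun a b e => ?_⟩
  by_contra hc
  push Not at hc
  exact hs2 (e ▸ mul_mem_sq hc.1 hc.2)

theorem notMem_sq (hd : ringKrullDim O = 2) {s t : O} (h : maximalIdeal O = Ideal.span {s, t}) :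
    s ∉ maximalIdeal O ^ 2 := by
  intro hs
  refine not_le_span hd (right_mem h) (nak (h.le.trans ?_))
  rw [Ideal.span_le, Set.insert_subset_iff, Set.singleton_subset_iff]
  exact ⟨Ideal.mem_sup_right hs, Ideal.mem_sup_left (Ideal.mem_span_singleton_self t)⟩

theorem not_dvd (hd : ringKrullDim O = 2) {s t : O} (h : maximalIdeal O = Ideal.span {s, t}) :
    ¬ s ∣ t := by
  intro hs
  refine not_le_span hd (left_mem h) (h.le.trans ?_)
  rw [Ideal.span_le, Set.insert_subset_iff, Set.singleton_subset_iff]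
  exact ⟨Ideal.mem_span_singleton_self s, Ideal.mem_span_singleton.2 hs⟩

theorem decomp {s t : O} (h : maximalIdeal O = Ideal.span {s, t}) (n : ℕ) :
    ∀ x ∈ maximalIdeal O ^ (n + 1), ∃ g ∈ maximalIdeal O ^ n, ∃ c, x = s * g + c * t ^ (n + 1) := by
  induction n with
  | zero =>
    intro x hx
    rw [zero_add, pow_one, h] at hx
    obtain ⟨a, b, e⟩ := Ideal.mem_span_pair.1 hx
    exact ⟨a, by simp, b, by rw [← e]; ring⟩
  | succ n ih =>
    intro x hx
    rw [pow_succ] at hx
    refine Submodule.mul_induction_on hx (fun a ha b hb => ?_) ?_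
    · obtain ⟨g, hg, c, rfl⟩ := ih a ha
      obtain ⟨α, β, rfl⟩ := Ideal.mem_span_pair.1 (h ▸ hb)
      refine ⟨g * (α * s + β * t) + c * α * t ^ (n + 1), add_mem ?_ ?_, c * β, by ring⟩
      · rw [pow_succ]
        exact Ideal.mul_mem_mul hg hb
      · exact Ideal.mul_mem_left _ _ (Ideal.pow_mem_pow (right_mem h) _)
    · rintro _ _ ⟨g, hg, c, rfl⟩ ⟨g', hg', c', rfl⟩
      exact ⟨g + g', add_mem hg hg', c + c', by ring⟩

theorem key [UniqueFactorizationMonoid O] (hd : ringKrullDim O = 2) {s t : O}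
    (h : maximalIdeal O = Ideal.span {s, t}) {n : ℕ} {g : O}
    (hg : s * g ∈ maximalIdeal O ^ (n + 1)) : g ∈ maximalIdeal O ^ n := by
  have hp := prime_of (left_mem h) (notMem_sq hd h)
  obtain ⟨g', hg', c, e⟩ := decomp h n _ hg
  have h1 : s ∣ c * t ^ (n + 1) := ⟨g - g', by linear_combination -e⟩
  obtain ⟨c', rfl⟩ := (hp.dvd_or_dvd h1).resolve_right fun h2 => not_dvd hd h (hp.dvd_of_dvd_pow h2)
  have h2 : g = g' + c' * t * t ^ n := mul_left_cancel₀ hp.ne_zero (by linear_combination e)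
  rw [h2]
  exact add_mem hg' (Ideal.mul_mem_left _ _ (Ideal.pow_mem_pow (right_mem h) _))

variable [Algebra ℂ O]

/-- the binary form with coefficients `c` -/
def form (s t : O) (n : ℕ) (c : ℕ → ℂ) : O := ∑ i ∈ Finset.range (n + 1), c i • (s ^ i * t ^ (n - i))

theorem form_succ (s t : O) (n : ℕ) (c : ℕ → ℂ) :
    form s t (n + 1) c = s * form s t n (fun i => c (i + 1)) + algebraMap ℂ O (c 0) * t ^ (n + 1) := by
  unfold form
  rw [Finset.sum_range_succ', Finset.mul_sum]
  congr 1
  · refine Finset.sum_congr rfl fun i _ => ?_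
    rw [Nat.add_sub_add_right, mul_smul_comm, pow_succ' s, mul_assoc]
  · simp [Algebra.smul_def]

theorem const_eq_zero {c : ℂ} (h : algebraMap ℂ O c ∈ maximalIdeal O) : c = 0 := by
  by_contra hc
  exact h ((IsUnit.mk0 c hc).map (algebraMap ℂ O))

theorem lead [UniqueFactorizationMonoid O] (hd : ringKrullDim O = 2) {s t : O}
    (h : maximalIdeal O = Ideal.span {s, t}) (n : ℕ) :
    ∀ c : ℕ → ℂ, form s t n c ∈ maximalIdeal O ^ (n + 1) → ∀ i, i ≤ n → c i = 0 := by
  have hp := prime_of (left_mem h) (notMem_sq hd h)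
  induction n with
  | zero =>
    intro c hc i hi
    rw [Nat.le_zero.1 hi]
    refine const_eq_zero (O := O) ?_
    simpa [form, Algebra.smul_def] using hc
  | succ n ih =>
    intro c hc i hi
    rw [form_succ] at hc
    obtain ⟨g, hg, d, e⟩ := decomp h _ _ hc
    have h1 : s ∣ (algebraMap ℂ O (c 0) - d * t) * t ^ (n + 1) :=
      ⟨g - form s t n fun i => c (i + 1), by linear_combination e⟩
    obtain ⟨a, ha⟩ := (hp.dvd_or_dvd h1).resolve_right fun h2 => not_dvd hd h (hp.dvd_of_dvd_pow h2)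
    have h2 : c 0 = 0 := by
      refine const_eq_zero (O := O) ?_
      rw [sub_eq_iff_eq_add.1 ha]
      exact add_mem (Ideal.mul_mem_right _ _ (left_mem h)) (Ideal.mul_mem_left _ _ (right_mem h))
    rcases i with _ | i
    · exact h2
    · rw [h2, map_zero, zero_mul, add_zero] at hc
      exact ih _ (key hd h hc) i (by omega)

theorem exists_form (hv : ∀ f : O, ∃ c : ℂ, f - algebraMap ℂ O c ∈ maximalIdeal O) {s t : O}
    (h : maximalIdeal O = Ideal.span {s, t}) (n : ℕ) :
    ∀ a ∈ maximalIdeal O ^ n, ∃ c : ℕ → ℂ, a - form s t n c ∈ maximalIdeal O ^ (n + 1) := by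
  induction n with
  | zero =>
    intro a _
    obtain ⟨c, hc⟩ := hv a
    exact ⟨fun _ => c, by simpa [form, Algebra.smul_def] using hc⟩
  | succ n ih =>
    intro a ha
    obtain ⟨g, hg, d, rfl⟩ := decomp h _ _ ha
    obtain ⟨c, hc⟩ := ih g hg
    obtain ⟨c0, hc0⟩ := hv d
    refine ⟨fun i => Nat.casesOn i c0 c, ?_⟩
    have e : s * g + d * t ^ (n + 1) - form s t (n + 1) (fun i => Nat.casesOn i c0 c) =
        (g - form s t n c) * s + t ^ (n + 1) * (d - algebraMap ℂ O c0) := by
      rw [form_succ]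
      show _ - (s * form s t n c + algebraMap ℂ O c0 * _) = _
      ring
    rw [e, pow_succ _ (n + 1)]
    exact add_mem (Ideal.mul_mem_mul hc (left_mem h))
      (Ideal.mul_mem_mul (Ideal.pow_mem_pow (right_mem h) _) hc0)

theorem form_mem {s t : O} (h : maximalIdeal O = Ideal.span {s, t}) (n : ℕ) (c : ℕ → ℂ) :
    form s t n c ∈ maximalIdeal O ^ n := by
  refine sum_mem fun i hi => ?_
  rw [Algebra.smul_def]
  refine Ideal.mul_mem_left _ _ ?_
  have hi' : i + (n - i) = n := by have := Finset.mem_range.1 hi; omega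
  conv_lhs => rw [← hi', pow_add]
  exact Ideal.mul_mem_mul (Ideal.pow_mem_pow (left_mem h) _) (Ideal.pow_mem_pow (right_mem h) _)

theorem form_poly {s t : O} (ht : t ≠ 0) {n : ℕ} {P : ℂ[X]} (hP : P.natDegree ≤ n) :
    algebraMap O (FractionRing O) (form s t n P.coeff) = algebraMap O (FractionRing O) t ^ n *
      aeval (algebraMap O (FractionRing O) s / algebraMap O (FractionRing O) t) P := by
  have h0 : algebraMap O (FractionRing O) t ≠ 0 := by
    rwa [Ne, IsFractionRing.to_map_eq_zero_iff]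
  rw [aeval_eq_sum_range' (Nat.lt_succ_of_le hP), form, map_sum, Finset.mul_sum]
  refine Finset.sum_congr rfl fun i hi => ?_
  have hi' : n = i + (n - i) := by have := Finset.mem_range.1 hi; omega
  rw [Algebra.smul_def, Algebra.smul_def, map_mul, ← IsScalarTower.algebraMap_apply, map_mul,
    map_pow, map_pow, div_pow]
  conv_rhs => rw [hi', pow_add]
  field_simp

theorem form_mul {s t : O} (ht : t ≠ 0) {m n : ℕ} {P Q : ℂ[X]} (hP : P.natDegree ≤ m)
    (hQ : Q.natDegree ≤ n) :
    form s t (m + n) (P * Q).coeff = form s t m P.coeff * form s t n Q.coeff := by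
  apply IsFractionRing.injective O (FractionRing O)
  rw [map_mul, form_poly ht hP, form_poly ht hQ,
    form_poly ht (natDegree_mul_le.trans (add_le_add hP hQ)), map_mul]
  ring

theorem exists_poly (hv : ∀ f : O, ∃ c : ℂ, f - algebraMap ℂ O c ∈ maximalIdeal O) {s t : O}
    (h : maximalIdeal O = Ideal.span {s, t}) {n : ℕ} {a : O} (ha : a ∈ maximalIdeal O ^ n) :
    ∃ P : ℂ[X], P.natDegree ≤ n ∧ a - form s t n P.coeff ∈ maximalIdeal O ^ (n + 1) := by
  obtain ⟨c, hc⟩ := exists_form hv h n a ha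
  refine ⟨∑ i ∈ Finset.range (n + 1), monomial i (c i), natDegree_sum_le_of_forall_le _ _
    fun i hi => (natDegree_monomial_le _).trans (by have := Finset.mem_range.1 hi; omega), ?_⟩
  convert hc using 2
  refine Finset.sum_congr rfl fun i hi => ?_
  simp [coeff_monomial, hi]

theorem exists_order {a : O} {i : ℕ} (ha : a ∉ maximalIdeal O ^ (i + 1)) :
    ∃ k ≤ i, a ∈ maximalIdeal O ^ k ∧ a ∉ maximalIdeal O ^ (k + 1) := by
  induction i with
  | zero => exact ⟨0, le_rfl, by simp, ha⟩
  | succ i ih =>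
    by_cases h : a ∈ maximalIdeal O ^ (i + 1)
    · exact ⟨i + 1, le_rfl, h, ha⟩
    · obtain ⟨k, hk, h'⟩ := ih h
      exact ⟨k, by omega, h'⟩

theorem valu [UniqueFactorizationMonoid O] (hd : ringKrullDim O = 2)
    (hv : ∀ f : O, ∃ c : ℂ, f - algebraMap ℂ O c ∈ maximalIdeal O) {a b : O} {i j : ℕ}
    (ha : a ∉ maximalIdeal O ^ (i + 1)) (hb : b ∉ maximalIdeal O ^ (j + 1)) :
    a * b ∉ maximalIdeal O ^ (i + j + 1) := by
  obtain ⟨s, -, t, -, h⟩ := gens hd (Ideal.span_eq (maximalIdeal O)).symm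
  obtain ⟨k, hk, ha1, ha2⟩ := exists_order ha
  obtain ⟨l, hl, hb1, hb2⟩ := exists_order hb
  intro hab
  replace hab := Ideal.pow_le_pow_right (show k + l + 1 ≤ i + j + 1 by omega) hab
  obtain ⟨P, hP, hP'⟩ := exists_poly hv h ha1
  obtain ⟨Q, hQ, hQ'⟩ := exists_poly hv h hb1
  have ht : t ≠ 0 := fun h0 => not_dvd hd h (h0 ▸ dvd_zero s)
  have h1 : form s t (k + l) (P * Q).coeff ∈ maximalIdeal O ^ (k + l + 1) := by
    have e : form s t (k + l) (P * Q).coeff = a * b - a * (b - form s t l Q.coeff) -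
        form s t l Q.coeff * (a - form s t k P.coeff) := by
      rw [form_mul ht hP hQ]
      ring
    rw [e]
    refine sub_mem (sub_mem hab ?_) ?_
    · rw [add_assoc, pow_add]
      exact Ideal.mul_mem_mul ha1 hQ'
    · rw [add_comm k, add_assoc, pow_add]
      exact Ideal.mul_mem_mul (form_mem h _ _) hP'
  have h2 : P * Q = 0 := by
    ext m
    by_cases hm : m ≤ k + l
    · exact lead hd h _ _ h1 m hm
    · exact coeff_eq_zero_of_natDegree_lt
        ((natDegree_mul_le.trans (add_le_add hP hQ)).trans_lt (not_le.1 hm))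
  rcases mul_eq_zero.1 h2 with rfl | rfl
  · exact ha2 (by simpa [form] using hP')
  · exact hb2 (by simpa [form] using hQ')

theorem jet [UniqueFactorizationMonoid O] (hd : ringKrullDim O = 2)
    (hv : ∀ f : O, ∃ c : ℂ, f - algebraMap ℂ O c ∈ maximalIdeal O) (n : ℕ) :
    Module.Finite ℂ (O ⧸ maximalIdeal O ^ n) ∧
      2 * Module.finrank ℂ (O ⧸ maximalIdeal O ^ n) = n * (n + 1) := by
  obtain ⟨s, -, t, -, h⟩ := gens hd (Ideal.span_eq (maximalIdeal O)).symm
  induction n with
  | zero =>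
    have : Subsingleton (O ⧸ maximalIdeal O ^ 0) := by
      rw [pow_zero, Ideal.one_eq_top]
      infer_instance
    exact ⟨inferInstance, by rw [Module.finrank_zero_of_subsingleton]⟩
  | succ n ih =>
    obtain ⟨ih1, ih2⟩ := ih
    set f : (Fin (n + 1) → ℂ) →ₗ[ℂ] O ⧸ maximalIdeal O ^ (n + 1) :=
      (Ideal.Quotient.mkₐ ℂ _).toLinearMap ∘ₗ
        Fintype.linearCombination ℂ fun i : Fin (n + 1) => s ^ (i : ℕ) * t ^ (n - i) with hf
    set g : (O ⧸ maximalIdeal O ^ (n + 1)) →ₗ[ℂ] O ⧸ maximalIdeal O ^ n :=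
      (Ideal.Quotient.factorₐ ℂ (Ideal.pow_le_pow_right n.le_succ)).toLinearMap with hg
    have hf' : ∀ c : ℕ → ℂ, f (fun i => c i) = Ideal.Quotient.mk _ (form s t n c) := by
      intro c
      rw [form, ← Fin.sum_univ_eq_sum_range (fun i => c i • (s ^ i * t ^ (n - i)))]
      simp only [hf, LinearMap.comp_apply, Fintype.linearCombination_apply]
      rfl
    have hg' : ∀ a : O, g (Ideal.Quotient.mk _ a) = Ideal.Quotient.mk _ a := fun a => rfl
    have hc : ∀ c : Fin (n + 1) → ℂ, ∃ c' : ℕ → ℂ, c = fun i : Fin (n + 1) => c' i := fun c =>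
      ⟨fun i => if hi : i < n + 1 then c ⟨i, hi⟩ else 0, funext fun i => by simp [i.2]⟩
    have hinj : Function.Injective f := by
      refine (injective_iff_map_eq_zero _).2 fun c h0 => ?_
      obtain ⟨c', rfl⟩ := hc c
      rw [hf', Ideal.Quotient.eq_zero_iff_mem] at h0
      exact funext fun i => lead hd h n c' h0 i (Nat.le_of_lt_succ i.2)
    have hsurj : Function.Surjective g := by
      intro y
      obtain ⟨a, rfl⟩ := Ideal.Quotient.mk_surjective y
      exact ⟨_, hg' a⟩
    have hex : Function.Exact f g := by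
      intro y
      obtain ⟨a, rfl⟩ := Ideal.Quotient.mk_surjective y
      rw [hg', Ideal.Quotient.eq_zero_iff_mem]
      constructor
      · intro ha
        obtain ⟨c, hc⟩ := exists_form hv h n a ha
        exact ⟨_, (hf' c).trans (Ideal.Quotient.eq.2 hc).symm⟩
      · rintro ⟨c, e⟩
        obtain ⟨c', rfl⟩ := hc c
        rw [hf', Ideal.Quotient.eq] at e
        have := sub_mem (form_mem h n c') (Ideal.pow_le_pow_right n.le_succ e)
        rwa [sub_sub_cancel] at this
    have hfin : Module.Finite ℂ (O ⧸ maximalIdeal O ^ (n + 1)) := Module.Finite.of_exact hex hsurj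
    refine ⟨hfin, ?_⟩
    have h1 := g.finrank_range_add_finrank_ker
    rw [LinearMap.range_eq_top.2 hsurj, finrank_top, hex.linearMap_ker_eq,
      LinearMap.finrank_range_of_inj hinj, Module.finrank_fin_fun] at h1
    rw [← h1, mul_add, ih2]
    ring

/-- Approximation by polynomials in the parameters. -/
theorem approx (hv : ∀ f : O, ∃ c : ℂ, f - algebraMap ℂ O c ∈ maximalIdeal O) {s t : O}
    (h : maximalIdeal O = Ideal.span {s, t}) (U : Submodule ℂ O) (g : O) (n : ℕ)
    (hU : ∀ i k, i + k < n → s ^ i * t ^ k ∈ U) : ∃ b ∈ U, b - g ∈ maximalIdeal O ^ n := by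
  induction n with
  | zero => exact ⟨0, zero_mem _, by simp⟩
  | succ n ih =>
    obtain ⟨b, hb, hb'⟩ := ih fun i k hik => hU i k (by omega)
    obtain ⟨c, hc⟩ := exists_form hv h n _ hb'
    refine ⟨b - form s t n c, sub_mem hb (sum_mem fun i hi => U.smul_mem _ (hU _ _ ?_)), ?_⟩
    · have := Finset.mem_range.1 hi
      omega
    · rwa [sub_right_comm]

end Vale.Agent.P297Z.Sf.R2
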