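import Vale.Agent.P297Z.Surf.Sk
import Vale.Agent.P297Z.Surf.Reg2A

/-! Regular parameters and jets at a point of a surface. -/

set_option linter.all false

open IsLocalRing

namespace Vale.Agent.P297Z.Sf

variable {K : Type} [Field K] [Algebra ℂ K]

namespace R2

variable {S : Surf K}

theorem val (h : S.Loc) (x : Pt S.W) (f : x.ring) :
    ∃ c : ℂ, f - algebraMap ℂ x.ring c ∈ maximalIdeal x.ring := by
  obtain ⟨c, hc⟩ := h.val x f f.2
  exact ⟨c, (x.mem_max _).2 hc⟩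

/-- The maximal ideal is generated by the linear forms that vanish at the point. -/
theorem max_eq (h : S.Loc) (x : Pt S.W) {w : K} (hw : w ∈ S.W) (hx : x.In w) :
    maximalIdeal x.ring = Ideal.span {t : x.ring | ∃ l ∈ van x, (t : K) = l / w} := by
  set I := Ideal.span {t : x.ring | ∃ l ∈ van x, (t : K) = l / w} with hI
  have h1 : I ≤ maximalIdeal x.ring := by
    refine Ideal.span_le.2 ?_
    rintro t ⟨l, hl, e⟩
    exact (x.mem_max t).2 (e ▸ hl.2 w hw hx)
  have h2 : ∀ a (ha : a ∈ chart S.W w), ∃ c : ℂ,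
      (⟨a, hx.chart_le ha⟩ : x.ring) - algebraMap ℂ x.ring c ∈ I := by
    intro a ha
    induction ha using Algebra.adjoin_induction with
    | mem a ha =>
      obtain ⟨l, hl, rfl⟩ := ha
      obtain ⟨c, hc⟩ := h.val x _ (hx.2 l hl)
      have e : l / w - algebraMap ℂ K c = (l - c • w) / w := by
        rw [Algebra.smul_def, sub_div, mul_div_cancel_right₀ _ hx.1]
      have hm := S.W.sub_mem hl (S.W.smul_mem c hw)
      refine ⟨c, Ideal.subset_span ⟨l - c • w, mem_van.2 ⟨hm, fun h3 => ?_⟩, e⟩⟩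
      exact (Pt.in_iff hx hw hm).1 h3 (e ▸ hc)
    | algebraMap c => exact ⟨c, (sub_self (algebraMap ℂ x.ring c)).symm ▸ I.zero_mem⟩
    | add a b ha hb iha ihb =>
      obtain ⟨c, hc⟩ := iha
      obtain ⟨d, hd⟩ := ihb
      refine ⟨c + d, ?_⟩
      convert I.add_mem hc hd using 1
      apply Subtype.ext
      push_cast
      ring
    | mul a b ha hb iha ihb =>
      obtain ⟨c, hc⟩ := iha
      obtain ⟨d, hd⟩ := ihb
      refine ⟨c * d, ?_⟩
      convert I.add_mem (I.mul_mem_left ⟨a, hx.chart_le ha⟩ hd)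
        (I.mul_mem_left (algebraMap ℂ x.ring d) hc) using 1
      apply Subtype.ext
      push_cast
      ring
  refine le_antisymm (fun f hf => ?_) h1
  obtain ⟨m, hm, e, hv⟩ := h.pt_chart x w hw hx
  obtain ⟨a, b, hb, hab⟩ : (f : K) ∈ loc _ m hm.isPrime := e ▸ f.2
  have hbu : IsUnit (⟨b, hx.chart_le b.2⟩ : x.ring) :=
    notMem_maximalIdeal.1 fun h3 => hb ((hv b).2 ((x.mem_max _).1 h3))
  have hfa : f * ⟨b, hx.chart_le b.2⟩ = ⟨a, hx.chart_le a.2⟩ := Subtype.ext hab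
  obtain ⟨c, hc⟩ := h2 a a.2
  have h3 : algebraMap ℂ x.ring c ∈ maximalIdeal x.ring := by
    have := sub_mem (hfa ▸ Ideal.mul_mem_right _ _ hf) (h1 hc)
    rwa [sub_sub_cancel] at this
  have := h.reg x
  rw [const_eq_zero h3, map_zero, sub_zero, ← hfa] at hc
  exact (Ideal.mul_unit_mem_iff_mem _ hbu).1 hc

end R2

theorem reg2 : REG2 := by
  intro K _ _ S h
  refine ⟨fun x w hw hx => ?_, fun x w hw hx s hs hs2 => ?_, fun x s t e n c hc => ?_,
    fun x a b i j ha hb => ?_, fun x n => ?_, fun x n => ?_, fun x w hw hx g n j hj => ?_⟩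
  all_goals
    have := h.reg x
    have := h.ufd x
  · obtain ⟨s, ⟨l₁, h1, e1⟩, t, ⟨l₂, h2, e2⟩, e⟩ := R2.gens (h.dim x) (R2.max_eq h x hw hx)
    exact ⟨l₁, h1, l₂, h2, s, t, e1, e2, e⟩
  · obtain ⟨t, ⟨l₂, h2, e2⟩, e⟩ := R2.ext (h.dim x) (R2.max_eq h x hw hx) hs hs2
    exact ⟨R2.prime_of hs hs2, l₂, h2, t, e2, e⟩
  · exact R2.lead (h.dim x) e n c hc
  · exact R2.valu (h.dim x) (R2.val h x) ha hb
  · exact (R2.jet (h.dim x) (R2.val h x) n).1
  · exact (R2.jet (h.dim x) (R2.val h x) n).2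
  · obtain ⟨s, ⟨l₁, h1, e1⟩, t, ⟨l₂, h2, e2⟩, e⟩ := R2.gens (h.dim x) (R2.max_eq h x hw hx)
    have hw0 : w ^ j ≠ 0 := pow_ne_zero _ hx.1
    obtain ⟨b, hb, hb'⟩ := R2.approx (R2.val h x) e
      ((S.W ^ j).comap (LinearMap.mulRight ℂ (w ^ j) ∘ₗ x.ring.val.toLinearMap)) g n (by
        intro i k hik
        obtain ⟨d, rfl⟩ : ∃ d, j = i + k + d := ⟨j - (i + k), by omega⟩
        have e3 : (s : K) ^ i * (t : K) ^ k * w ^ (i + k + d) = l₁ ^ i * l₂ ^ k * w ^ d := by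
          rw [e1, e2, div_pow, div_pow, pow_add, pow_add]
          field_simp [hx.1]
        show ((s ^ i * t ^ k : x.ring) : K) * w ^ (i + k + d) ∈ S.W ^ (i + k + d)
        push_cast
        rw [e3, pow_add, pow_add]
        exact Submodule.mul_mem_mul (Submodule.mul_mem_mul (Submodule.pow_mem_pow _ h1.1 _)
          (Submodule.pow_mem_pow _ h2.1 _)) (Submodule.pow_mem_pow _ hw _))
    exact ⟨_, hb, b, (mul_div_cancel_right₀ (b : K) hw0).symm, hb'⟩

end Vale.Agent.P297Z.Sf
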