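import Vale.Agent.P297Z.Surf.Hilb

/-! Serre duality for divisors. -/

set_option linter.unusedSectionVars false

namespace Vale.Agent.P297Z.Sf

open Gr MvPolynomial Filter

variable {K : Type} [Field K] [Algebra ℂ K]

namespace Surf

variable (S : Surf K)

theorem mem_pow_iff (n : ℕ) : ∀ y : K, y ∈ S.X ^ n ↔ ∃ t ∈ Tz n, aeval S.x t = y := by
  induction n with
  | zero =>
    intro y
    rw [pow_zero, Submodule.mem_one]
    constructor
    · rintro ⟨c, rfl⟩
      exact ⟨C c, C_mem c, aeval_C _ _⟩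
    · rintro ⟨t, ht, rfl⟩
      exact ⟨coeff 0 t, by rw [eq_C ht]; simp⟩
  | succ n ih =>
    intro y
    rw [pow_succ]
    constructor
    · intro hy
      refine Submodule.mul_induction_on hy (fun a ha l hl => ?_) ?_
      · obtain ⟨t, ht, rfl⟩ := (ih a).1 ha
        obtain ⟨c, rfl⟩ := (Submodule.mem_span_range_iff_exists_fun ℂ).1 hl
        refine ⟨t * ∑ i, c i • MvPolynomial.X i, Tz_mul' ht (sum_mem fun i _ =>
          Submodule.smul_mem _ _ (X_mem i)) (by push_cast; ring), ?_⟩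
        simp only [map_mul, map_sum, map_smul, aeval_X]
      · rintro _ _ ⟨t, ht, rfl⟩ ⟨t', ht', rfl⟩
        exact ⟨t + t', add_mem ht ht', map_add _ _ _⟩
    · rintro ⟨t, ht, rfl⟩
      obtain ⟨g, hg, rfl⟩ := exists_X_sum (by omega) ht
      rw [map_sum]
      refine sum_mem fun i _ => ?_
      rw [map_mul, aeval_X, mul_comm (S.x i)]
      exact Submodule.mul_mem_mul ((ih _).2 ⟨g i, by simpa using hg i, rfl⟩) (S.hs_x_mem i)

theorem mem_Xp {d : ℤ} {y : K} : y ∈ S.Xp d ↔ ∃ t ∈ Tz d, aeval S.x t = y := by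
  unfold Xp
  split_ifs with h
  · obtain ⟨n, rfl⟩ := Int.eq_ofNat_of_zero_le h
    exact S.mem_pow_iff n y
  · rw [Submodule.mem_bot]
    constructor
    · rintro rfl
      exact ⟨0, zero_mem _, map_zero _⟩
    · rintro ⟨t, ht, rfl⟩
      rw [eq_zero_of_neg (by omega) ht, map_zero]

theorem div_mem_F {d : ℤ} {t : T} (ht : t ∈ Tz d) : aeval S.x t / S.x 0 ^ d ∈ S.F := by
  rcases lt_or_ge d 0 with h1 | h1
  · rw [eq_zero_of_neg h1 ht, map_zero, zero_div]
    exact zero_mem _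
  obtain ⟨n, rfl⟩ := Int.eq_ofNat_of_zero_le h1
  have h2 := aeval_scale S.x (S.x 0)⁻¹ n t ht
  rw [zpow_natCast, div_eq_inv_mul, ← inv_pow, ← h2]
  have h3 : ∀ i, (S.x 0)⁻¹ * S.x i ∈ S.F := by
    intro i
    rw [← div_eq_inv_mul]
    fin_cases i
    · simp [S.x_ne 0]
    · exact IntermediateField.subset_adjoin _ _ (by simp)
    · exact IntermediateField.subset_adjoin _ _ (by simp)
  clear h2 ht
  induction t using MvPolynomial.induction_on with
  | C c => rw [aeval_C]; exact S.F.algebraMap_mem c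
  | add p q hp hq => rw [map_add]; exact add_mem hp hq
  | mul_X p i hp => rw [map_mul, aeval_X]; exact mul_mem hp (h3 i)

theorem exists_frac {c : K} (hc : c ∈ S.F) :
    ∃ e : ℤ, ∃ p ∈ Tz e, ∃ q ∈ Tz e, q ≠ 0 ∧ c * aeval S.x q = aeval S.x p := by
  induction hc using IntermediateField.adjoin_induction with
  | mem y hy =>
    rcases hy with rfl | rfl
    · exact ⟨1, _, X_mem 1, _, X_mem 0, X_ne_zero 0, by simp [S.x_ne 0]⟩
    · exact ⟨1, _, X_mem 2, _, X_mem 0, X_ne_zero 0, by simp [S.x_ne 0]⟩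
  | algebraMap c => exact ⟨0, _, C_mem c, _, one_mem', one_ne_zero, by simp⟩
  | add y z _ _ hy hz =>
    obtain ⟨e, p, hp, q, hq, h0, h⟩ := hy
    obtain ⟨e', p', hp', q', hq', h0', h'⟩ := hz
    refine ⟨e + e', p * q' + q * p', add_mem (Tz_mul hp hq') (Tz_mul hq hp'), q * q', Tz_mul hq hq',
      mul_ne_zero h0 h0', ?_⟩
    simp only [map_add, map_mul]
    rw [← h, ← h']
    ring
  | inv y _ hy =>
    obtain ⟨e, p, hp, q, hq, h0, h⟩ := hy
    by_cases hy0 : y = 0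
    · exact ⟨0, 0, zero_mem _, _, one_mem', one_ne_zero, by simp [hy0]⟩
    · refine ⟨e, q, hq, p, hp, ?_, by rw [← h, inv_mul_cancel_left₀ hy0]⟩
      rintro rfl
      rw [map_zero] at h
      exact h0 (S.aeval_inj hq ((mul_eq_zero.1 h).resolve_left hy0))
  | mul y z _ _ hy hz =>
    obtain ⟨e, p, hp, q, hq, h0, h⟩ := hy
    obtain ⟨e', p', hp', q', hq', h0', h'⟩ := hz
    refine ⟨e + e', p * p', Tz_mul hp hp', q * q', Tz_mul hq hq', mul_ne_zero h0 h0', ?_⟩
    simp only [map_mul]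
    rw [← h, ← h']
    ring

theorem aeval_ne {d : ℤ} {q : T} (hq : q ∈ Tz d) (h0 : q ≠ 0) : aeval S.x q ≠ 0 :=
  fun h => h0 (S.aeval_inj hq h)

theorem trace_mul {c : K} (hc : c ∈ S.F) (y : K) :
    (Algebra.trace S.F K (c * y) : K) = c * Algebra.trace S.F K y := by
  have h := (Algebra.trace S.F K).map_smul ⟨c, hc⟩ y
  exact congrArg Subtype.val h

theorem tr_mul {d : ℤ} {t : T} (ht : t ∈ Tz d) (n : ℤ) (f : K) :
    S.tr (n + d) (aeval S.x t * f) = aeval S.x t * S.tr n f := by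
  have h0 := S.x_ne 0
  have h1 : aeval S.x t * f / S.x 0 ^ (n + d) = aeval S.x t / S.x 0 ^ d * (f / S.x 0 ^ n) := by
    rw [zpow_add₀ h0]
    field_simp
  rw [tr, tr, h1, S.trace_mul (S.div_mem_F ht), show n + d - 3 = n - 3 + d by ring, zpow_add₀ h0]
  have h2 := zpow_ne_zero d h0
  field_simp

/-- The twisted trace as a linear map. -/
noncomputable def trL (n : ℤ) : K →ₗ[ℂ] K where
  toFun := S.tr n
  map_add' f g := by
    rw [tr, tr, tr, add_div, map_add, ← add_mul]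
    rfl
  map_smul' c f := by
    have h := S.tr_mul (C_mem c) n f
    rwa [add_zero, aeval_C, ← Algebra.smul_def, ← Algebra.smul_def] at h

variable {S}

theorem aeval_mul_mem (hL : S.Loc) {D : Div S.W} {d j k : ℤ} {t : T} (ht : t ∈ Tz d) {f : K}
    (hf : f ∈ M D j) (hk : j + d = k) : aeval S.x t * f ∈ M D k := by
  obtain ⟨_, _, hA⟩ := S.exists_act
  rw [← hA]
  exact (stab hA hL D).smul ht hf hk

/-- Every rational function has a denominator which comes from the plane. -/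
theorem exists_den (hL : S.Loc) (D : Div S.W) (h : K) :
    ∃ d : ℤ, ∃ q ∈ Tz d, q ≠ 0 ∧ aeval S.x q * h ∈ M D d := by
  have := hL.findim
  let N : Submodule S.F K :=
    { carrier := {h | ∃ d : ℤ, ∃ q ∈ Tz d, q ≠ 0 ∧ aeval S.x q * h ∈ M D d}
      zero_mem' := ⟨0, 1, one_mem', one_ne_zero, by rw [mul_zero]; exact zero_mem _⟩
      add_mem' := by
        rintro a b ⟨d, q, hq, h0, h1⟩ ⟨d', q', hq', h0', h1'⟩
        refine ⟨d + d', q * q', Tz_mul hq hq', mul_ne_zero h0 h0', ?_⟩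
        have h2 := add_mem (aeval_mul_mem hL hq' h1 rfl) (aeval_mul_mem hL hq h1' (add_comm _ _))
        rwa [show aeval S.x (q * q') * (a + b) = aeval S.x q' * (aeval S.x q * a) +
          aeval S.x q * (aeval S.x q' * b) by rw [map_mul]; ring]
      smul_mem' := by
        rintro c a ⟨d, q, hq, h0, h1⟩
        obtain ⟨e, p, hp, p', hp', h2, h3⟩ := S.exists_frac c.2
        refine ⟨d + e, q * p', Tz_mul hq hp', mul_ne_zero h0 h2, ?_⟩
        have h4 := aeval_mul_mem hL hp h1 rfl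
        rwa [show aeval S.x (q * p') * (c • a) = aeval S.x p * (aeval S.x q * a) by
          rw [map_mul, ← h3]
          change _ * ((c : K) * a) = _
          ring] }
  let A : Subalgebra S.F K :=
    { carrier := {a | ∀ h ∈ N, a * h ∈ N}
      mul_mem' := fun {a b} ha hb h hh => by rw [mul_assoc]; exact ha _ (hb h hh)
      add_mem' := fun {a b} ha hb h hh => by rw [add_mul]; exact add_mem (ha h hh) (hb h hh)
      algebraMap_mem' := fun c h hh => N.smul_mem c hh }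
  have h1 : chart S.W (S.x 0) ≤ A.restrictScalars ℂ := chart_le fun a ha => by
    rintro h ⟨d, q, hq, h0, h1⟩
    refine ⟨d + 1, q * MvPolynomial.X 0, Tz_mul hq (X_mem 0), mul_ne_zero h0 (X_ne_zero 0), ?_⟩
    have h2 := hs_mul_mem hL ha h1
    rwa [show aeval S.x (q * MvPolynomial.X 0) * (a / S.x 0 * h) = a * (aeval S.x q * h) by
      rw [map_mul, aeval_X]
      field_simp [S.x_ne 0]]
  have h2 : ∀ z : K, z ∈ A := by
    intro z
    have := S.model.frac _ (S.x_mem 0) (S.x_ne 0)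
    obtain ⟨a, b, -, rfl⟩ := IsFractionRing.div_surjective (A := chart S.W (S.x 0)) z
    rw [div_eq_mul_inv]
    exact mul_mem (h1 a.2) (A.inv_mem_of_algebraic (x := ⟨b.1, h1 b.2⟩)
      (Algebra.IsAlgebraic.isAlgebraic _))
  obtain ⟨m₀, h3⟩ := hL.gen_sec D
  obtain ⟨x⟩ := hL.pt_ne
  obtain ⟨s, hs, h4, -⟩ := h3 m₀.toNat (Int.self_le_toNat m₀) x
  have h5 : S.x 0 ^ m₀.toNat ≠ 0 := pow_ne_zero _ (S.x_ne 0)
  have h6 : s / S.x 0 ^ m₀.toNat ∈ N := ⟨_, _, X_pow_mem 0 m₀.toNat, pow_ne_zero _ (X_ne_zero 0), by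
    rwa [map_pow, aeval_X, mul_div_cancel₀ _ h5]⟩
  have h7 := h2 (h / (s / S.x 0 ^ m₀.toNat)) _ h6
  rwa [div_mul_cancel₀ _ (div_ne_zero h4 h5)] at h7

theorem eq_zero_of_tr (hL : S.Loc) (D : Div S.W) {m : ℤ} {g : K}
    (h : ∀ j, ∀ f ∈ M D j, S.tr (j + m) (g * f) = 0) : g = 0 := by
  have := hL.findim
  have h0 := S.x_ne 0
  have h1 : g / S.x 0 ^ m = 0 := (traceForm_nondegenerate S.F K).1 _ fun y => by
    obtain ⟨d, q, hq, h2, h3⟩ := exists_den hL D y
    have h4 := h d _ h3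
    rw [mul_left_comm, add_comm, S.tr_mul hq, mul_eq_zero, tr, mul_eq_zero] at h4
    rcases h4 with h4 | h4 | h4
    · exact absurd h4 (S.aeval_ne hq h2)
    · rw [Algebra.traceForm_apply, div_mul_eq_mul_div]
      exact Subtype.ext h4
    · exact absurd h4 (zpow_ne_zero _ h0)
  exact (div_eq_zero_iff.1 h1).resolve_right (zpow_ne_zero _ h0)

theorem exists_rep (hL : S.Loc) (D : Div S.W) (m : ℤ) (φ : ℤ → K → K)
    (ha : ∀ j, ∀ f ∈ M D j, ∀ f' ∈ M D j, φ j (f + f') = φ j f + φ j f')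
    (hb : ∀ d, ∀ t ∈ Tz d, ∀ j, ∀ f ∈ M D j, φ (j + d) (aeval S.x t * f) = aeval S.x t * φ j f)
    (hc : ∀ j, ∀ f ∈ M D j, φ j f ∈ S.Xp (j + m - 3)) :
    ∃ g, ∀ j, ∀ f ∈ M D j, S.tr (j + m) (g * f) = φ j f := by
  have := hL.findim
  have h0 := S.x_ne 0
  have hu : ∀ {d d' q q' h}, q ∈ Tz d → q' ∈ Tz d' → aeval S.x q * h ∈ M D d →
      φ (d + d') (aeval S.x (q * q') * h) = aeval S.x q' * φ d (aeval S.x q * h) := by
    intro d d' q q' h _ hq' h1
    rw [← hb d' q' hq' d _ h1, map_mul, mul_left_comm, mul_assoc]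
  let G : Submodule S.F (K × S.F) :=
    { carrier := {z | ∃ d : ℤ, ∃ q ∈ Tz d, q ≠ 0 ∧ aeval S.x q * z.1 ∈ M D d ∧
        aeval S.x q * z.2 * S.x 0 ^ (m - 3) = φ d (aeval S.x q * z.1)}
      zero_mem' := ⟨0, 1, one_mem', one_ne_zero, by simp, by
        have h1 := ha 0 0 (zero_mem _) 0 (zero_mem _)
        rw [add_zero, left_eq_add] at h1
        simp [h1]⟩
      add_mem' := by
        rintro ⟨a, r⟩ ⟨b, r'⟩ ⟨d, q, hq, h1, h2, h3⟩ ⟨d', q', hq', h1', h2', h3'⟩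
        have e1 : aeval S.x (q * q') * a ∈ M D (d + d') := by
          rw [map_mul, mul_comm (aeval S.x q), mul_assoc]
          exact aeval_mul_mem hL hq' h2 rfl
        have e2 : aeval S.x (q * q') * b ∈ M D (d + d') := by
          rw [map_mul, mul_assoc]
          exact aeval_mul_mem hL hq h2' (add_comm _ _)
        refine ⟨d + d', q * q', Tz_mul hq hq', mul_ne_zero h1 h1', ?_, ?_⟩
        · rw [Prod.fst_add, mul_add]
          exact add_mem e1 e2
        · have e3 := hu hq' hq h2'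
          rw [add_comm, mul_comm q'] at e3
          rw [Prod.fst_add, mul_add, ha _ _ e1 _ e2, hu hq hq' h2, e3, ← h3, ← h3', map_mul]
          change _ * ((r : K) + r') * _ = _
          ring
      smul_mem' := by
        rintro c ⟨a, r⟩ ⟨d, q, hq, h1, h2, h3⟩
        obtain ⟨e, p, hp, p', hp', h4, h5⟩ := S.exists_frac c.2
        have e1 : aeval S.x (q * p') * (c • (a, r)).1 = aeval S.x p * (aeval S.x q * a) := by
          rw [map_mul, ← h5]
          change _ * ((c : K) * a) = _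
          ring
        refine ⟨d + e, q * p', Tz_mul hq hp', mul_ne_zero h1 h4, ?_, ?_⟩
        · rw [e1]
          exact aeval_mul_mem hL hp h2 rfl
        · rw [e1, hb e p hp d _ h2, ← h3, map_mul, ← h5]
          change _ * ((c : K) * r) * _ = _
          ring }
  obtain ⟨l, hl⟩ := G.exists_eq_graph ⟨by
    rintro ⟨⟨a, r⟩, d, q, hq, h1, h2, h3⟩ ⟨⟨b, r'⟩, d', q', hq', h1', h2', h3'⟩ h
    obtain rfl : a = b := h
    have e1 := hu hq hq' h2
    have e2 := hu hq' hq h2'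
    rw [add_comm, mul_comm q', e1, ← h3, ← h3'] at e2
    refine Subtype.ext (Prod.ext rfl (Subtype.ext ?_))
    apply mul_left_cancel₀ (mul_ne_zero (mul_ne_zero (S.aeval_ne hq h1) (S.aeval_ne hq' h1'))
      (zpow_ne_zero (m - 3) h0))
    linear_combination e2, fun a => by
    obtain ⟨d, q, hq, h1, h2⟩ := exists_den hL D a
    obtain ⟨t, ht, h3⟩ := S.mem_Xp.1 (hc d _ h2)
    refine ⟨⟨(a, ⟨_, div_mem (S.div_mem_F ht) (S.div_mem_F hq)⟩), d, q, hq, h1, h2, ?_⟩, rfl⟩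
    have e1 := S.aeval_ne hq h1
    have e2 := zpow_ne_zero d h0
    have e3 := zpow_ne_zero (m - 3) h0
    rw [← h3]
    change _ * (_ / _ / (_ / _)) * _ = _
    rw [show d + m - 3 = d + (m - 3) by ring, zpow_add₀ h0]
    field_simp⟩
  obtain ⟨g, hg⟩ := ((Algebra.traceForm S.F K).toDual (traceForm_nondegenerate S.F K)).surjective l
  have hg' : ∀ y, Algebra.trace S.F K (g * y) = l y := fun y => by rw [← hg]; rfl
  refine ⟨g * S.x 0 ^ m, fun j f hf => ?_⟩
  have e0 : g * S.x 0 ^ m * f / S.x 0 ^ (j + m) = g * (f / S.x 0 ^ j) := by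
    have e2 := zpow_ne_zero j h0
    have e3 := zpow_ne_zero m h0
    rw [zpow_add₀ h0]
    field_simp
  obtain ⟨d, q, hq, h1, h2, h3⟩ : (f / S.x 0 ^ j, l (f / S.x 0 ^ j)) ∈ G := by
    rw [hl]
    rfl
  rw [tr, e0, hg']
  obtain ⟨n, k, hnk⟩ : ∃ n k : ℕ, j + n = k := ⟨(-j).toNat, j.toNat, by omega⟩
  have e1 := hb _ _ (X_pow_mem 0 k) _ _ h2
  have e2 := hb _ _ (Tz_mul hq (X_pow_mem 0 n)) _ _ hf
  have e3 : S.x 0 ^ k = S.x 0 ^ j * S.x 0 ^ n := by
    rw [← zpow_natCast, ← hnk, zpow_add₀ h0, zpow_natCast]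
  have e4 := zpow_ne_zero j h0
  simp only [map_mul, map_pow, aeval_X] at e1 e2 h3
  rw [show j + (d + n) = d + k by omega, show aeval S.x q * S.x 0 ^ n * f =
    S.x 0 ^ k * (aeval S.x q * (f / S.x 0 ^ j)) by rw [e3]; field_simp, e1, ← h3, e3] at e2
  apply mul_left_cancel₀ (mul_ne_zero (S.aeval_ne hq h1) (pow_ne_zero n h0))
  rw [show j + m - 3 = j + (m - 3) by ring, zpow_add₀ h0]
  linear_combination e2

variable [Module T K] [IsScalarTower ℂ T K]

theorem finrank_dual (hA : S.Act) (hL : S.Loc) (hD : S.Dual) (D : Div S.W) (m : ℤ) :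
    Module.finrank ℂ (Gr.Dual (stab hA hL D) m) = Module.finrank ℂ (M (S.kap - D) m) := by
  classical
  let ev : ∀ n : ℤ, Tz n →ₗ[ℂ] K := fun n => (aeval S.x : T →ₐ[ℂ] K).toLinearMap ∘ₗ (Tz n).subtype
  choose σ hσ using fun n => (ev n).exists_leftInverse_of_injective
    (LinearMap.ker_eq_bot'.2 fun t ht => Subtype.ext (S.aeval_inj t.2 ht))
  have hσ' : ∀ {n y}, y ∈ S.Xp n → aeval S.x (σ n y).1 = y := by
    intro n y hy
    obtain ⟨t, ht, rfl⟩ := S.mem_Xp.1 hy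
    have h1 : σ n (aeval S.x t) = ⟨t, ht⟩ := LinearMap.congr_fun (hσ n) ⟨t, ht⟩
    rw [h1]
  let ψ : K → ∀ j, M D j →ₗ[ℂ] T := fun g j =>
    (Tz (j + m - 3)).subtype ∘ₗ σ _ ∘ₗ S.trL (j + m) ∘ₗ LinearMap.mulLeft ℂ g ∘ₗ (M D j).subtype
  have hψ : ∀ g ∈ M (S.kap - D) m, ∀ j (f : M D j), aeval S.x (ψ g j f) = S.tr (j + m) (g * f) :=
    fun g hg j f => hσ' ((hD D m g).1 hg j f.1 f.2)
  have hψ' : ∀ g j (f : M D j), ψ g j f ∈ Tz (j + m - 3) := fun g j f => (σ _ _).2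
  let Φ : M (S.kap - D) m →ₗ[ℂ] Gr.Dual (stab hA hL D) m :=
    { toFun := fun g => ⟨ψ g.1, hψ' g.1, fun i j f => by
        rw [← sub_eq_zero]
        refine S.aeval_inj (sub_mem (hψ' _ _ _) (Tz_mul' (X_mem i) (hψ' _ j f) (by ring))) ?_
        rw [map_sub, smul_eq_mul, map_mul, hψ _ g.2, hψ _ g.2, ← S.tr_mul (X_mem i), sub_eq_zero,
          add_right_comm, mul_left_comm, ← hA]⟩
      map_add' := fun g g' => by
        apply Subtype.ext
        funext j
        ext1 f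
        simp [ψ, add_mul]
      map_smul' := fun c g => by
        apply Subtype.ext
        funext j
        ext1 f
        simp [ψ] }
  refine (LinearEquiv.ofBijective Φ ⟨(injective_iff_map_eq_zero Φ).2 fun g hg => ?_,
    fun θ => ?_⟩).finrank_eq.symm
  · refine Subtype.ext (eq_zero_of_tr hL D (m := m) fun j f hf => ?_)
    have h1 : ψ g.1 = 0 := congrArg Subtype.val hg
    rw [← hψ _ g.2 j ⟨f, hf⟩, h1]
    simp
  · let φ : ℤ → K → K := fun j f => if h : f ∈ M D j then aeval S.x (θ.1 j ⟨f, h⟩) else 0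
    have hφ : ∀ {j f} (h : f ∈ M D j), φ j f = aeval S.x (θ.1 j ⟨f, h⟩) := fun h => dif_pos h
    have hc : ∀ j, ∀ f ∈ M D j, φ j f ∈ S.Xp (j + m - 3) := fun j f hf =>
      S.mem_Xp.2 ⟨_, θ.2.1 j ⟨f, hf⟩, (hφ hf).symm⟩
    obtain ⟨g, hg⟩ := exists_rep hL D m φ
      (fun j f hf f' hf' => by
        rw [hφ hf, hφ hf', hφ (add_mem hf hf'), ← map_add, ← map_add]
        rfl)
      (fun d t ht j f hf => by
        rw [← hA t f, hφ hf, hφ ((stab hA hL D).smul ht hf rfl), θ.2.2.smul ht hf rfl, smul_eq_mul,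
          map_mul])
      hc
    have h1 : g ∈ M (S.kap - D) m := (hD D m g).2 fun j f hf => by
      rw [hg j f hf]
      exact hc j f hf
    refine ⟨⟨g, h1⟩, Subtype.ext (funext fun j => LinearMap.ext fun f => ?_)⟩
    change ψ g j f = _
    rw [← sub_eq_zero]
    refine S.aeval_inj (sub_mem (hψ' g j f) (θ.2.1 j f)) ?_
    rw [map_sub, hψ g h1, hg j f.1 f.2, hφ f.2, sub_self]

theorem div_mem_secOn (hL : S.Loc) {D : Div S.W} (i j : Fin 3) {e : ℕ} {c : K}
    (hc : c ∈ M D (0 + 2 * e)) :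
    c / (S.x i ^ e * S.x j ^ e) ∈ secOn (fun C => C.In (S.x i) ∧ C.In (S.x j)) D := by
  by_cases h0 : c = 0
  · rw [h0, zero_div]
    exact zero_mem _
  refine Or.inr fun C hC => ?_
  have h1 := hL.hyp_in C _ (S.x_mem i) hC.1
  have h2 := hL.hyp_in C _ (S.x_mem j) hC.2
  have h3 := (mem_M'.1 hc).resolve_left h0 C
  have ni := pow_ne_zero e (S.x_ne i)
  have nj := pow_ne_zero e (S.x_ne j)
  simp only [Crv.ord, H] at h1 h2 h3 ⊢
  rw [Pl.ord_div _ h0 (mul_ne_zero ni nj), Pl.ord_mul _ ni nj, Pl.ord_pow, Pl.ord_pow]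
  have h4 : C.pl.ord (S.x i) = -hyp S.W C := by omega
  have h5 : C.pl.ord (S.x j) = -hyp S.W C := by omega
  rw [h4, h5]
  linarith

theorem div_mem_secIn (hL : S.Loc) {D : Div S.W} (i : Fin 3) {e : ℕ} {c : K}
    (hc : c ∈ M D (0 + e)) : c / S.x i ^ e ∈ secIn (S.x i) D := by
  by_cases h0 : c = 0
  · rw [h0, zero_div]
    exact zero_mem _
  refine Or.inr fun C hC => ?_
  have h1 := hL.hyp_in C _ (S.x_mem i) hC
  have h3 := (mem_M'.1 hc).resolve_left h0 C
  simp only [Crv.ord, H] at h1 h3 ⊢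
  rw [Pl.ord_div _ h0 (pow_ne_zero e (S.x_ne i)), Pl.ord_pow]
  have h4 : C.pl.ord (S.x i) = -hyp S.W C := by omega
  rw [h4]
  linarith

theorem exists_mul_mem (hL : S.Loc) {D : Div S.W} (i j : Fin 3) {h : K}
    (hh : h ∈ secOn (fun C => C.In (S.x i) ∧ C.In (S.x j)) D) :
    ∃ n₀ : ℕ, ∀ n : ℕ, n₀ ≤ n → h * (S.x i ^ n * S.x j ^ n) ∈ M D (0 + 2 * n) := by
  by_cases h0 : h = 0
  · exact ⟨0, fun n _ => by rw [h0, zero_mul]; exact zero_mem _⟩
  have h1 : (Set.range fun C : Crv S.W => C.ord h + D C).Finite := by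
    refine ((((hL.fin_div h).union D.hasFiniteSupport).image fun C => C.ord h + D C).insert 0).subset ?_
    rintro _ ⟨C, rfl⟩
    by_cases h2 : C ∈ Function.support (fun C : Crv S.W => C.ord h) ∪ Function.support D
    · exact Or.inr ⟨C, h2, rfl⟩
    · simp only [Set.mem_union, Function.mem_support, not_or, not_not] at h2
      exact Or.inl (by simp [h2.1, h2.2])
  obtain ⟨b, hb⟩ := h1.bddBelow
  refine ⟨(-b).toNat, fun n hn => mem_M'.2 (Or.inr fun C => ?_)⟩
  have h2 : b ≤ C.ord h + D C := hb ⟨C, rfl⟩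
  obtain ⟨w, hw, hC⟩ := C.exists_in
  have h3 := hL.hyp_in C w hw hC
  have h4 : ∀ k, 0 ≤ C.ord (S.x k) + hyp S.W C ∧
      (¬ C.In (S.x k) → 1 ≤ C.ord (S.x k) + hyp S.W C) := by
    intro k
    have h5 := Pl.ord_nonneg_of_mem _ (hC.2 _ (S.x_mem k))
    rw [Pl.ord_div _ (S.x_ne k) hC.1] at h5
    rw [Crv.in_iff hC hw (S.x_mem k) (S.x_ne k)]
    simp only [Crv.ord, H] at h3 ⊢
    omega
  have ni := pow_ne_zero n (S.x_ne i)
  have nj := pow_ne_zero n (S.x_ne j)
  have h5 := h4 i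
  have h6 := h4 j
  have h7 := hh.resolve_left h0 C
  simp only [Crv.ord] at h2 h5 h6 h7 ⊢
  rw [Pl.ord_mul _ h0 (mul_ne_zero ni nj), Pl.ord_mul _ ni nj, Pl.ord_pow, Pl.ord_pow]
  have h8 := mul_nonneg (Int.natCast_nonneg n) h5.1
  have h9 := mul_nonneg (Int.natCast_nonneg n) h6.1
  by_cases hi : C.In (S.x i)
  · by_cases hj : C.In (S.x j)
    · have := h7 ⟨hi, hj⟩
      linarith
    · have := mul_le_mul_of_nonneg_left (h6.2 hj) (Int.natCast_nonneg n)
      have : -b ≤ n := by omega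
      linarith
  · have := mul_le_mul_of_nonneg_left (h5.2 hi) (Int.natCast_nonneg n)
    have : -b ≤ n := by omega
    linarith

theorem cech_iff (hA : S.Act) (hL : S.Loc) (D : Div S.W) : S.Cech1 D ↔ H1van (M D) 0 := by
  have n0 := S.x_ne 0
  have n1 := S.x_ne 1
  have n2 := S.x_ne 2
  constructor
  · intro h e c₀₁ h01 c₀₂ h02 c₁₂ h12 hc
    simp only [hA _, map_pow, aeval_X] at hc
    let f : Fin 3 → K := ![0, c₀₁ / (S.x 0 ^ e * S.x 1 ^ e), c₀₂ / (S.x 0 ^ e * S.x 2 ^ e)]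
    have e1 : f 1 - f 0 = c₀₁ / (S.x 0 ^ e * S.x 1 ^ e) := sub_zero _
    have e2 : f 2 - f 0 = c₀₂ / (S.x 0 ^ e * S.x 2 ^ e) := sub_zero _
    have e3 : f 2 - f 1 = c₁₂ / (S.x 1 ^ e * S.x 2 ^ e) := by
      change c₀₂ / (S.x 0 ^ e * S.x 2 ^ e) - c₀₁ / (S.x 0 ^ e * S.x 1 ^ e) = _
      field_simp
      linear_combination -hc
    have hs : ∀ i j, f j - f i ∈ secOn (fun C => C.In (S.x i) ∧ C.In (S.x j)) D →
        f j - f i ∈ secOn (fun C => C.In (S.x j) ∧ C.In (S.x i)) D ∧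
        f i - f j ∈ secOn (fun C => C.In (S.x i) ∧ C.In (S.x j)) D := fun i j hij =>
      ⟨secOn_mono (fun C hC => ⟨hC.symm, le_rfl⟩) hij, by rw [← neg_sub]; exact neg_mem hij⟩
    have s1 := hs 0 1 (e1 ▸ div_mem_secOn hL 0 1 h01)
    have s2 := hs 0 2 (e2 ▸ div_mem_secOn hL 0 2 h02)
    have s3 := hs 1 2 (e3 ▸ div_mem_secOn hL 1 2 h12)
    obtain ⟨g, hg⟩ := h f fun i j => by
      fin_cases i <;> fin_cases j
      exacts [by simp, s1.2, s2.2, s1.1, by simp, s3.2, s2.1, s3.1, by simp]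
    choose n hn using fun i => hL.sec_mul _ (S.x_mem i) (S.x_ne i) D _ (hg i)
    have hm : ∀ i, n i ≤ e + (n 0 + n 1 + n 2) → (f i - g) * S.x i ^ (e + (n 0 + n 1 + n 2)) ∈
        M D (0 + (e + (n 0 + n 1 + n 2) : ℕ)) := fun i hi => by
      rw [zero_add]
      exact hn i _ hi
    refine ⟨n 0 + n 1 + n 2, _, hm 0 (by omega), _, hm 1 (by omega), _, hm 2 (by omega), ?_, ?_, ?_⟩
    · rw [eq_div_iff (mul_ne_zero (pow_ne_zero e n0) (pow_ne_zero e n1))] at e1
      simp only [hA _, map_mul, map_pow, aeval_X]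
      rw [← e1]
      ring
    · rw [eq_div_iff (mul_ne_zero (pow_ne_zero e n0) (pow_ne_zero e n2))] at e2
      simp only [hA _, map_mul, map_pow, aeval_X]
      rw [← e2]
      ring
    · rw [eq_div_iff (mul_ne_zero (pow_ne_zero e n1) (pow_ne_zero e n2))] at e3
      simp only [hA _, map_mul, map_pow, aeval_X]
      rw [← e3]
      ring
  · intro h f hf
    have hs : ∀ i j, f j - f i ∈ secOn (fun C => C.In (S.x i) ∧ C.In (S.x j)) D := fun i j =>
      secOn_mono (fun C hC => ⟨hC.symm, le_rfl⟩) (hf j i)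
    obtain ⟨a, ha⟩ := exists_mul_mem hL 0 1 (hs 0 1)
    obtain ⟨b, hb⟩ := exists_mul_mem hL 0 2 (hs 0 2)
    obtain ⟨c, hc⟩ := exists_mul_mem hL 1 2 (hs 1 2)
    obtain ⟨e', g₀, h0, g₁, h1, g₂, h2, e1, e2, -⟩ := h (a + b + c) _ (ha _ (by omega)) _
      (hb _ (by omega)) _ (hc _ (by omega)) (by
        simp only [hA _, map_pow, aeval_X]
        ring)
    simp only [hA _, map_mul, map_pow, aeval_X] at e1 e2
    refine ⟨f 0 - g₀ / S.x 0 ^ (a + b + c + e'), fun i => ?_⟩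
    fin_cases i
    · simpa using div_mem_secIn hL 0 h0
    · have e3 : f 1 - (f 0 - g₀ / S.x 0 ^ (a + b + c + e')) = g₁ / S.x 1 ^ (a + b + c + e') := by
        field_simp
        linear_combination e1
      exact e3 ▸ div_mem_secIn hL 1 h1
    · have e3 : f 2 - (f 0 - g₀ / S.x 0 ^ (a + b + c + e')) = g₂ / S.x 2 ^ (a + b + c + e') := by
        field_simp
        linear_combination e2
      exact e3 ▸ div_mem_secIn hL 2 h2

end Surf

theorem serre : SERRE := fun K _ _ S hL hF hD _ => by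
  obtain ⟨_, _, hA⟩ := S.exists_act
  have h0 : ∀ D : Div S.W, h0 D = Module.finrank ℂ (M D 0) := fun D => by
    rw [← h0_eq, zero_smul, add_zero]
  refine ⟨fun D => ?_, fun D => ?_, fun D => ?_⟩
  all_goals
    obtain ⟨χ, h1, h2, h3, h4, h5⟩ :=
      exists_chi (Surf.stab hA hL D) (Surf.fg_M hA hF D) (Surf.regAll hA hL D)
    have e0 := chi_eq_of h1 h2 0
    rw [zero_smul, add_zero] at e0
    simp only [Surf.finrank_dual hA hL hD] at h3 h4 h5
  · rw [e0, h0, h0]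
    simpa using h4 0
  · obtain ⟨A, B, C, h1⟩ := h1
    have e1 := chi_eq_of (χ := fun m => χ (-m)) ⟨A, -B, C, fun m => by rw [h1]; ring⟩ h3 0
    rw [zero_smul, add_zero, neg_zero] at e1
    rw [e0, e1]
  · rw [e0, h0, h0, Surf.cech_iff hA hL]
    simpa using h5 0

end Vale.Agent.P297Z.Sf
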