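import Vale.Agent.P297Z.Surf.Loc1
import Vale.Agent.P297Z.Surf.Loc2
import Vale.Agent.P297Z.Surf.FG
import Vale.Agent.P297Z.Diff.Dual
import Vale.Agent.P297Z.Surf.Hilb
import Vale.Agent.P297Z.Surf.Serre
import Vale.Agent.P297Z.Surf.Mult
import Vale.Agent.P297Z.Surf.Int
import Vale.Agent.P297Z.Surf.RR
import Vale.Agent.P297Z.Surf.Adj
import Vale.Agent.P297Z.Surf.Reg2
import Vale.Agent.P297Z.Surf.NN
import Vale.Agent.P297Z.Surf.Bl1
import Vale.Agent.P297Z.Surf.Bl2
import Vale.Agent.P297Z.Surf.Bl4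
import Vale.Agent.P297Z.Surf.Bl5

/-! All the general facts hold on every surface; blowing up. -/

set_option linter.all false

namespace Vale.Agent.P297Z.Sf

variable {K : Type} [Field K] [Algebra ℂ K]

/-- The general facts hold on every surface. -/
theorem Surf.all (S : Surf K) : S.All := by
  have h1 := loc1 K S
  have hL : S.Loc := ⟨h1, loc2 K S h1⟩
  have hF := fg K S hL
  have hC := SB.can K S hL
  have hD := SB.dual K S hL hC
  have hH := hilb K S hL hF
  have hS := serre K S hL hF hD hH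
  have hM := mult_pos K S hL
  have hI := inte K S hL hF hH hM
  have hR := rrb K S hL hH hS hI
  exact
    { toLoc := hL, toCan := hC, toHilb := hH, toSerre := hS, toRR := hR
      toAmp := amp K S hL hM hI hR, toReg2 := reg2 K S hL
      fg := hF, dual := hD, multPos := hM, inte := hI, adj := adj K S hL }

theorem Dominates.comp {W W' W'' : Submodule ℂ K} {π : Pt W' → Pt W} {π' : Pt W'' → Pt W'}
    (h : Dominates π) (h' : Dominates π') : Dominates (π ∘ π') :=
  fun y => ⟨(h (π' y)).1.trans (h' y).1, fun f hf => (h' y).2 f ((h (π' y)).2 f hf)⟩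

/-- One blowing up. -/
theorem Surf.blow_one (S : Surf K) (hG : S.Good) : ∃ (S' : Surf K) (π : Pt S'.W → Pt S.W),
    S'.Good ∧ inter S'.kap S'.kap = inter S.kap S.kap - 1 ∧ Function.Surjective π ∧
      Dominates π := by
  have h := S.all
  obtain ⟨x⟩ := h.pt_ne
  obtain ⟨S', e⟩ := Sf.nn K (bl x) (bl1 Sf.model K S h.toLoc h.toReg2 x)
  obtain ⟨E, ι, hB⟩ := bl2 K S h.toLoc h.toReg2 x
  obtain ⟨π, hπ, hd⟩ := bl3 K S h.toLoc h.toReg2 x
  obtain ⟨h1, h2⟩ := bl5 K S h x S' e S'.all E ι hB (bl4 K S h x S' e S'.all E ι hB) hG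
  have h3 : ∃ π : Pt S'.W → Pt S.W, Function.Surjective π ∧ Dominates π := by
    rw [e]
    exact ⟨π, hπ, hd⟩
  obtain ⟨π', h4⟩ := h3
  exact ⟨S', π', h1, h2, h4⟩

/-- Blowing up many times. -/
theorem Surf.blow (S : Surf K) (hG : S.Good) (n : ℕ) : ∃ (S' : Surf K) (π : Pt S'.W → Pt S.W),
    S'.Good ∧ inter S'.kap S'.kap = inter S.kap S.kap - n ∧ Function.Surjective π ∧
      Dominates π := by
  induction n with
  | zero => exact ⟨S, id, hG, by simp, Function.surjective_id, fun y => ⟨le_rfl, fun _ h => h⟩⟩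
  | succ n ih =>
    obtain ⟨S₁, π₁, g₁, k₁, s₁, d₁⟩ := ih
    obtain ⟨S₂, π₂, g₂, k₂, s₂, d₂⟩ := S₁.blow_one g₁
    exact ⟨S₂, π₁ ∘ π₂, g₂, by rw [k₂, k₁]; push_cast; ring, s₁.comp s₂, d₁.comp d₂⟩

end Vale.Agent.P297Z.Sf
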