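import Vale.Agent.P297Z.Surf.Basic

/-! The statements of the blocks of the theory of surfaces. -/

set_option linter.all false

open IsLocalRing Polynomial

namespace Vale.Agent.P297Z.Sf

open Vale.Agent.P297 (Place)

variable {K : Type} [Field K] [Algebra ℂ K]

namespace Surf

variable (S : Surf K)

/-- Points, curves and charts. -/
structure Loc1 : Prop where
  ft : ∀ w, Algebra.FiniteType ℂ (chart S.W w)
  int : ∀ i, ∀ a ∈ chart S.W (S.x i),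
    IsIntegral (Algebra.adjoin ℂ (Set.range fun j => S.x j / S.x i)) a
  findim : FiniteDimensional S.F K
  center : ∀ V : ValuationSubring K, (∀ c, algebraMap ℂ K c ∈ V) →
    ∃ i, ∀ a ∈ S.W, a / S.x i ∈ V
  pt_chart : ∀ (x : Pt S.W), ∀ w ∈ S.W, x.In w →
    ∃ (m : Ideal (chart S.W w)) (hm : m.IsMaximal),
      x.ring = loc _ m hm.isPrime ∧ ∀ a : chart S.W w, a ∈ m ↔ x.Van a
  pt_cover : ∀ x : Pt S.W, ∃ i, x.In (S.x i)
  pt_ext : ∀ x y : Pt S.W, x.ring ≤ y.ring → x = y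
  val : ∀ (x : Pt S.W), ∀ f ∈ x.ring, ∃ c : ℂ, x.Van (f - algebraMap ℂ K c)
  reg : ∀ x : Pt S.W, IsRegularLocalRing x.ring
  dim : ∀ x : Pt S.W, ringKrullDim x.ring = 2
  ufd : ∀ x : Pt S.W, UniqueFactorizationMonoid x.ring
  frac : ∀ x : Pt S.W, IsFractionRing x.ring K
  crv_chart : ∀ (C : Crv S.W), ∀ w ∈ S.W, C.In w →
    ∃ (p : Ideal (chart S.W w)) (hp : p.IsPrime), p ≠ ⊥ ∧ ¬ p.IsMaximal ∧
      (∀ f, f ∈ C.pl.ring ↔ f ∈ loc _ p hp) ∧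
      ∀ a : chart S.W w, a ∈ p ↔ ((a : K) = 0 ∨ 0 < C.ord a)
  crv_cover : ∀ C : Crv S.W, ∃ i, C.In (S.x i)
  crv_of_prime : ∀ w ∈ S.W, w ≠ 0 → ∀ (p : Ideal (chart S.W w)) (hp : p.IsPrime), p ≠ ⊥ →
    ¬ p.IsMaximal → ∃ C : Crv S.W, ∀ f, f ∈ C.pl.ring ↔ f ∈ loc _ p hp
  crv_of_irr : ∀ (x : Pt S.W) (t : x.ring), Prime t → ∃ C : Crv S.W, x.On C ∧ C.ord t = 1 ∧
    (∀ C', x.On C' → C' ≠ C → C'.ord t = 0) ∧
    ∀ a : x.ring, t ∣ a ↔ ((a : K) = 0 ∨ 0 < C.ord a)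
  irr_of_crv : ∀ (x : Pt S.W) (C : Crv S.W), x.On C → ∃ t : x.ring, Prime t ∧ C.ord t = 1 ∧
    (∀ C', x.On C' → C' ≠ C → C'.ord t = 0) ∧
    ∀ a : x.ring, t ∣ a ↔ ((a : K) = 0 ∨ 0 < C.ord a)
  on_iff : ∀ (x : Pt S.W) (C : Crv S.W), ∀ w ∈ S.W, x.In w → C.In w →
    (x.On C ↔ ∀ a ∈ chart S.W w, 0 < C.ord a → x.Van a)
  fin_meet : ∀ C C' : Crv S.W, C ≠ C' → {x : Pt S.W | x.On C ∧ x.On C'}.Finite
  inf_pt : ∀ (C : Crv S.W), ∀ w ∈ S.W, C.In w → {x : Pt S.W | x.On C ∧ x.In w}.Infinite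
  res : ∀ (C : Crv S.W), ∀ w ∈ S.W, C.In w → ∃ a ∈ S.W, ∀ P : ℂ[X], P ≠ 0 →
    aeval (a / w) P ≠ 0 ∧ C.ord (aeval (a / w) P) = 0
  two : ∀ l₀ ∈ S.X, ∀ l₁ ∈ S.X, LinearIndependent ℂ ![l₀, l₁] →
    ∀ C : Crv S.W, C.In l₀ ∨ C.In l₁
  pt_ne : Nonempty (Pt S.W)

/-- Divisors and sections. -/
structure Loc2 : Prop where
  fin_div : ∀ f : K, (Function.support fun C : Crv S.W => C.ord f).Finite
  hyp_in : ∀ (C : Crv S.W), ∀ w ∈ S.W, C.In w → S.H C = - C.ord w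
  normal : ∀ (x : Pt S.W) (f : K), f ∈ stalk x 0 ↔ f ∈ x.ring
  gen : ∀ (x : Pt S.W) (D : Div S.W), ∃ s, GenAt x D s
  sec_chart : ∀ w ∈ S.W, w ≠ 0 → ∀ f, f ∈ secIn w (0 : Div S.W) ↔ f ∈ chart S.W w
  sec_mul : ∀ w ∈ S.W, w ≠ 0 → ∀ (D : Div S.W), ∀ f ∈ secIn w D,
    ∃ n₀ : ℕ, ∀ n : ℕ, n₀ ≤ n → f * w ^ n ∈ M D n
  stalk_sec : ∀ (x : Pt S.W), ∀ w ∈ S.W, x.In w → ∀ (D : Div S.W), ∀ f ∈ stalk x D,
    ∃ b ∈ chart S.W w, ¬ x.Van b ∧ b * f ∈ secIn w D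
  avoid : ∀ (P : Finset (Pt S.W)) (F : Finset (Crv S.W)),
    ∃ w ∈ S.W, w ≠ 0 ∧ (∀ x ∈ P, x.In w) ∧ ∀ C ∈ F, C.In w
  sep : ∀ x y : Pt S.W, x ≠ y → ∃ w ∈ van x, y.In w
  move : ∀ (F : Finset (Crv S.W)) (n : Crv S.W → ℤ), ∃ g : K, g ≠ 0 ∧ ∀ C ∈ F, C.ord g = n C
  const : ∀ f ∈ H0 (0 : Div S.W), ∃ c : ℂ, f = algebraMap ℂ K c
  gen_sec : ∀ (D : Div S.W), ∃ m₀ : ℤ, ∀ m, m₀ ≤ m → ∀ x : Pt S.W,
    ∃ s ∈ M D m, GenAt x (D + m • S.H) s

/-- The local theory. -/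
structure Loc : Prop extends S.Loc1, S.Loc2

/-- The modules of sections are finitely generated over the coordinate ring of the plane. -/
def Fg : Prop := ∀ D : Div S.W, (∀ m, FiniteDimensional ℂ (M D m)) ∧
  (∃ m₀, ∀ m, m < m₀ → M D m = ⊥) ∧ ∃ m₁, ∀ m, m₁ ≤ m → M D (m + 1) ≤ S.X * M D m

/-- The divisors of the rational two-forms. -/
structure Can : Prop where
  least : ∀ u v : K, AlgebraicIndependent ℂ ![u, v] → ∀ C : Crv S.W,
    IsLeast (canSet u v C.pl) (canDiv S.W u v C)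
  change : ∀ u v u' v' : K, AlgebraicIndependent ℂ ![u, v] → AlgebraicIndependent ℂ ![u', v'] →
    ∃ c : K, c ≠ 0 ∧ ∀ δ₁ δ₂, wedge u' v' δ₁ δ₂ = c * wedge u v δ₁ δ₂

/-- The dual for the trace form. -/
def Dual : Prop := ∀ (D : Div S.W) (m : ℤ) (g : K),
  g ∈ M (S.kap - D) m ↔ ∀ j, ∀ f ∈ M D j, S.tr (j + m) (g * f) ∈ S.Xp (j + m - 3)

/-- The Hilbert polynomial. -/
structure Hilb : Prop where
  large : ∀ D : Div S.W, ∃ m₀ : ℤ, ∀ m, m₀ ≤ m → h0 (D + m • S.H) = chi (D + m • S.H)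
  third : ∀ D : Div S.W,
    chi (D + 3 • S.H) - 3 * chi (D + 2 • S.H) + 3 * chi (D + S.H) - chi D = 0

/-- Serre duality. -/
structure Serre : Prop where
  le : ∀ D : Div S.W, chi D ≤ h0 D + h0 (S.kap - D)
  symm : ∀ D : Div S.W, chi (S.kap - D) = chi D
  cech : ∀ D : Div S.W, S.Cech1 D ↔ chi D = h0 D + h0 (S.kap - D)

/-- Local intersection multiplicities. -/
def MultPos : Prop := ∀ (x : Pt S.W) (Z Z' : Div S.W), 0 ≤ Z → 0 ≤ Z' →
  (∀ C, Z C = 0 ∨ Z' C = 0) →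
  Module.Finite ℂ (x.ring ⧸ (idl x Z ⊔ idl x Z')) ∧
    (mult x Z Z' ≠ 0 ↔ (∃ C, x.On C ∧ Z C ≠ 0) ∧ ∃ C, x.On C ∧ Z' C ≠ 0)

/-- The second difference of the Euler characteristic is the sum of the local multiplicities. -/
def Int : Prop := ∀ (D Z Z' : Div S.W), 0 ≤ Z → 0 ≤ Z' → (∀ C, Z C = 0 ∨ Z' C = 0) →
  chi (D + Z + Z') - chi (D + Z) - chi (D + Z') + chi D = ∑ᶠ x, (mult x Z Z' : ℤ)

/-- The theorem of Riemann and Roch. -/
structure RR : Prop where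
  lin : ∀ (D : Div S.W) (g : K), g ≠ 0 → chi (D + div S.W g) = chi D
  add : ∀ A A' B : Div S.W, inter (A + A') B = inter A B + inter A' B
  rr : ∀ D : Div S.W, 2 * chi D = 2 * chi (0 : Div S.W) + inter D D - inter S.kap D

/-- The first cohomology of the ideal sheaf of an integral curve. -/
def Adj : Prop := S.Cech1 0 → ∀ C : Crv S.W, S.Cech1 (- Finsupp.single C 1)

/-- The hyperplane class is positive. -/
structure Amp : Prop where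
  crv : ∀ C : Crv S.W, 0 < inter S.H (Finsupp.single C 1)
  sq : 0 < inter S.H S.H

/-- Regular parameters at a point. -/
structure Reg2 : Prop where
  gens : ∀ (x : Pt S.W), ∀ w ∈ S.W, x.In w → ∃ l₁ ∈ van x, ∃ l₂ ∈ van x, ∃ s t : x.ring,
    (s : K) = l₁ / w ∧ (t : K) = l₂ / w ∧ maximalIdeal x.ring = Ideal.span {s, t}
  ext : ∀ (x : Pt S.W), ∀ w ∈ S.W, x.In w → ∀ s ∈ maximalIdeal x.ring,
    s ∉ maximalIdeal x.ring ^ 2 → Prime s ∧ ∃ l₂ ∈ van x, ∃ t : x.ring,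
    (t : K) = l₂ / w ∧ maximalIdeal x.ring = Ideal.span {s, t}
  lead : ∀ (x : Pt S.W) (s t : x.ring), maximalIdeal x.ring = Ideal.span {s, t} →
    ∀ (n : ℕ) (c : ℕ → ℂ), ∑ i ∈ Finset.range (n + 1), c i • (s ^ i * t ^ (n - i)) ∈
      maximalIdeal x.ring ^ (n + 1) → ∀ i, i ≤ n → c i = 0
  valu : ∀ (x : Pt S.W) (a b : x.ring) (i j : ℕ), a ∉ maximalIdeal x.ring ^ (i + 1) →
    b ∉ maximalIdeal x.ring ^ (j + 1) → a * b ∉ maximalIdeal x.ring ^ (i + j + 1)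
  jet_fin : ∀ (x : Pt S.W) (n : ℕ), Module.Finite ℂ (x.ring ⧸ maximalIdeal x.ring ^ n)
  jet_dim : ∀ (x : Pt S.W) (n : ℕ),
    2 * Module.finrank ℂ (x.ring ⧸ maximalIdeal x.ring ^ n) = n * (n + 1)
  jet_surj : ∀ (x : Pt S.W), ∀ w ∈ S.W, x.In w → ∀ (g : x.ring) (n j : ℕ), n ≤ j + 1 →
    ∃ a ∈ S.W ^ j, ∃ b : x.ring, (b : K) = a / w ^ j ∧ b - g ∈ maximalIdeal x.ring ^ n

/-- All the general facts. -/
structure All : Prop extends S.Loc, S.Can, S.Hilb, S.Serre, S.RR, S.Amp, S.Reg2 where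
  fg : S.Fg
  dual : S.Dual
  multPos : S.MultPos
  inte : S.Int
  adj : S.Adj

end Surf

/-- The curves on the blowing up of a point. -/
structure BlData {W : Submodule ℂ K} (x : Pt W) (E : Crv (bl x)) (ι : Crv W → Crv (bl x)) :
    Prop where
  pl : ∀ C, (ι C).pl = C.pl
  ne : ∀ C, ι C ≠ E
  all : ∀ C', C' = E ∨ ∃ C, ι C = C'
  dom : ∀ f ∈ x.ring, f ∈ E.pl.ring
  ord : ∀ (g : x.ring) (n : ℕ), g ≠ 0 → ((n : ℤ) ≤ E.ord g ↔ g ∈ maximalIdeal x.ring ^ n)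
  in_crv : ∀ C : Crv W, ∃ l ∈ van x, C.In l

/-! ### The blocks -/

/-- Linear Noether normalisation. -/
def NN : Prop := ∀ (K : Type) [Field K] [Algebra ℂ K] (W : Submodule ℂ K), IsModel W →
  ∃ S : Surf K, S.W = W

/-- It is enough to check the regularity on charts that cover. -/
def MODEL : Prop := ∀ (K : Type) [Field K] [Algebra ℂ K] (W : Submodule ℂ K),
  FiniteDimensional ℂ W → W ≠ ⊥ → Algebra.trdeg ℂ K = 2 →
  (∃ w ∈ W, IsFractionRing (chart W w) K) →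
  (∀ w ∈ W, w ≠ 0 → ∀ (p : Ideal (chart W w)) (hp : p.IsPrime),
    IsRegularLocalRing (loc _ p hp)) → IsModel W

/-- A statement for all surfaces. -/
def ForAll (P : ∀ {K : Type} [Field K] [Algebra ℂ K], Surf K → Prop) : Prop :=
  ∀ (K : Type) [Field K] [Algebra ℂ K] (S : Surf K), P S

def LOC1 : Prop := ForAll fun S => S.Loc1
def LOC2 : Prop := ForAll fun S => S.Loc1 → S.Loc2
def FG : Prop := ForAll fun S => S.Loc → S.Fg
def CAN : Prop := ForAll fun S => S.Loc → S.Can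
def DUAL : Prop := ForAll fun S => S.Loc → S.Can → S.Dual
def HILB : Prop := ForAll fun S => S.Loc → S.Fg → S.Hilb
def SERRE : Prop := ForAll fun S => S.Loc → S.Fg → S.Dual → S.Hilb → S.Serre
def MULT : Prop := ForAll fun S => S.Loc → S.MultPos
def INT : Prop := ForAll fun S => S.Loc → S.Fg → S.Hilb → S.MultPos → S.Int
def RRB : Prop := ForAll fun S => S.Loc → S.Hilb → S.Serre → S.Int → S.RR
def ADJ : Prop := ForAll fun S => S.Loc → S.Adj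
def AMP : Prop := ForAll fun S => S.Loc → S.MultPos → S.Int → S.RR → S.Amp
def REG2 : Prop := ForAll fun S => S.Loc → S.Reg2
def BL1 : Prop := ForAll fun S => S.Loc → S.Reg2 → ∀ x : Pt S.W, IsModel (bl x)
def BL2 : Prop := ForAll fun S => S.Loc → S.Reg2 → ∀ x : Pt S.W,
  ∃ E ι, BlData x E ι
def BL3 : Prop := ForAll fun S => S.Loc → S.Reg2 → ∀ x : Pt S.W,
  ∃ π : Pt (bl x) → Pt S.W, Function.Surjective π ∧ Dominates π
/-- The Euler characteristic on the blowing up. -/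
def BL4 : Prop := ForAll fun {K} _ _ S => S.All → ∀ (x : Pt S.W) (S' : Surf K)
  (h : S'.W = bl x), S'.All → ∀ E ι, BlData x E ι → ∀ (D' : Div (bl x)) (D : Div S.W) (s : K),
  (∀ C, D' (ι C) = D C) → GenAt x D s →
  2 * chi D' = 2 * chi D - (D' E + E.ord s) * (D' E + E.ord s - 1)
/-- The invariants of the blowing up. -/
def BL5 : Prop := ForAll fun {K} _ _ S => S.All → ∀ (x : Pt S.W) (S' : Surf K)
  (h : S'.W = bl x), S'.All → ∀ E ι, BlData x E ι →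
  (∀ (D' : Div (bl x)) (D : Div S.W) (s : K), (∀ C, D' (ι C) = D C) → GenAt x D s →
    2 * chi D' = 2 * chi D - (D' E + E.ord s) * (D' E + E.ord s - 1)) →
  S.Good → S'.Good ∧ inter S'.kap S'.kap = inter S.kap S.kap - 1

/-- If all complex valued functions that kill the principal cycles are constant, the differences of
points are killed by one integer. -/
def UNIF : Prop := ForAll fun S => S.All →
  (∀ c : Pt S.W → ℂ, RatOK c → ∀ p q, c p = c q) →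
  ∀ (Q : Type) [AddCommGroup Q] (c : Pt S.W → Q), RatOK c →
    ∃ n : ℕ, n ≠ 0 ∧ ∀ p q, n • (c p - c q) = 0

/-- The target of the first stage. -/
def STAGE1 : Prop := ForAll fun S => S.All → S.Good → inter S.kap S.kap ≤ -12 →
  ∀ c : Pt S.W → ℂ, RatOK c → ∀ p q, c p = c q

/-- The target of the first stage, uniform form. -/
def STAGE1U : Prop := ForAll fun S => S.All → S.Good → inter S.kap S.kap ≤ -12 →
  ∀ (Q : Type) [AddCommGroup Q] (c : Pt S.W → Q), RatOK c →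
    ∃ n : ℕ, n ≠ 0 ∧ ∀ p q, n • (c p - c q) = 0

theorem stage1U_of (h1 : STAGE1) (h2 : UNIF) : STAGE1U :=
  fun K _ _ S hA hG hK => h2 K S hA (h1 K S hA hG hK)

end Vale.Agent.P297Z.Sf
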