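import Vale.Agent.P297.Defs

/-! Elementary properties of the order at a place. -/

set_option linter.all false

open IsDedekindDomain

namespace Vale.Agent.P297Z.Pl

open Vale.Agent.P297 (Place)

variable {E : Type*} [Field E] (v w : Place E)

instance instDVR : IsDiscreteValuationRing v.ring := v.dvr

/-- The multiplicative valuation of a place. -/
noncomputable def val : Valuation E (WithZero (Multiplicative ℤ)) :=
  (IsDiscreteValuationRing.maximalIdeal v.ring).valuation E

theorem ord_eq (u : E) : v.ord u = - WithZero.log (val v u) := by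
  unfold Place.ord val
  rw [Ring.ordFrac_eq_valuation_inv, WithZero.log_inv]

theorem mem_ring_iff (x : E) : x ∈ v.ring ↔ val v x ≤ 1 := by
  constructor
  · intro h
    exact (IsDiscreteValuationRing.maximalIdeal v.ring).valuation_le_one (⟨x, h⟩ : v.ring)
  · intro h
    obtain ⟨a, ha⟩ := IsDiscreteValuationRing.exists_lift_of_le_one h
    rw [← ha]
    exact a.2

theorem val_eq (x : E) (hx : x ≠ 0) : val v x = WithZero.exp (- v.ord x) := by
  rw [ord_eq, neg_neg, WithZero.exp_log]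
  exact (Valuation.ne_zero_iff _).2 hx

@[simp] theorem ord_zero : v.ord 0 = 0 := by simp [ord_eq]

@[simp] theorem ord_one : v.ord 1 = 0 := by simp [ord_eq]

theorem ord_mul {x y : E} (hx : x ≠ 0) (hy : y ≠ 0) : v.ord (x * y) = v.ord x + v.ord y := by
  rw [ord_eq, ord_eq, ord_eq, map_mul, WithZero.log_mul]
  · ring
  · exact (Valuation.ne_zero_iff _).2 hx
  · exact (Valuation.ne_zero_iff _).2 hy

@[simp] theorem ord_inv (x : E) : v.ord x⁻¹ = - v.ord x := by
  rw [ord_eq, ord_eq, map_inv₀, WithZero.log_inv]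

theorem ord_div {x y : E} (hx : x ≠ 0) (hy : y ≠ 0) : v.ord (x / y) = v.ord x - v.ord y := by
  rw [div_eq_mul_inv, ord_mul _ hx (inv_ne_zero hy), ord_inv, sub_eq_add_neg]

@[simp] theorem ord_neg (x : E) : v.ord (-x) = v.ord x := by
  rw [ord_eq, ord_eq, Valuation.map_neg]

theorem ord_pow (x : E) (n : ℕ) : v.ord (x ^ n) = n * v.ord x := by
  rw [ord_eq, ord_eq, map_pow, WithZero.log_pow]
  simp

theorem ord_nonneg_iff {x : E} (hx : x ≠ 0) : 0 ≤ v.ord x ↔ x ∈ v.ring := by
  rw [mem_ring_iff, val_eq v x hx, ← WithZero.exp_zero, WithZero.exp_le_exp]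
  omega

theorem ord_pos_iff_val {x : E} (hx : x ≠ 0) : 0 < v.ord x ↔ val v x < 1 := by
  rw [val_eq v x hx, ← WithZero.exp_zero, WithZero.exp_lt_exp]
  omega

theorem ord_nonneg_of_mem {x : E} (h : x ∈ v.ring) : 0 ≤ v.ord x := by
  by_cases hx : x = 0
  · simp [hx]
  · exact (ord_nonneg_iff v hx).2 h

theorem ord_pos_of_inv_notMem {x : E} (h : x⁻¹ ∉ v.ring) : 0 < v.ord x := by
  have hx : x ≠ 0 := by
    rintro rfl
    exact h (by simp [v.ring.zero_mem])
  by_contra hc
  apply h
  rw [← ord_nonneg_iff v (inv_ne_zero hx), ord_inv]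
  omega

theorem ord_eq_zero_iff {x : E} (hx : x ≠ 0) : v.ord x = 0 ↔ x ∈ v.ring ∧ x⁻¹ ∈ v.ring := by
  rw [← ord_nonneg_iff v hx, ← ord_nonneg_iff v (inv_ne_zero hx), ord_inv]
  omega

theorem min_ord_le_add {x y : E} (hx : x ≠ 0) (hy : y ≠ 0) (hxy : x + y ≠ 0) :
    min (v.ord x) (v.ord y) ≤ v.ord (x + y) := by
  have h := (val v).map_add x y
  rw [val_eq v _ hx, val_eq v _ hy, val_eq v _ hxy, le_max_iff, WithZero.exp_le_exp,
    WithZero.exp_le_exp] at h
  rw [min_le_iff]
  omega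

theorem ord_add_eq_of_lt {x y : E} (hx : x ≠ 0) (hy : y ≠ 0) (h : v.ord x < v.ord y) :
    v.ord (x + y) = v.ord x := by
  have hlt : val v y < val v x := by
    rw [val_eq v _ hx, val_eq v _ hy, WithZero.exp_lt_exp]
    omega
  have := (val v).map_add_eq_of_lt_left hlt
  rw [ord_eq, ord_eq, this]

theorem exists_ord_eq_one : ∃ x : E, x ≠ 0 ∧ v.ord x = 1 := by
  obtain ⟨π, hπ⟩ := (IsDiscreteValuationRing.maximalIdeal v.ring).valuation_exists_uniformizer E
  have h0 : π ≠ 0 := by
    rintro rfl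
    rw [map_zero] at hπ
    exact WithZero.coe_ne_zero hπ.symm
  refine ⟨π, h0, ?_⟩
  rw [ord_eq]
  unfold val
  rw [hπ]
  simp

variable {v w}

theorem ext' (h : v.ring = w.ring) : v = w := by
  cases v; cases w; cases h; rfl

theorem ring_ne_top (v : Place E) : v.ring ≠ ⊤ := by
  intro h
  obtain ⟨x, hx, h1⟩ := exists_ord_eq_one v
  have h2 : x⁻¹ ∈ v.ring := by rw [h]; exact ValuationSubring.mem_top _
  rw [← ord_nonneg_iff v (inv_ne_zero hx), ord_inv] at h2
  omega

theorem eq_of_le' (h : v.ring ≤ w.ring) : v = w :=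
  ext' (ValuationSubring.eq_of_le_of_ne_top v.ring h (ring_ne_top w))

/-- If `w` dominates the uniformizer condition -/
theorem ring_eq_of_le {V : ValuationSubring E} (h : v.ring ≤ V) (hV : V ≠ ⊤) : v.ring = V :=
  ValuationSubring.eq_of_le_of_ne_top v.ring h hV

theorem ord_zpow (v : Place E) (x : E) (n : ℤ) : v.ord (x ^ n) = n * v.ord x := by
  obtain ⟨m, rfl | rfl⟩ := Int.eq_nat_or_neg n
  · rw [zpow_natCast, ord_pow]
  · rw [zpow_neg, zpow_natCast, ord_inv, ord_pow]; ring

theorem ord_unit (v : Place E) {x : E} (h1 : x ∈ v.ring) (h2 : x⁻¹ ∈ v.ring) : v.ord x = 0 := by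
  by_cases hx : x = 0
  · simp [hx]
  · exact (ord_eq_zero_iff v hx).2 ⟨h1, h2⟩

theorem mem_maximalIdeal_iff (v : Place E) (a : v.ring) :
    a ∈ IsLocalRing.maximalIdeal v.ring ↔ (a : E) = 0 ∨ 0 < v.ord a := by
  by_cases ha : (a : E) = 0
  · have : a = 0 := Subtype.ext ha
    simp [this]
  · rw [IsLocalRing.mem_maximalIdeal, mem_nonunits_iff]
    constructor
    · intro h
      refine Or.inr (ord_pos_of_inv_notMem v fun hi => h ?_)
      exact IsUnit.of_mul_eq_one ⟨_, hi⟩ (Subtype.ext (mul_inv_cancel₀ ha))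
    · rintro (h | h)
      · exact absurd h ha
      · rintro ⟨u, rfl⟩
        have h1 : ((u : v.ring) : E) * ((u⁻¹ : v.ringˣ) : v.ring) = 1 := by
          rw [← MulMemClass.coe_mul, u.mul_inv]; rfl
        have h2 := ord_mul v ha (right_ne_zero_of_mul_eq_one h1)
        rw [h1, ord_one] at h2
        have h3 := ord_nonneg_of_mem v ((u⁻¹ : v.ringˣ) : v.ring).2
        omega

end Vale.Agent.P297Z.Pl
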