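import Vale.Agent.P297Z.Surf.RR
import Vale.Agent.P297Z.Surf.Adj
import Vale.Agent.P297Z.Num.Mmp

/-! The numerical data of a surface. -/

set_option linter.all false

namespace Vale.Agent.P297Z.Sf

variable {K : Type} [Field K] [Algebra ℂ K] {S : Surf K}

theorem h0_nonneg {W : Submodule ℂ K} (D : Div W) : 0 ≤ h0 D := Int.natCast_nonneg _

theorem h0_bot {W : Submodule ℂ K} {D : Div W} (h : H0 D = ⊥) : h0 D = 0 := by
  rw [h0, h, finrank_bot, Nat.cast_zero]

theorem h0_zero (h : S.Loc2) : h0 (0 : Div S.W) = 1 := by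
  have e : H0 (0 : Div S.W) = Submodule.span ℂ {1} := by
    ext f
    rw [Submodule.mem_span_singleton]
    constructor
    · intro hf
      obtain ⟨c, rfl⟩ := h.const f hf
      exact ⟨c, (Algebra.algebraMap_eq_smul_one c).symm⟩
    · rintro ⟨c, rfl⟩
      rw [← Algebra.algebraMap_eq_smul_one]
      exact const_mem_secOn _ c
  rw [h0, e, finrank_span_singleton one_ne_zero, Nat.cast_one]

theorem cech_zero (hA : S.All) (hG : S.Good) : S.Cech1 0 :=
  (hA.cech 0).2 (by rw [hG.chi_zero, h0_zero hA.toLoc2, sub_zero, h0_bot hG.pg, add_zero])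

theorem eff_mem_closure {W : Submodule ℂ K} {Z : Div W} (hZ : 0 ≤ Z) :
    Z ∈ AddSubmonoid.closure (Set.range fun C : Crv W => Finsupp.single C (1 : ℤ)) := by
  rw [eq_sum_single Z]
  refine AddSubmonoid.sum_mem _ fun C _ => ?_
  obtain ⟨n, hn⟩ := Int.eq_ofNat_of_zero_le (hZ C)
  rw [hn, natCast_zsmul]
  exact AddSubmonoid.nsmul_mem _ (AddSubmonoid.subset_closure (Set.mem_range_self C)) n

/-- The numerical data of a surface with `p_g = q = 0`. -/
noncomputable def numSurf (S : Surf K) (hA : S.All) (hG : S.Good) :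
    Num.Surf (Div S.W) (Crv S.W) where
  B := interHom hA.toRR
  K := S.kap
  H := S.H
  cl C := Finsupp.single C 1
  Sec D := H0 D ≠ ⊥
  symm := inter_comm
  pos C C' h := inter_nonneg hA.inte (Finsupp.single_nonneg.2 zero_le_one)
    (Finsupp.single_nonneg.2 zero_le_one) fun X => by
      by_cases e : X = C
      · exact Or.inr (Finsupp.single_eq_of_ne (e ▸ h))
      · exact Or.inl (Finsupp.single_eq_of_ne e)
  adj C := by
    have h1 := (hA.cech _).1 (hA.adj (cech_zero hA hG) C)
    have h2 := hA.rr (-Finsupp.single C 1)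
    simp only [← interHom_apply hA.toRR, map_neg, AddMonoidHom.neg_apply, hG.chi_zero] at h2
    have h3 := h0_nonneg (-Finsupp.single C 1 : Div S.W)
    have h4 := h0_nonneg (S.kap - -Finsupp.single C 1)
    omega
  ample := hA.crv
  Hsq := hA.sq
  Hsec := (Submodule.ne_bot_iff _).2 ⟨S.x 0, mem_H0_H hA.toLoc2 (S.x_mem 0), S.x_ne 0⟩
  sec D hD := by
    obtain ⟨f, hf, h0⟩ := (Submodule.ne_bot_iff _).1 hD
    exact ⟨D + div S.W f, eff_mem_closure (eff_of_mem hA.toLoc2 hf h0),
      fun z => (inter_lin hA.toRR D z h0).symm⟩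
  rr D hD := by
    by_contra hc
    push Not at hc
    have h1 := hA.le D
    have h2 := hA.rr D
    rw [h0_bot hc.1, h0_bot hc.2] at h1
    rw [hG.chi_zero] at h2
    simp only [interHom_apply] at hD
    omega
  par D := ⟨chi D - chi (0 : Div S.W), by
    have h2 := hA.rr D
    simp only [interHom_apply]
    omega⟩

variable (hA : S.All) (hG : S.Good)

theorem numSurf_B (A B : Div S.W) : (numSurf S hA hG).B A B = inter A B := rfl

theorem numSurf_K : (numSurf S hA hG).K = S.kap := rfl

theorem numSurf_H : (numSurf S hA hG).H = S.H := rfl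

theorem numSurf_cl (C : Crv S.W) : (numSurf S hA hG).cl C = Finsupp.single C 1 := rfl

theorem numSurf_Sec (D : Div S.W) : (numSurf S hA hG).Sec D ↔ H0 D ≠ ⊥ := Iff.rfl

end Vale.Agent.P297Z.Sf
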