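import Vale.Agent.P297.Bdl.B1
import Mathlib.Algebra.Module.LinearMap.Index
import Mathlib.Algebra.Module.Submodule.Union

/-! The colength of a function in a local ring of a curve is the sum of its orders at the places
that dominate the ring. -/

set_option linter.all false

open IsLocalRing Module IntermediateField IsDedekindDomain
open scoped IntermediateField.algebraAdjoinAdjoin

namespace Vale.Agent.P297Z.Len

open Vale.Agent.P297

section Lin

variable {M N P : Type} [AddCommGroup M] [AddCommGroup N] [AddCommGroup P] [Module ℂ M]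
  [Module ℂ N] [Module ℂ P]

/-- The cokernel has finite dimension. -/
def FC (f : M →ₗ[ℂ] N) : Prop := FiniteDimensional ℂ (N ⧸ f.range)

theorem FC.left (f : M →ₗ[ℂ] N) (g : N →ₗ[ℂ] P) (h : FC (g ∘ₗ f)) : FC g := by
  unfold FC at *
  exact Module.Finite.of_surjective (Submodule.factor (LinearMap.range_comp_le_range f g))
    (Submodule.factor_surjective _)

theorem FC.right (f : M →ₗ[ℂ] N) (g : N →ₗ[ℂ] P) (hg : Function.Injective g) (h : FC (g ∘ₗ f)) :
    FC f := by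
  unfold FC at *
  have aux : f.range ≤ Submodule.comap g (g ∘ₗ f).range := by
    rw [← Submodule.map_le_iff_le_comap, LinearMap.range_comp]
  refine Module.Finite.of_injective (f.range.mapQ (g ∘ₗ f).range g aux) ?_
  rw [injective_iff_map_eq_zero]
  intro z hz
  obtain ⟨y, rfl⟩ := Submodule.Quotient.mk_surjective _ z
  rw [Submodule.mapQ_apply, Submodule.Quotient.mk_eq_zero] at hz
  obtain ⟨x, hx⟩ := hz
  rw [Submodule.Quotient.mk_eq_zero]
  exact ⟨x, hg hx⟩

theorem FC.comp {f : M →ₗ[ℂ] N} {g : N →ₗ[ℂ] P} (hf : FC f) (hg : FC g) : FC (g ∘ₗ f) := by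
  unfold FC at *
  rw [LinearMap.range_comp]
  infer_instance

theorem index_comp' {f : M →ₗ[ℂ] N} {g : N →ₗ[ℂ] P} (hf : FC f) (hg : FC g)
    (hf' : Function.Injective f) (hg' : Function.Injective g) :
    (g ∘ₗ f).index = g.index + f.index := by
  unfold FC at *
  have h1 : FiniteDimensional ℂ f.ker := by
    rw [LinearMap.ker_eq_bot.2 hf']; infer_instance
  have h2 : FiniteDimensional ℂ g.ker := by
    rw [LinearMap.ker_eq_bot.2 hg']; infer_instance
  exact LinearMap.index_comp g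

end Lin

variable {E : Type} [Field E] [Algebra ℂ E] [IsFF ℂ E]

/-- The functions that are regular at the places of `T`. -/
def reg (T : Finset (PlaceOver ℂ E)) : Subalgebra ℂ E where
  carrier := {f | ∀ w ∈ T, f ∈ w.1.ring}
  mul_mem' := fun h1 h2 w hw => w.1.ring.mul_mem _ _ (h1 w hw) (h2 w hw)
  add_mem' := fun h1 h2 w hw => w.1.ring.add_mem _ _ (h1 w hw) (h2 w hw)
  algebraMap_mem' := fun c w _ => w.2 c

theorem mulLeft_inj {A : Subalgebra ℂ E} {a : A} (ha : (a : E) ≠ 0) :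
    Function.Injective (LinearMap.mulLeft ℂ a) := fun _ _ h =>
  mul_left_cancel₀ (fun h0 => ha (congrArg Subtype.val h0)) h

theorem index_prime (T : Finset (PlaceOver ℂ E)) (P : PlaceOver ℂ E) (hP : P ∈ T) (π : reg T)
    (h0 : (π : E) ≠ 0) (h1 : P.1.ord π = 1) (h2 : ∀ w ∈ T, w ≠ P → w.1.ord π = 0) :
    FC (LinearMap.mulLeft ℂ π) ∧ (LinearMap.mulLeft ℂ π).index = -1 := by
  let ι : reg T →+* P.1.ring := (reg T).val.toRingHom.codRestrict P.1.ring fun f => f.2 P hP
  let ev : reg T →ₐ[ℂ] ℂ :=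
    { (evalAt P).comp ι with commutes' := fun a => evalAt_const P a }
  have hs : Function.Surjective ev.toLinearMap := fun a => ⟨algebraMap ℂ _ a, ev.commutes a⟩
  have hk : (LinearMap.mulLeft ℂ π).range = LinearMap.ker ev.toLinearMap := by
    ext f
    have e1 : f ∈ LinearMap.ker ev.toLinearMap ↔ ι f ∈ maximalIdeal P.1.ring :=
      evalAt_eq_zero_iff P (ι f)
    have e2 : ι f ∈ maximalIdeal P.1.ring ↔ ((f : E) = 0 ∨ 0 < P.1.ord f) := by
      by_cases hf : (f : E) = 0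
      · have : ι f = 0 := Subtype.ext hf
        simp [this, hf]
      · rw [mem_maximalIdeal, mem_nonunits_iff]
        constructor
        · intro h
          refine Or.inr (P.1.ord_pos_of_inv_notMem fun hi => h ?_)
          exact IsUnit.of_mul_eq_one ⟨_, hi⟩ (Subtype.ext (mul_inv_cancel₀ hf))
        · rintro (h | h) hu
          · exact hf h
          · obtain ⟨b, hb⟩ := hu.exists_right_inv
            have h3 : (f : E) * (b : E) = 1 := congrArg Subtype.val hb
            have h4 := P.1.ord_mul hf (right_ne_zero_of_mul_eq_one h3)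
            rw [h3, Place.ord_one] at h4
            have h5 := P.1.ord_nonneg_of_mem b.2
            omega
    rw [e1, e2]
    constructor
    · rintro ⟨g, rfl⟩
      by_cases hg : (g : E) = 0
      · left
        change (π : E) * g = 0
        rw [hg, mul_zero]
      · right
        change 0 < P.1.ord ((π : E) * g)
        rw [P.1.ord_mul h0 hg, h1]
        have := P.1.ord_nonneg_of_mem (g.2 P hP)
        omega
    · rintro (h | h)
      · exact ⟨0, Subtype.ext (by simp [h])⟩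
      · have hf : (f : E) ≠ 0 := by
          intro hf
          rw [hf, Place.ord_zero] at h
          exact lt_irrefl _ h
        refine ⟨⟨f / π, fun w hw => ?_⟩, Subtype.ext ?_⟩
        · rw [← w.1.ord_nonneg_iff (div_ne_zero hf h0), w.1.ord_div hf h0]
          by_cases hw' : w = P
          · subst hw'
            omega
          · have := w.1.ord_nonneg_of_mem (f.2 w hw)
            rw [h2 w hw hw']
            omega
        · change (π : E) * (f / π) = f
          field_simp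
  have e : (reg T ⧸ (LinearMap.mulLeft ℂ π).range) ≃ₗ[ℂ] ℂ :=
    (Submodule.quotEquivOfEq _ _ hk).trans (ev.toLinearMap.quotKerEquivOfSurjective hs)
  refine ⟨Module.Finite.equiv e.symm, ?_⟩
  rw [LinearMap.index_of_injective (mulLeft_inj h0), e.finrank_eq]
  simp

theorem index_reg (T : Finset (PlaceOver ℂ E)) (n : ℕ) : ∀ b : reg T, (b : E) ≠ 0 →
    ∑ w ∈ T, w.1.ord b = n →
    FC (LinearMap.mulLeft ℂ b) ∧ (LinearMap.mulLeft ℂ b).index = - (n : ℤ) := by
  classical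
  induction n with
  | zero =>
    intro b hb h
    have h1 : ∀ w ∈ T, w.1.ord b = 0 :=
      (Finset.sum_eq_zero_iff_of_nonneg fun w hw => w.1.ord_nonneg_of_mem (b.2 w hw)).1 h
    have h2 : (LinearMap.mulLeft ℂ b).range = ⊤ := by
      rw [LinearMap.range_eq_top]
      intro g
      refine ⟨⟨(b : E)⁻¹, fun w hw => ((w.1.ord_eq_zero_iff hb).1 (h1 w hw)).2⟩ * g, ?_⟩
      apply Subtype.ext
      change (b : E) * ((b : E)⁻¹ * g) = g
      rw [mul_inv_cancel_left₀ hb]
    refine ⟨by unfold FC; rw [h2]; infer_instance, ?_⟩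
    rw [LinearMap.index_of_injective (mulLeft_inj hb), h2]
    simp [finrank_eq_zero_of_subsingleton]
  | succ n ih =>
    intro b hb h
    obtain ⟨P, hP, hP1⟩ : ∃ P ∈ T, 0 < P.1.ord b := by
      by_contra hc
      push Not at hc
      have := Finset.sum_nonpos hc
      omega
    obtain ⟨u, hu0, hu1, hu2⟩ := exists_ord_one (T.erase P) P (Finset.notMem_erase P T)
    have hu3 : ∀ w ∈ T, w ≠ P → w.1.ord u = 0 := fun w hw h => hu2 w (Finset.mem_erase.2 ⟨h, hw⟩)
    have hu4 : u ∈ reg T := by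
      intro w hw
      rw [← w.1.ord_nonneg_iff hu0]
      by_cases h : w = P
      · subst h; omega
      · rw [hu3 w hw h]
    have hb4 : (b : E) / u ∈ reg T := by
      intro w hw
      rw [← w.1.ord_nonneg_iff (div_ne_zero hb hu0), w.1.ord_div hb hu0]
      by_cases h : w = P
      · subst h; omega
      · have := w.1.ord_nonneg_of_mem (b.2 w hw)
        rw [hu3 w hw h]
        omega
    have hs : ∑ w ∈ T, w.1.ord ((b : E) / u) = n := by
      rw [Finset.sum_congr rfl fun w _ => w.1.ord_div hb hu0, Finset.sum_sub_distrib, h,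
        Finset.sum_eq_single_of_mem P hP hu3, hu1]
      push_cast
      ring
    obtain ⟨a1, a2⟩ := ih ⟨_, hb4⟩ (div_ne_zero hb hu0) hs
    obtain ⟨a3, a4⟩ := index_prime T P hP ⟨u, hu4⟩ hu0 hu1 hu3
    have e : b = ⟨u, hu4⟩ * ⟨_, hb4⟩ := by
      apply Subtype.ext
      change (b : E) = u * (b / u)
      field_simp
    rw [e, LinearMap.mulLeft_mul]
    refine ⟨a1.comp a3, ?_⟩
    rw [index_comp' a1 a3 (mulLeft_inj (div_ne_zero hb hu0)) (mulLeft_inj hu0), a2, a4]
    push_cast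
    ring

/-- The colength in a subring of finite codimension. -/
theorem index_sub (T : Finset (PlaceOver ℂ E)) (A : Subalgebra ℂ E) (hA : A ≤ reg T) (c : E)
    (hc : c ≠ 0) (hcA : ∀ f ∈ reg T, c * f ∈ A) (a : A) (ha : (a : E) ≠ 0) :
    (finrank ℂ (A ⧸ (LinearMap.mulLeft ℂ a).range) : ℤ) = ∑ w ∈ T, w.1.ord a := by
  have key : ∀ b : reg T, (b : E) ≠ 0 → FC (LinearMap.mulLeft ℂ b) ∧
      (LinearMap.mulLeft ℂ b).index = - ∑ w ∈ T, w.1.ord b := by
    intro b hb
    have h0 : 0 ≤ ∑ w ∈ T, w.1.ord b :=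
      Finset.sum_nonneg fun w hw => w.1.ord_nonneg_of_mem (b.2 w hw)
    have h1 := index_reg T (∑ w ∈ T, w.1.ord b).toNat b hb (Int.toNat_of_nonneg h0).symm
    rwa [Int.toNat_of_nonneg h0] at h1
  let ι : A →ₗ[ℂ] reg T := (Subalgebra.inclusion hA).toLinearMap
  have hι : Function.Injective ι := Subalgebra.inclusion_injective hA
  have hcA' : c ∈ A := by simpa using hcA 1 (one_mem _)
  let μ : reg T →ₗ[ℂ] A :=
    { toFun := fun f => ⟨c * f, hcA f f.2⟩
      map_add' := fun f g => Subtype.ext (mul_add c f g)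
      map_smul' := fun r f => Subtype.ext (mul_smul_comm r c (f : E)) }
  have h1 : FC ι := by
    apply FC.left μ ι
    have : ι ∘ₗ μ = LinearMap.mulLeft ℂ ⟨c, hA hcA'⟩ := rfl
    rw [this]
    exact (key _ hc).1
  have h2 : ι ∘ₗ LinearMap.mulLeft ℂ a = LinearMap.mulLeft ℂ (⟨a, hA a.2⟩ : reg T) ∘ₗ ι := rfl
  obtain ⟨h3, h4⟩ := key ⟨a, hA a.2⟩ ha
  have h5 : FC (LinearMap.mulLeft ℂ a) := by
    apply FC.right _ ι hι
    rw [h2]
    exact h1.comp h3
  have h6 := index_comp' h5 h1 (mulLeft_inj ha) hι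
  rw [h2, index_comp' h1 h3 hι (mulLeft_inj ha), h4,
    LinearMap.index_of_injective (mulLeft_inj ha)] at h6
  change - ∑ w ∈ T, w.1.ord (a : E) + _ = _ at h6
  omega

/-- A common denominator for the integral closure of `ℂ[t]`. -/
theorem exists_cond (A : Subalgebra ℂ E) (hfrac : ∀ f : E, ∃ b ∈ A, b ≠ 0 ∧ b * f ∈ A) {t : E}
    (htA : t ∈ A) (ht : Transcendental ℂ t) : ∃ c : E, c ≠ 0 ∧
      ∀ g : E, (∀ w : PlaceOver ℂ E, t ∈ w.1.ring → g ∈ w.1.ring) → c * g ∈ A := by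
  classical
  obtain ⟨hD, hF⟩ := dedekind_integralClosure (k := ℂ) (E := E) ht
  haveI := isPrincipalIdealRing_adjoin ht
  haveI : FiniteDimensional ℂ⟮t⟯ E := IsFF.finiteDimensional ht
  haveI : CharZero ℂ⟮t⟯ := charZero_of_injective_algebraMap (algebraMap ℂ ℂ⟮t⟯).injective
  let B := integralClosure (Algebra.adjoin ℂ {t}) E
  haveI : Module.Finite (Algebra.adjoin ℂ {t}) B :=
    IsIntegralClosure.finite (Algebra.adjoin ℂ {t}) ℂ⟮t⟯ E B
  obtain ⟨S, hS⟩ := Module.Finite.fg_top (R := Algebra.adjoin ℂ {t}) (M := B)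
  choose d hd1 hd2 hd3 using hfrac
  have hle : Algebra.adjoin ℂ {t} ≤ A := Algebra.adjoin_le (by simpa using htA)
  refine ⟨∏ s ∈ S, d s, Finset.prod_ne_zero_iff.2 fun s _ => hd2 s, fun g hg => ?_⟩
  obtain ⟨b, rfl⟩ := HeightOneSpectrum.mem_integers_of_valuation_le_one (R := B) E g fun Q => by
    have h1 : ∀ r : Algebra.adjoin ℂ {t}, (r : E) ∈ (Place.ofPrime E Q).ring := fun r =>
      Place.ofPrime_mem_algebraMap Q (algebraMap _ B r)
    exact hg ⟨Place.ofPrime E Q, fun a => h1 (algebraMap ℂ _ a)⟩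
      (h1 ⟨t, Algebra.self_mem_adjoin_singleton ℂ t⟩)
  have hb : b ∈ Submodule.span (Algebra.adjoin ℂ {t}) (S : Set B) := hS ▸ Submodule.mem_top
  clear hg
  induction hb using Submodule.span_induction with
  | mem x hx =>
    rw [← Finset.mul_prod_erase S _ hx, mul_comm (d x), mul_assoc]
    exact mul_mem (prod_mem fun s _ => hd1 s) (hd3 x)
  | zero => simp
  | add x y _ _ hx hy =>
    rw [map_add, mul_add]
    exact add_mem hx hy
  | smul r x _ hx =>
    have : algebraMap B E (r • x) = (r : E) * algebraMap B E x := rfl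
    rw [this, mul_left_comm]
    exact mul_mem (hle r.2) hx

theorem exists_pow {P : Set (PlaceOver ℂ E)} (hP : P.Finite) {s g : E} (hs : s ≠ 0) (hg : g ≠ 0)
    (h : ∀ w ∈ P, 0 < w.1.ord s) : ∃ N : ℕ, ∀ w ∈ P, s ^ N * g ∈ w.1.ring := by
  obtain ⟨M, hM⟩ := (hP.image fun w => - w.1.ord g).bddAbove
  refine ⟨M.toNat, fun w hw => ?_⟩
  have h1 : - w.1.ord g ≤ M := hM ⟨w, hw, rfl⟩
  have h2 := h w hw
  have h3 := Int.self_le_toNat M
  have h4 : (0 : ℤ) ≤ M.toNat := Int.natCast_nonneg _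
  rw [← w.1.ord_nonneg_iff (mul_ne_zero (pow_ne_zero _ hs) hg), w.1.ord_mul (pow_ne_zero _ hs) hg,
    w.1.ord_pow]
  nlinarith

section Local

variable {R : Type} [CommRing R] [IsLocalRing R] [Algebra ℂ R] (φ : R →ₐ[ℂ] E)

theorem unit_sub {r : R} (hr : r ∈ maximalIdeal R) {a : ℂ} (ha : a ≠ 0) :
    IsUnit (r - algebraMap ℂ R a) := by
  by_contra hc
  have h1 : r - algebraMap ℂ R a ∈ maximalIdeal R := hc
  have h2 := (maximalIdeal R).sub_mem hr h1
  rw [sub_sub_cancel] at h2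
  exact h2 ((isUnit_iff_ne_zero.2 ha).map _)

theorem unit_inv {u : R} (hu : IsUnit u) : φ u ≠ 0 ∧ ∃ v, φ v = (φ u)⁻¹ := by
  obtain ⟨v, hv⟩ := hu.exists_right_inv
  have h : φ u * φ v = 1 := by rw [← map_mul, hv, map_one]
  exact ⟨left_ne_zero_of_mul_eq_one h, v, eq_inv_of_mul_eq_one_right h⟩

theorem ord_unit {w : PlaceOver ℂ E} (hw : ∀ r, φ r ∈ w.1.ring) {u : R} (hu : IsUnit u) :
    w.1.ord (φ u) = 0 := by
  obtain ⟨h0, v, hv⟩ := unit_inv φ hu
  exact (w.1.ord_eq_zero_iff h0).2 ⟨hw u, hv ▸ hw v⟩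

/-- A place that contains a local ring dominates it. -/
theorem dom {w : PlaceOver ℂ E} (hw : ∀ r, φ r ∈ w.1.ring) {r : R} (hr : r ∈ maximalIdeal R) :
    φ r = 0 ∨ 0 < w.1.ord (φ r) := by
  obtain ⟨a, ha⟩ := exists_const (k := ℂ) w.1 w.2 (hw r)
  by_cases h0 : a = 0
  · simpa [h0] using ha
  have h1 := unit_sub hr h0
  have h2 := ord_unit φ hw h1
  have h3 := (unit_inv φ h1).1
  rw [map_sub, AlgHom.commutes] at h2 h3
  rcases ha with ha | ha
  · exact absurd (sub_eq_zero.2 ha) h3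
  · omega

theorem transc {t : R} (ht : t ∈ maximalIdeal R) (h0 : φ t ≠ 0) : Transcendental ℂ (φ t) := by
  rcases const_or_transcendental (k := ℂ) (φ t) with ⟨a, ha⟩ | h
  · have h1 : a ≠ 0 := by
      rintro rfl
      exact h0 (by simpa using ha)
    have h3 := (unit_inv φ (unit_sub ht h1)).1
    rw [map_sub, AlgHom.commutes] at h3
    exact absurd (sub_eq_zero.2 ha) h3
  · exact h

theorem finite_dom {t : R} (ht : t ∈ maximalIdeal R) (h0 : φ t ≠ 0) :
    {w : PlaceOver ℂ E | ∀ r, φ r ∈ w.1.ring}.Finite :=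
  (finite_zeros (φ t)).subset fun _ hw => (dom φ hw ht).resolve_left h0

theorem exists_unit_pole {P : Set (PlaceOver ℂ E)} (hP : P.Finite)
    (h : ∀ w ∈ P, ¬ ∀ r, φ r ∈ w.1.ring) : ∃ u, IsUnit u ∧ ∀ w ∈ P, 0 < w.1.ord (φ u)⁻¹ := by
  haveI : Finite P := hP
  let p : P → Submodule ℂ R := fun w =>
    { carrier := {r | φ r ∈ w.1.1.ring}
      zero_mem' := by simp
      add_mem' := fun h1 h2 => by
        change φ (_ + _) ∈ w.1.1.ring
        rw [map_add]
        exact w.1.1.ring.add_mem _ _ h1 h2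
      smul_mem' := fun c r h1 => by
        change φ (c • r) ∈ w.1.1.ring
        rw [map_smul, Algebra.smul_def]
        exact w.1.1.ring.mul_mem _ _ (w.1.2 c) h1 }
  obtain ⟨u, hu⟩ := Submodule.exists_forall_notMem_of_forall_ne_top p fun w hw =>
    h w.1 w.2 fun r => (show r ∈ p w from hw ▸ Submodule.mem_top)
  rcases isUnit_or_isUnit_one_sub_self u with h1 | h1
  · exact ⟨u, h1, fun w hw => w.1.ord_pos_of_inv_notMem (by rw [inv_inv]; exact hu ⟨w, hw⟩)⟩
  · refine ⟨1 - u, h1, fun w hw => w.1.ord_pos_of_inv_notMem ?_⟩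
    rw [inv_inv, map_sub, map_one]
    intro h2
    apply hu ⟨w, hw⟩
    have := sub_mem (one_mem w.1.ring) h2
    rwa [sub_sub_cancel] at this

theorem exists_unit_zero {t : R} (ht : t ∈ maximalIdeal R) (h0 : φ t ≠ 0)
    {P : Set (PlaceOver ℂ E)} (hP : P.Finite) :
    (∀ w ∈ P, w.1.ord (φ t) = 0) → ∃ v, IsUnit v ∧
      (∀ w : PlaceOver ℂ E, φ t ∈ w.1.ring → φ v ∈ w.1.ring) ∧ ∀ w ∈ P, 0 < w.1.ord (φ v) := by
  induction P, hP using Set.Finite.induction_on with
  | empty => exact fun _ => ⟨1, isUnit_one, fun w _ => by simp, by simp⟩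
  | @insert w₀ P _ _ ih =>
    intro h
    obtain ⟨v, hv1, hv2, hv3⟩ := ih fun w hw => h w (Set.mem_insert_of_mem _ hw)
    have hm : ∀ w ∈ insert w₀ P, φ t ∈ w.1.ring := fun w hw =>
      ((w.1.ord_eq_zero_iff h0).1 (h w hw)).1
    obtain ⟨a, ha⟩ := exists_const (k := ℂ) w₀.1 w₀.2 (hm w₀ (Set.mem_insert _ _))
    have ha' : 0 < w₀.1.ord (φ t - algebraMap ℂ E a) :=
      ha.resolve_left fun h1 => transc φ ht h0 (h1 ▸ isAlgebraic_algebraMap a)
    have ha0 : a ≠ 0 := by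
      rintro rfl
      rw [map_zero, sub_zero, h w₀ (Set.mem_insert _ _)] at ha'
      exact lt_irrefl _ ha'
    have hu := unit_sub ht ha0
    have hm2 : ∀ w : PlaceOver ℂ E, φ t ∈ w.1.ring → φ (t - algebraMap ℂ R a) ∈ w.1.ring := by
      intro w hw
      rw [map_sub, AlgHom.commutes]
      exact sub_mem hw (w.2 a)
    refine ⟨(t - algebraMap ℂ R a) * v, hu.mul hv1, fun w hw => ?_, fun w hw => ?_⟩
    · rw [map_mul]
      exact mul_mem (hm2 w hw) (hv2 w hw)
    · rw [map_mul, w.1.ord_mul (unit_inv φ hu).1 (unit_inv φ hv1).1]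
      have a1 := w.1.ord_nonneg_of_mem (hm2 w (hm w hw))
      have a2 := w.1.ord_nonneg_of_mem (hv2 w (hm w hw))
      rcases hw with rfl | hw
      · rw [map_sub, AlgHom.commutes] at a1 ⊢
        omega
      · have := hv3 w hw
        omega

theorem exists_conductor (hfrac : ∀ f : E, ∃ a b : R, φ b ≠ 0 ∧ φ b * f = φ a) {t : R}
    (ht : t ∈ maximalIdeal R) (h0 : φ t ≠ 0) : ∃ c : E, c ≠ 0 ∧ ∀ f : E,
      (∀ w : PlaceOver ℂ E, (∀ r, φ r ∈ w.1.ring) → f ∈ w.1.ring) → c * f ∈ φ.range := by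
  obtain ⟨c, hc, hcA⟩ := exists_cond φ.range (fun f => by
    obtain ⟨a, b, h1, h2⟩ := hfrac f
    exact ⟨φ b, ⟨b, rfl⟩, h1, ⟨a, h2.symm⟩⟩) (t := φ t) ⟨t, rfl⟩ (transc φ ht h0)
  refine ⟨c, hc, fun f hf => ?_⟩
  by_cases hf0 : f = 0
  · simp [hf0]
  have hP1 : {w : PlaceOver ℂ E | 0 < w.1.ord (φ t) ∧ ¬ ∀ r, φ r ∈ w.1.ring}.Finite :=
    (finite_zeros (φ t)).subset fun _ hw => hw.1
  obtain ⟨u, hu1, hu2⟩ := exists_unit_pole φ hP1 fun w hw => hw.2
  obtain ⟨hu0, u', hu'⟩ := unit_inv φ hu1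
  obtain ⟨N, hN⟩ := exists_pow hP1 (inv_ne_zero hu0) hf0 hu2
  set g := (φ u)⁻¹ ^ N * f with hg
  have hg0 : g ≠ 0 := mul_ne_zero (pow_ne_zero _ (inv_ne_zero hu0)) hf0
  have hg1 : ∀ w : PlaceOver ℂ E, 0 < w.1.ord (φ t) → g ∈ w.1.ring := by
    intro w hw
    by_cases h : ∀ r, φ r ∈ w.1.ring
    · exact mul_mem (pow_mem (hu' ▸ h u') _) (hf w h)
    · exact hN w ⟨hw, h⟩
  have hP2 : {w : PlaceOver ℂ E | 0 < w.1.ord g⁻¹ ∧ w.1.ord (φ t) = 0}.Finite :=
    (finite_zeros g⁻¹).subset fun _ hw => hw.1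
  obtain ⟨v, hv1, hv2, hv3⟩ := exists_unit_zero φ ht h0 hP2 fun w hw => hw.2
  obtain ⟨hv0, v', hv'⟩ := unit_inv φ hv1
  obtain ⟨M, hM⟩ := exists_pow hP2 hv0 hg0 hv3
  have h1 := hcA (φ v ^ M * g) fun w hw => by
    by_cases h : g ∈ w.1.ring
    · exact mul_mem (pow_mem (hv2 w hw) _) h
    · refine hM w ⟨w.1.ord_pos_of_inv_notMem (by rwa [inv_inv]), ?_⟩
      have a1 := w.1.ord_nonneg_of_mem hw
      by_contra hc
      exact h (hg1 w (by omega))
  have e : c * f = c * (φ v ^ M * g) * φ (v' ^ M * u ^ N) := by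
    rw [hg, map_mul, map_pow, map_pow, hv', inv_pow, inv_pow]
    field_simp
  rw [e]
  exact mul_mem h1 ⟨_, rfl⟩

/-- The colength of a function is the sum of its orders. -/
theorem len (hfrac : ∀ f : E, ∃ a b : R, φ b ≠ 0 ∧ φ b * f = φ a) {t : R}
    (ht : t ∈ maximalIdeal R) (h0 : φ t ≠ 0) (s : R) (hs : φ s ≠ 0) :
    (finrank ℂ (R ⧸ (RingHom.ker φ ⊔ Ideal.span {s})) : ℤ) =
      ∑ᶠ w : {w : PlaceOver ℂ E // ∀ r, φ r ∈ w.1.ring}, w.1.1.ord (φ s) := by
  classical
  obtain ⟨c, hc, hcA⟩ := exists_conductor φ hfrac ht h0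
  have hT := finite_dom φ ht h0
  have h1 := index_sub hT.toFinset φ.range (by
    rintro _ ⟨r, rfl⟩ w hw
    exact hT.mem_toFinset.1 hw r) c hc
    (fun f hf => hcA f fun w hw => hf w (hT.mem_toFinset.2 hw)) ⟨φ s, s, rfl⟩ hs
  have h2 : ∑ᶠ w : {w : PlaceOver ℂ E // ∀ r, φ r ∈ w.1.ring}, w.1.1.ord (φ s) =
      ∑ w ∈ hT.toFinset, w.1.ord (φ s) := by
    rw [← finsum_mem_eq_finite_toFinset_sum _ hT]
    exact finsum_set_coe_eq_finsum_mem (f := fun w : PlaceOver ℂ E => w.1.ord (φ s))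
      {w : PlaceOver ℂ E | ∀ r, φ r ∈ w.1.ring}
  rw [h2, ← h1]
  congr 1
  let ψ : R →ₗ[ℂ] φ.range ⧸ (LinearMap.mulLeft ℂ (⟨φ s, s, rfl⟩ : φ.range)).range :=
    (Submodule.mkQ _) ∘ₗ φ.rangeRestrict.toLinearMap
  have hψ : Function.Surjective ψ :=
    (Submodule.mkQ_surjective _).comp φ.rangeRestrict_surjective
  have hk : (RingHom.ker φ ⊔ Ideal.span {s}).restrictScalars ℂ = LinearMap.ker ψ := by
    ext r
    rw [Submodule.restrictScalars_mem, Submodule.mem_sup, LinearMap.mem_ker]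
    change _ ↔ Submodule.Quotient.mk _ = 0
    rw [Submodule.Quotient.mk_eq_zero]
    constructor
    · rintro ⟨y, hy, z, hz, rfl⟩
      obtain ⟨a, rfl⟩ := Ideal.mem_span_singleton'.1 hz
      refine ⟨⟨φ a, a, rfl⟩, Subtype.ext ?_⟩
      change φ s * φ a = φ (y + a * s)
      rw [map_add, show φ y = 0 from hy, zero_add, map_mul, mul_comm]
    · rintro ⟨⟨_, a, rfl⟩, ha⟩
      have ha' : φ s * φ a = φ r := congrArg Subtype.val ha
      refine ⟨r - a * s, ?_, a * s, Ideal.mem_span_singleton'.2 ⟨a, rfl⟩, by ring⟩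
      change φ (r - a * s) = 0
      rw [map_sub, map_mul, ← ha']
      ring
  exact (((Submodule.Quotient.restrictScalarsEquiv ℂ _).symm.trans
    (Submodule.quotEquivOfEq _ _ hk)).trans (ψ.quotKerEquivOfSurjective hψ)).finrank_eq

end Local

end Vale.Agent.P297Z.Len
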