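import Vale.Agent.P297Z.Surf.Sk
import Vale.Agent.P297Z.Surf.RatLen

/-! The function field of a curve on a surface, the centres of its places, and the local
intersection multiplicities as sums of orders. -/

set_option linter.all false

open IsLocalRing Module Polynomial

namespace Vale.Agent.P297Z.Sf

open Vale.Agent.P297 (Place PlaceOver IsFF constTo evalAt evalAt_const evalAt_eq_zero_iff
  mem_of_isIntegral)

variable {K : Type} [Field K] [Algebra ℂ K] {W : Submodule ℂ K}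

/-- The function field of a curve. -/
def Crv.Fn (C : Crv W) : Type := ResidueField C.pl.ring

noncomputable instance Crv.fnField (C : Crv W) : Field C.Fn :=
  inferInstanceAs (Field (ResidueField C.pl.ring))

/-- The residue map. -/
noncomputable def Crv.resid (C : Crv W) : C.pl.ring →+* C.Fn := residue C.pl.ring

noncomputable instance Crv.fnAlgebra (C : Crv W) : Algebra ℂ C.Fn :=
  (C.resid.comp (constTo C.pl C.const_mem)).toAlgebra

/-- The restriction of functions to a curve. -/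
noncomputable def Crv.rho (C : Crv W) {A : Subalgebra ℂ K} (h : ∀ f ∈ A, f ∈ C.pl.ring) :
    A →ₐ[ℂ] C.Fn :=
  { C.resid.comp (A.val.toRingHom.codRestrict C.pl.ring fun f => h f f.2) with
    commutes' := fun _ => rfl }

theorem Crv.rho_apply (C : Crv W) {A : Subalgebra ℂ K} (h : ∀ f ∈ A, f ∈ C.pl.ring) (f : A) :
    C.rho h f = C.resid ⟨f, h f f.2⟩ := rfl

theorem Crv.resid_eq_zero (C : Crv W) (f : C.pl.ring) :
    C.resid f = 0 ↔ (f : K) = 0 ∨ 0 < C.ord f :=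
  (residue_eq_zero_iff f).trans (Pl.mem_maximalIdeal_iff C.pl f)

theorem Crv.rho_eq_zero (C : Crv W) {A : Subalgebra ℂ K} (h : ∀ f ∈ A, f ∈ C.pl.ring) (f : A) :
    C.rho h f = 0 ↔ (f : K) = 0 ∨ 0 < C.ord f := C.resid_eq_zero _

theorem Crv.resid_surj (C : Crv W) : Function.Surjective C.resid := residue_surjective

theorem Crv.resid_inv (C : Crv W) (f : C.pl.ring) (h : C.resid f ≠ 0) :
    (f : K) ≠ 0 ∧ ∃ h' : (f : K)⁻¹ ∈ C.pl.ring, C.resid ⟨_, h'⟩ = (C.resid f)⁻¹ := by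
  rw [Ne, C.resid_eq_zero, not_or] at h
  have h1 : (f : K)⁻¹ ∈ C.pl.ring := by
    by_contra hc
    exact h.2 (Pl.ord_pos_of_inv_notMem _ hc)
  refine ⟨h.1, h1, eq_inv_of_mul_eq_one_right ?_⟩
  rw [← map_mul, ← map_one C.resid]
  congr 1
  exact Subtype.ext (mul_inv_cancel₀ h.1)

/-- The functions whose restriction to the curve is regular at the place `w`. -/
def Crv.cv (C : Crv W) (w : PlaceOver ℂ C.Fn) : Subalgebra ℂ K where
  carrier := {f | ∃ h : f ∈ C.pl.ring, C.resid ⟨f, h⟩ ∈ w.1.ring}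
  mul_mem' := by
    rintro f g ⟨h1, h2⟩ ⟨h3, h4⟩
    refine ⟨mul_mem h1 h3, ?_⟩
    have := mul_mem h2 h4
    rwa [← map_mul] at this
  add_mem' := by
    rintro f g ⟨h1, h2⟩ ⟨h3, h4⟩
    refine ⟨add_mem h1 h3, ?_⟩
    have := add_mem h2 h4
    rwa [← map_add] at this
  algebraMap_mem' c := ⟨C.const_mem c, w.2 c⟩

theorem Crv.cv_or (C : Crv W) (w : PlaceOver ℂ C.Fn) (f : K) : f ∈ C.cv w ∨ f⁻¹ ∈ C.cv w := by
  by_cases h : f ∈ C.pl.ring
  · by_cases h1 : C.resid ⟨f, h⟩ ∈ w.1.ring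
    · exact Or.inl ⟨h, h1⟩
    · obtain ⟨-, h2, h3⟩ := C.resid_inv ⟨f, h⟩ fun h0 => h1 (h0 ▸ zero_mem _)
      exact Or.inr ⟨h2, h3 ▸ (w.1.ring.mem_or_inv_mem _).resolve_left h1⟩
  · have h1 := (C.pl.ring.mem_or_inv_mem f).resolve_left h
    refine Or.inr ⟨h1, ?_⟩
    rw [(C.resid_eq_zero ⟨_, h1⟩).2 (Or.inr (Pl.ord_pos_of_inv_notMem _ (by rwa [inv_inv])))]
    exact zero_mem _

theorem Crv.le_cv_iff {C : Crv W} {w : PlaceOver ℂ C.Fn} {A : Subalgebra ℂ K}
    (h : ∀ f ∈ A, f ∈ C.pl.ring) : A ≤ C.cv w ↔ ∀ r, C.rho h r ∈ w.1.ring :=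
  ⟨fun h1 r => (h1 r.2).2, fun h1 f hf => ⟨h f hf, h1 ⟨f, hf⟩⟩⟩

theorem Crv.on_of_le {C : Crv W} {w : PlaceOver ℂ C.Fn} {x : Pt W} (h : x.ring ≤ C.cv w) :
    x.On C := fun _ hf => (h hf).1

theorem idl_single {x : Pt W} {C : Crv W} (hx : x.On C) :
    idl x (Finsupp.single C 1) = RingHom.ker (C.rho hx) := by
  classical
  ext f
  rw [RingHom.mem_ker, C.rho_eq_zero hx, mem_idl]
  refine or_congr_right ⟨fun h => ?_, fun h C' hC' => ?_⟩
  · have := h C hx
    rw [Finsupp.neg_apply, Finsupp.single_eq_same] at this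
    omega
  · rw [Finsupp.neg_apply, Finsupp.single_apply]
    split_ifs with h1
    · subst h1
      omega
    · have := Pl.ord_nonneg_of_mem _ (hC' _ f.2)
      unfold Crv.ord
      omega

namespace Surf

variable {S : Surf K}

theorem frac_chart (hL : S.Loc1) (C : Crv S.W) {w : K} (hw : w ∈ S.W) (h : C.In w) (e : C.Fn) :
    ∃ a b : chart S.W w, C.rho (fun _ => h.chart_mem) b ≠ 0 ∧
      C.rho (fun _ => h.chart_mem) b * e = C.rho (fun _ => h.chart_mem) a := by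
  obtain ⟨p, hp, -, -, h1, h2⟩ := hL.crv_chart C w hw h
  obtain ⟨f, rfl⟩ := C.resid_surj e
  obtain ⟨a, b, hb, hab⟩ := (h1 f).1 f.2
  refine ⟨a, b, fun h0 => hb ((h2 b).2 ((C.rho_eq_zero _ b).1 h0)), ?_⟩
  rw [C.rho_apply, C.rho_apply, ← map_mul]
  congr 1
  exact Subtype.ext ((mul_comm _ _).trans hab)

theorem transc_chart (hL : S.Loc1) (C : Crv S.W) {w : K} (hw : w ∈ S.W) (h : C.In w) :
    ∃ a : chart S.W w, Transcendental ℂ (C.rho (fun _ => h.chart_mem) a) := by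
  obtain ⟨a, ha, h1⟩ := hL.res C w hw h
  refine ⟨⟨a / w, div_mem_chart ha⟩, transcendental_iff.2 fun P hP => ?_⟩
  by_contra h0
  rw [aeval_algHom_apply, C.rho_eq_zero, aeval_subalgebra_coe] at hP
  obtain ⟨h2, h3⟩ := h1 P h0
  rcases hP with hP | hP
  · exact h2 hP
  · exact absurd (h3 ▸ hP) (lt_irrefl _)

theorem trdeg_le (S : Surf K) (C : Crv S.W) : Algebra.trdeg ℂ C.Fn ≤ 1 := by
  by_contra hc
  have h2 : (2 : Cardinal) ≤ Algebra.trdeg ℂ C.Fn := by
    have := Order.succ_le_of_lt (not_le.1 hc)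
    rwa [← Nat.cast_one, ← Cardinal.nat_succ] at this
  obtain ⟨s, hs⟩ := exists_isTranscendenceBasis ℂ C.Fn
  let ρ : C.alg →ₐ[ℂ] C.Fn := C.rho fun _ h => h
  have hρ : ∀ e, ∃ f, ρ f = e := fun e => by
    obtain ⟨f, hf⟩ := C.resid_surj e
    exact ⟨⟨f, f.2⟩, hf⟩
  choose y hy using hρ
  have h3 : ρ ∘ (fun i : s => y i) = ((↑) : s → C.Fn) := funext fun i => hy i
  have h4 : AlgebraicIndependent ℂ (fun i : s => y i) :=
    AlgebraicIndependent.of_comp ρ (by rw [h3]; exact hs.1)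
  have h5 : AlgebraicIndependent ℂ (C.alg.val ∘ fun i : s => y i) :=
    h4.map' Subtype.val_injective
  have h6 := h5.isTranscendenceBasis_of_trdeg_le
    (by rw [S.model.td]; exact Cardinal.nat_lt_aleph0 2)
    (by rw [S.model.td, hs.cardinalMk_eq_trdeg]; exact h2)
  have h7 := h6.isAlgebraic
  set B := Algebra.adjoin ℂ (Set.range (C.alg.val ∘ fun i : s => y i)) with hB
  have h8 : ∀ b : B, (b : K) ∈ C.pl.ring ∧ (b ≠ 0 → (b : K)⁻¹ ∈ C.pl.ring) := by
    rintro ⟨b, hb⟩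
    rw [hB, Algebra.adjoin_range_eq_range_aeval] at hb
    obtain ⟨P, rfl⟩ := hb
    have e1 : MvPolynomial.aeval (C.alg.val ∘ fun i : s => y i) P =
        C.alg.val (MvPolynomial.aeval (fun i : s => y i) P) :=
      (MvPolynomial.comp_aeval_apply _ _ _).symm
    have e2 : ρ (MvPolynomial.aeval (fun i : s => y i) P) =
        MvPolynomial.aeval ((↑) : s → C.Fn) P := by
      rw [MvPolynomial.comp_aeval_apply]
      exact congrArg (fun z => MvPolynomial.aeval z P) h3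
    refine ⟨?_, fun h0 => ?_⟩
    · change MvPolynomial.aeval _ P ∈ _
      rw [e1]
      exact (MvPolynomial.aeval (fun i : s => y i) P).2
    · change (MvPolynomial.aeval _ P)⁻¹ ∈ _
      rw [e1]
      refine (C.resid_inv ⟨_, (MvPolynomial.aeval (fun i : s => y i) P).2⟩ fun h1 => h0 ?_).2.1
      have h9 : P = 0 := hs.1 ((e2.symm.trans h1).trans (map_zero _).symm)
      subst h9
      exact Subtype.ext (map_zero _)
  apply Pl.ring_ne_top C.pl
  rw [eq_top_iff]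
  intro f _
  obtain ⟨b, hb0, hb⟩ := (h7.isAlgebraic f).exists_integral_multiple
  have h9 := mem_of_isIntegral (A := B) C.pl.ring (fun a => (h8 a).1) hb
  have h10 := mul_mem ((h8 b).2 hb0) h9
  have hb1 : (b : K) ≠ 0 := fun h => hb0 (Subtype.ext h)
  change (b : K)⁻¹ * ((b : K) * f) ∈ _ at h10
  rwa [inv_mul_cancel_left₀ hb1] at h10

/-- The residue field of a curve is a function field in one variable. -/
theorem isFF (hL : S.Loc1) (C : Crv S.W) : IsFF ℂ C.Fn := by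
  obtain ⟨i, hi⟩ := hL.crv_cover C
  refine ⟨?_, le_antisymm (S.trdeg_le C) ?_⟩
  · let φ : chart S.W (S.x i) →ₐ[ℂ] C.Fn := C.rho fun _ => hi.chart_mem
    haveI := hL.ft (S.x i)
    haveI : Algebra.FiniteType ℂ φ.range :=
      Algebra.FiniteType.of_surjective φ.rangeRestrict φ.rangeRestrict_surjective
    haveI : IsFractionRing φ.range C.Fn := IsFractionRing.of_field _ _ fun e => by
      obtain ⟨a, b, h1, h2⟩ := frac_chart hL C (S.x_mem i) hi e
      refine ⟨⟨φ a, a, rfl⟩, ⟨φ b, b, rfl⟩, ?_⟩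
      change e = φ a / φ b
      rw [eq_div_iff h1, mul_comm]
      exact h2
    haveI : Algebra.EssFiniteType φ.range C.Fn :=
      Algebra.EssFiniteType.of_isLocalization _ (nonZeroDivisors φ.range)
    exact Algebra.EssFiniteType.comp ℂ φ.range C.Fn
  · obtain ⟨a, ha⟩ := transc_chart hL C (S.x_mem i) hi
    rw [Cardinal.one_le_iff_ne_zero, trdeg_ne_zero_iff]
    exact ⟨_, ha⟩

/-- Every place of the function field of a curve has a centre. -/
theorem exists_center (hL : S.Loc1) (C : Crv S.W) (w : PlaceOver ℂ C.Fn) :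
    ∃ x : Pt S.W, x.ring ≤ C.cv w := by
  haveI := isFF hL C
  obtain ⟨i, hi⟩ := hL.center (ValuationSubring.ofSubring (C.cv w).toSubring (C.cv_or w))
    fun c => (C.cv w).algebraMap_mem c
  have h1 : chart S.W (S.x i) ≤ C.cv w := chart_le hi
  have h2 : ∀ f ∈ chart S.W (S.x i), f ∈ C.pl.ring := fun f hf => (h1 hf).1
  have h3 := (Crv.le_cv_iff h2).1 h1
  let ι : chart S.W (S.x i) →+* w.1.ring := (C.rho h2).toRingHom.codRestrict w.1.ring h3
  let χ : chart S.W (S.x i) →+* ℂ := (evalAt w).comp ι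
  have hχ : Function.Surjective χ := fun a => ⟨algebraMap ℂ _ a, evalAt_const w a⟩
  have hm := RingHom.ker_isMaximal_of_surjective χ hχ
  refine ⟨⟨loc _ _ hm.isPrime, S.x i, S.x_mem i, S.x_ne i, _, hm, rfl⟩, ?_⟩
  rintro f ⟨a, b, hb, hab⟩
  have h4 : IsUnit (ι b) := by
    by_contra hc
    exact hb ((evalAt_eq_zero_iff w (ι b)).2 hc)
  obtain ⟨v, hv⟩ := h4.exists_right_inv
  have h5 : C.rho h2 b * (v : C.Fn) = 1 := congrArg Subtype.val hv
  obtain ⟨h6, h7, h8⟩ := C.resid_inv ⟨b, h2 b b.2⟩ (left_ne_zero_of_mul_eq_one h5)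
  have h9 : (b : K)⁻¹ ∈ C.cv w := by
    refine ⟨h7, ?_⟩
    rw [h8, ← C.rho_apply h2, ← eq_inv_of_mul_eq_one_right h5]
    exact v.2
  rw [(eq_mul_inv_iff_mul_eq₀ h6).2 hab]
  exact mul_mem (h1 a.2) h9

theorem center_unique (hL : S.Loc) (C : Crv S.W) (w : PlaceOver ℂ C.Fn) {x y : Pt S.W}
    (hx : x.ring ≤ C.cv w) (hy : y.ring ≤ C.cv w) : x = y := by
  haveI := isFF hL.toLoc1 C
  by_contra hc
  obtain ⟨l, hl, hyl⟩ := hL.sep x y hc
  obtain ⟨w₀, hw₀, hx₀⟩ := x.exists_in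
  obtain ⟨h1, h2⟩ := x.van_iff.1 (hl.2 w₀ hw₀ hx₀)
  have h3 := Len.dom (C.rho (Crv.on_of_le hx)) ((Crv.le_cv_iff _).1 hx) h2
  obtain ⟨h4, h5⟩ := hy (hyl.2 w₀ hw₀)
  have h6 : C.rho (Crv.on_of_le hx) ⟨_, h1⟩ * C.resid ⟨_, h4⟩ = 1 := by
    rw [C.rho_apply (Crv.on_of_le hx), ← map_mul, ← map_one C.resid]
    congr 1
    apply Subtype.ext
    change l / w₀ * (w₀ / l) = 1
    field_simp [hyl.1, hx₀.1]
  have h7 := Pl.ord_mul w.1 (left_ne_zero_of_mul_eq_one h6) (right_ne_zero_of_mul_eq_one h6)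
  rw [h6, Pl.ord_one] at h7
  have h8 := Pl.ord_nonneg_of_mem _ h5
  have h9 := h3.resolve_left (left_ne_zero_of_mul_eq_one h6)
  omega

/-- The centre of a place of the function field of a curve. -/
noncomputable def ctr (hL : S.Loc1) (C : Crv S.W) (w : PlaceOver ℂ C.Fn) : Pt S.W :=
  (exists_center hL C w).choose

theorem ctr_le (hL : S.Loc1) (C : Crv S.W) (w : PlaceOver ℂ C.Fn) :
    (ctr hL C w).ring ≤ C.cv w := (exists_center hL C w).choose_spec

theorem ctr_eq_iff (hL : S.Loc) (C : Crv S.W) (w : PlaceOver ℂ C.Fn) (x : Pt S.W) :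
    ctr hL.toLoc1 C w = x ↔ x.ring ≤ C.cv w :=
  ⟨fun h => h ▸ ctr_le _ C w, center_unique hL C w (ctr_le _ C w)⟩

theorem gen_mem (hL : S.Loc) {x : Pt S.W} {D : Div S.W} (hD : 0 ≤ D) {s : K}
    (hs : GenAt x (-D) s) : s ∈ x.ring := by
  refine (hL.normal x s).1 (Or.inr fun C hC => ?_)
  have h1 := hs.2 C hC
  have h2 : 0 ≤ D C := hD C
  rw [Finsupp.neg_apply] at h1
  rw [Finsupp.zero_apply]
  omega

theorem idl_eq_span (hL : S.Loc) {x : Pt S.W} {D : Div S.W} (s : x.ring)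
    (hs : GenAt x (-D) s) : idl x D = Ideal.span {s} := by
  ext f
  rw [mem_idl, Ideal.mem_span_singleton']
  constructor
  · intro h
    by_cases h0 : (f : K) = 0
    · exact ⟨0, Subtype.ext (by simp [h0])⟩
    refine ⟨⟨f / s, (hL.normal x _).1 (Or.inr fun C hC => ?_)⟩,
      Subtype.ext (div_mul_cancel₀ _ hs.1)⟩
    have h1 := hs.2 C hC
    have h2 := h.resolve_left h0 C hC
    unfold Crv.ord at *
    rw [Pl.ord_div _ h0 hs.1, Finsupp.zero_apply]
    omega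
  · rintro ⟨a, rfl⟩
    exact (idl x D).mul_mem_left a (Or.inr fun C hC => (hs.2 C hC).ge)

/-- The local intersection multiplicity with a curve as a sum of orders. -/
theorem mult_eq (hL : S.Loc) {C : Crv S.W} {x : Pt S.W} (hx : x.On C) {D : Div S.W}
    (hC : D C = 0) (s : x.ring) (hs : GenAt x (-D) s) :
    C.rho hx s ≠ 0 ∧ (mult x (Finsupp.single C 1) D : ℤ) =
      ∑ᶠ w : {w : PlaceOver ℂ C.Fn // ∀ r, C.rho hx r ∈ w.1.ring}, w.1.1.ord (C.rho hx s) := by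
  haveI := isFF hL.toLoc1 C
  have h0 : C.rho hx s ≠ 0 := by
    rw [Ne, C.rho_eq_zero hx]
    have h1 := hs.2 C hx
    rw [Finsupp.neg_apply, hC] at h1
    rintro (h | h)
    · exact hs.1 h
    · omega
  refine ⟨h0, ?_⟩
  obtain ⟨w, hw, hxw⟩ := x.exists_in
  obtain ⟨a, ha⟩ := transc_chart hL.toLoc1 C hw (hx.crv_in hxw)
  obtain ⟨c, hc⟩ := hL.val x a (hxw.chart_le a.2)
  obtain ⟨h1, h2⟩ := x.van_iff.1 hc
  unfold mult
  rw [idl_single hx, idl_eq_span hL s hs]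
  refine Len.len (C.rho hx) (fun e => ?_) h2 (fun h3 => ha ?_) s h0
  · obtain ⟨a, b, h3, h4⟩ := frac_chart hL.toLoc1 C hw (hx.crv_in hxw) e
    exact ⟨⟨a, hxw.chart_le a.2⟩, ⟨b, hxw.chart_le b.2⟩, h3, h4⟩
  · have h4 : C.rho hx (⟨a, hxw.chart_le a.2⟩ - algebraMap ℂ _ c) = 0 := h3
    rw [map_sub, AlgHom.commutes, sub_eq_zero] at h4
    have h5 : C.rho (fun _ => (hx.crv_in hxw).chart_mem) a = algebraMap ℂ _ c := h4
    rw [h5]
    exact isAlgebraic_algebraMap c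

theorem mult_eq_zero {C : Crv S.W} {x : Pt S.W} (hx : ¬ x.On C) (D : Div S.W) :
    mult x (Finsupp.single C 1) D = 0 := by
  classical
  have h : idl x (Finsupp.single C 1) ⊔ idl x D = ⊤ := by
    rw [eq_top_iff]
    refine le_trans (fun f _ => Or.inr fun C' hC' => ?_) le_sup_left
    rw [Finsupp.neg_apply, Finsupp.single_apply, if_neg (fun h : C = C' => hx (h ▸ hC'))]
    have := Pl.ord_nonneg_of_mem _ (hC' _ f.2)
    unfold Crv.ord
    omega
  unfold mult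
  rw [h]
  exact finrank_zero_of_subsingleton

/-- The difference of the multiplicities is the image of the divisor of the restriction. -/
theorem mult_sub (hL : S.Loc) (C : Crv S.W) [IsFF ℂ C.Fn] {D D' : Div S.W} {f : K} (hD : 0 ≤ D)
    (hD' : 0 ≤ D') (hC : D C = 0) (hC' : D' C = 0) (hf : f ≠ 0) (h : div S.W f = D - D') :
    ∃ u : C.Fn, ∀ x, (mult x (Finsupp.single C 1) D : ℤ) - mult x (Finsupp.single C 1) D' =
      Finsupp.mapDomain (ctr hL.toLoc1 C) (P297.div ℂ u) x := by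
  have h1 : ∀ C' : Crv S.W, C'.ord f = D C' - D' C' := fun C' => by
    rw [← Finsupp.sub_apply, ← h, div, toDiv_apply (hL.fin_div f)]
  have h2 : f ∈ C.pl.ring := by
    rw [← Pl.ord_nonneg_iff _ hf]
    have := h1 C
    unfold Crv.ord at this
    omega
  have h3 : C.resid ⟨f, h2⟩ ≠ 0 := by
    rw [Ne, C.resid_eq_zero]
    have := h1 C
    rintro (h | h)
    · exact hf h
    · change 0 < C.ord f at h
      omega
  refine ⟨C.resid ⟨f, h2⟩, fun x => ?_⟩
  rw [P297.mapDomain_apply_finsum]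
  by_cases hx : x.On C
  swap
  · rw [mult_eq_zero hx, mult_eq_zero hx]
    haveI : IsEmpty {w // ctr hL.toLoc1 C w = x} :=
      ⟨fun w => hx (Crv.on_of_le ((ctr_eq_iff hL C w.1 x).1 w.2))⟩
    rw [finsum_of_isEmpty]
    simp
  obtain ⟨s, hs⟩ := hL.gen x (-D)
  obtain ⟨s', hs'⟩ := hL.gen x (-D')
  obtain ⟨a1, a2⟩ := mult_eq hL hx hC ⟨s, gen_mem hL hD hs⟩ hs
  obtain ⟨b1, b2⟩ := mult_eq hL hx hC' ⟨s', gen_mem hL hD' hs'⟩ hs'
  have h4 : f * s' / s ≠ 0 := div_ne_zero (mul_ne_zero hf hs'.1) hs.1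
  have h5 : ∀ C' : Crv S.W, x.On C' → C'.ord (f * s' / s) = 0 := fun C' hC' => by
    have c1 := hs.2 C' hC'
    have c2 := hs'.2 C' hC'
    have c3 := h1 C'
    rw [Finsupp.neg_apply] at c1 c2
    unfold Crv.ord at *
    rw [Pl.ord_div _ (mul_ne_zero hf hs'.1) hs.1, Pl.ord_mul _ hf hs'.1]
    omega
  have h6 : f * s' / s ∈ x.ring := (hL.normal x _).1 (Or.inr fun C' hC' => by simp [h5 C' hC'])
  have h7 : (f * s' / s)⁻¹ ∈ x.ring := (hL.normal x _).1 (Or.inr fun C' hC' => by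
    have := h5 C' hC'
    unfold Crv.ord at *
    rw [Pl.ord_inv, this]
    simp)
  have h8 : IsUnit (⟨_, h6⟩ : x.ring) := (isUnit_iff_inv _).2 ⟨h4, h7⟩
  have h9 : C.resid ⟨f, h2⟩ * C.rho hx ⟨s', gen_mem hL hD' hs'⟩ =
      C.rho hx ⟨_, h6⟩ * C.rho hx ⟨s, gen_mem hL hD hs⟩ := by
    rw [C.rho_apply hx, C.rho_apply hx, C.rho_apply hx, ← map_mul, ← map_mul]
    congr 1
    exact Subtype.ext (div_mul_cancel₀ _ hs.1).symm
  have fin : ∀ u : C.Fn, (Function.support fun w : {w : PlaceOver ℂ C.Fn //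
      ∀ r, C.rho hx r ∈ w.1.ring} => w.1.1.ord u).Finite := fun u =>
    (P297.finite_support (k := ℂ) u).preimage Subtype.val_injective.injOn
  rw [a2, b2, ← finsum_sub_distrib (fin _) (fin _)]
  refine finsum_eq_of_bijective (Subtype.map id fun w hw =>
    (ctr_eq_iff hL C w x).2 ((Crv.le_cv_iff hx).2 hw)) ⟨Subtype.map_injective _
      Function.injective_id, fun w => ⟨⟨w.1, (Crv.le_cv_iff hx).1 ((ctr_eq_iff hL C _ x).1 w.2)⟩,
        rfl⟩⟩ fun w => ?_
  have c1 := congrArg w.1.1.ord h9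
  rw [Pl.ord_mul _ h3 b1, Pl.ord_mul _ (Len.unit_inv _ h8).1 a1, Len.ord_unit _ w.2 h8] at c1
  change _ = w.1.1.ord _
  omega

theorem finite_mult (hL : S.Loc) (hM : S.MultPos) (C : Crv S.W) {D : Div S.W} (hD : 0 ≤ D)
    (hC : D C = 0) : {x | mult x (Finsupp.single C 1) D ≠ 0}.Finite := by
  classical
  refine (D.support.finite_toSet.biUnion (t := fun C' => {x : Pt S.W | x.On C ∧ x.On C'})
    fun C' hC' => hL.fin_meet C C' ?_).subset fun x hx => ?_
  · rintro rfl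
    exact Finsupp.mem_support_iff.1 hC' hC
  · obtain ⟨-, C', h1, h2⟩ := (hM x (Finsupp.single C 1) D
      (Finsupp.single_nonneg.2 zero_le_one) hD fun C' => by
        by_cases h : C = C'
        · exact Or.inr (h ▸ hC)
        · exact Or.inl (by rw [Finsupp.single_apply, if_neg h])).2.1 hx
    refine Set.mem_biUnion (Finsupp.mem_support_iff.2 h2) ⟨?_, h1⟩
    by_contra hc
    exact hx (mult_eq_zero hc D)

end Surf

end Vale.Agent.P297Z.Sf
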