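import Vale.Agent.P297Z.Surf.Sk

/-! The hyperplane divisor and the sections on the blowing up of a point. -/

set_option linter.all false

open IsLocalRing Polynomial

namespace Vale.Agent.P297Z.Sf

open Vale.Agent.P297 (Place)

variable {K : Type} [Field K] [Algebra ℂ K]

namespace Bl4

theorem ord_iota {W : Submodule ℂ K} {x : Pt W} {E : Crv (bl x)} {ι : Crv W → Crv (bl x)}
    (hB : BlData x E ι) (C : Crv W) (f : K) : (ι C).ord f = C.ord f := by
  unfold Crv.ord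
  rw [hB.pl]

theorem van_le {W : Submodule ℂ K} (x : Pt W) : van x ≤ W := fun _ h => h.1

/-- The hyperplane divisor of the blowing up along the old curves. -/
theorem hyp_iota (S : Surf K) (hL : S.Loc) {x : Pt S.W} {E : Crv (bl x)}
    {ι : Crv S.W → Crv (bl x)} (hB : BlData x E ι)
    (hin : ∀ (C : Crv (bl x)), ∀ w ∈ bl x, C.In w → hyp (bl x) C = - C.ord w) (C : Crv S.W) :
    hyp (bl x) (ι C) = 2 * S.H C := by
  obtain ⟨l, hl, hC⟩ := hB.in_crv C
  have h1 : (ι C).In (l * l) := by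
    refine ⟨mul_ne_zero hC.1 hC.1, fun a ha => ?_⟩
    rw [hB.pl]
    refine Submodule.mul_induction_on ha (fun p hp q hq => ?_) (fun p q hp hq => ?_)
    · rw [mul_div_mul_comm]
      exact mul_mem (hC.2 p hp.1) (hC.2 q hq)
    · rw [add_div]
      exact add_mem hp hq
  rw [hin _ _ (Submodule.mul_mem_mul hl hl.1) h1, hL.hyp_in C l hl.1 hC, ord_iota hB]
  unfold Crv.ord
  rw [Pl.ord_mul _ hC.1 hC.1]
  ring

theorem one_le_ord {W : Submodule ℂ K} {x : Pt W} {E : Crv (bl x)} {ι : Crv W → Crv (bl x)}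
    (hB : BlData x E ι) {f : K} (hf : x.Van f) (h0 : f ≠ 0) : 1 ≤ E.ord f := by
  obtain ⟨h1, h2⟩ := x.van_iff.1 hf
  have h3 := (hB.ord ⟨f, h1⟩ 1 (fun h => h0 (congrArg Subtype.val h))).2 (by rwa [pow_one])
  simpa using h3

/-- The hyperplane divisor of the blowing up along the exceptional curve. -/
theorem hyp_exc (S : Surf K) (hR : S.Reg2) {x : Pt S.W} {E : Crv (bl x)}
    {ι : Crv S.W → Crv (bl x)} (hB : BlData x E ι)
    (hin : ∀ (C : Crv (bl x)), ∀ w ∈ bl x, C.In w → hyp (bl x) C = - C.ord w)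
    {w : K} (hw : w ∈ S.W) (hx : x.In w) : hyp (bl x) E = - 2 * E.ord w - 1 := by
  obtain ⟨l, hl, l₂, -, s, t, hs, -, hm⟩ := hR.gens x w hw hx
  have h1 : s ∉ maximalIdeal x.ring ^ 2 := by
    intro h
    have := hR.lead x s t hm 1 (fun i => if i = 1 then 1 else 0)
      (by simpa [Finset.sum_range_succ] using h) 1 le_rfl
    simp at this
  have hs0 : s ≠ 0 := by
    rintro rfl
    exact h1 (zero_mem _)
  have hl0 : l / w ≠ 0 := by
    rw [← hs]
    exact fun h => hs0 (Subtype.ext h)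
  have hl1 : l ≠ 0 := by
    rintro rfl
    simp at hl0
  have h2 : E.ord (l / w) = 1 := by
    have a1 := one_le_ord hB (hl.2 w hw hx) hl0
    have a2 := (hB.ord s 2 hs0).not.2 h1
    rw [hs] at a2
    push_cast at a2
    omega
  have h3 : E.In (l * w) := by
    refine ⟨mul_ne_zero hl1 hx.1, fun a ha => ?_⟩
    refine Submodule.mul_induction_on ha (fun p hp q hq => ?_) (fun p q hp hq => ?_)
    · rw [mul_div_mul_comm]
      refine mul_mem ?_ (hB.dom _ (hx.2 q hq))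
      by_cases hp0 : p = 0
      · simp [hp0]
      have a1 := one_le_ord hB (hp.2 w hw hx) (div_ne_zero hp0 hx.1)
      rw [← Pl.ord_nonneg_iff _ (div_ne_zero hp0 hl1)]
      unfold Crv.ord at *
      rw [Pl.ord_div _ hp0 hx.1] at a1
      rw [Pl.ord_div _ hl1 hx.1] at h2
      rw [Pl.ord_div _ hp0 hl1]
      omega
    · rw [add_div]
      exact add_mem hp hq
  rw [hin _ _ (Submodule.mul_mem_mul hl hw) h3]
  unfold Crv.ord at *
  rw [Pl.ord_div _ hl1 hx.1] at h2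
  rw [Pl.ord_mul _ hl1 hx.1]
  omega

/-- A section divided by a local generator is regular. -/
theorem div_gen_mem (S : Surf K) (hL : S.Loc) {x : Pt S.W} {D : Div S.W} {s f : K}
    (hs : GenAt x D s) (hf : f ∈ stalk x D) : f / s ∈ x.ring := by
  rw [← hL.normal]
  by_cases h0 : f = 0
  · exact Or.inl (by simp [h0])
  refine Or.inr fun C hC => ?_
  have a1 := hf.resolve_left h0 C hC
  have a2 := hs.2 C hC
  unfold Crv.ord at *
  rw [Pl.ord_div _ h0 hs.1]
  simp only [Finsupp.coe_zero, Pi.zero_apply]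
  omega

theorem H0_le_stalk {W : Submodule ℂ K} (x : Pt W) (D : Div W) : H0 D ≤ stalk x D :=
  secOn_mono fun _ _ => ⟨trivial, le_rfl⟩

theorem gen_mem_stalk {W : Submodule ℂ K} {x : Pt W} {D : Div W} {s : K} (hs : GenAt x D s) :
    s ∈ stalk x D := Or.inr fun C hC => (hs.2 C hC).ge

theorem gen_mul {W : Submodule ℂ K} {x : Pt W} {D D' : Div W} {s s' : K} (hs : GenAt x D s)
    (hs' : GenAt x D' s') : GenAt x (D + D') (s * s') := by
  refine ⟨mul_ne_zero hs.1 hs'.1, fun C hC => ?_⟩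
  have a1 := hs.2 C hC
  have a2 := hs'.2 C hC
  unfold Crv.ord at *
  rw [Pl.ord_mul _ hs.1 hs'.1, Finsupp.add_apply]
  omega

theorem gen_zpow {W : Submodule ℂ K} {x : Pt W} {D : Div W} {s : K} (hs : GenAt x D s)
    (k : ℤ) : GenAt x (k • D) (s ^ k) := by
  refine ⟨zpow_ne_zero _ hs.1, fun C hC => ?_⟩
  have a1 := hs.2 C hC
  unfold Crv.ord at *
  rw [Pl.ord_zpow, Finsupp.smul_apply, smul_eq_mul, ← mul_add, a1, mul_zero]

theorem gen_hyp (S : Surf K) (hL : S.Loc) {x : Pt S.W} {w : K} (hw : w ∈ S.W) (hx : x.In w) :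
    GenAt x S.H w := by
  refine ⟨hx.1, fun C hC => ?_⟩
  rw [hL.hyp_in C w hw (hC.crv_in hx)]
  ring

theorem mem_M_one (S : Surf K) (hL : S.Loc) {a : K} (ha : a ∈ S.W) : a ∈ M (0 : Div S.W) 1 := by
  by_cases h0 : a = 0
  · exact Or.inl h0
  refine Or.inr fun C _ => ?_
  obtain ⟨w, hw, hC⟩ := C.exists_in
  have a1 := Pl.ord_nonneg_of_mem _ (hC.2 a ha)
  have a2 := hL.hyp_in C w hw hC
  rw [Pl.ord_div _ h0 hC.1] at a1
  simp only [zero_add, one_smul]
  unfold Crv.ord at *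
  change hyp S.W C = _ at a2
  omega

theorem pow_le_M (S : Surf K) (hL : S.Loc) (j : ℕ) : S.W ^ j ≤ M (0 : Div S.W) j := by
  induction j with
  | zero =>
    rw [pow_zero, Submodule.one_le]
    exact Or.inr fun C _ => by simp
  | succ j ih =>
    rw [pow_succ]
    refine Submodule.mul_le.2 fun a ha b hb => ?_
    have := mul_mem_M (ih ha) (mem_M_one S hL hb)
    simpa using this

/-- The sections of a large twist have arbitrary jets. -/
theorem jets (S : Surf K) (hL : S.Loc) (hR : S.Reg2) {x : Pt S.W} {D : Div S.W} {s : K}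
    (hs : GenAt x D s) {w : K} (hw : w ∈ S.W) (hx : x.In w) :
    ∃ m₀ : ℤ, ∀ k : ℤ, m₀ ≤ k → ∀ n : ℕ, (n : ℤ) ≤ k - m₀ + 1 → ∀ g : x.ring,
      ∃ f ∈ H0 (D + k • S.H), ∃ b : x.ring, (b : K) = f / (s * w ^ k) ∧
        b - g ∈ maximalIdeal x.ring ^ n := by
  obtain ⟨m₀, hm₀⟩ := hL.gen_sec D
  refine ⟨m₀, fun k hk n hn g => ?_⟩
  obtain ⟨g₀, hg₀, hg⟩ := hm₀ m₀ le_rfl x
  have h1 : GenAt x (D + m₀ • S.H) (s * w ^ m₀) := gen_mul hs (gen_zpow (gen_hyp S hL hw hx) m₀)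
  have hu := div_gen_mem S hL h1 (gen_mem_stalk hg)
  have hv := div_gen_mem S hL hg (gen_mem_stalk h1)
  obtain ⟨j, hj⟩ : ∃ j : ℕ, k = m₀ + j := ⟨(k - m₀).toNat, by omega⟩
  obtain ⟨a, ha, b, hb, hbg⟩ := hR.jet_surj x w hw hx (⟨_, hv⟩ * g) n j (by omega)
  refine ⟨g₀ * a, ?_, ⟨_, hu⟩ * b, ?_, ?_⟩
  · have := mul_mem_M hg₀ (pow_le_M S hL j ha)
    rw [add_zero, ← hj] at this
    exact this
  · push_cast
    rw [hb, hj, zpow_add₀ hx.1, zpow_natCast]
    have := hx.1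
    have := hs.1
    field_simp
  · have e : (⟨_, hu⟩ : x.ring) * b - g = ⟨_, hu⟩ * (b - ⟨_, hv⟩ * g) := by
      apply Subtype.ext
      push_cast
      have a1 := h1.1
      have a2 := hg.1
      generalize s * w ^ m₀ = t at a1 ⊢
      field_simp
    rw [e]
    exact Ideal.mul_mem_left _ _ hbg

/-- The sections on the blowing up are cut out by the jets. -/
theorem h0_bl (S : Surf K) (hL : S.Loc) (hR : S.Reg2) {x : Pt S.W} {E : Crv (bl x)}
    {ι : Crv S.W → Crv (bl x)} (hB : BlData x E ι) {D' : Div (bl x)} {D : Div S.W} {s : K}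
    (hD : ∀ C, D' (ι C) = D C) (hs : GenAt x D s) (n : ℕ) (hn : D' E + E.ord s = - n)
    (hfin : FiniteDimensional ℂ (H0 D))
    (hsurj : ∀ g : x.ring, ∃ f ∈ H0 D, ∃ b : x.ring, (b : K) = f / s ∧
      b - g ∈ maximalIdeal x.ring ^ n) :
    2 * h0 D' = 2 * h0 D - n * (n + 1) := by
  let φ : H0 D →ₗ[ℂ] x.ring :=
    { toFun := fun f => ⟨f / s, div_gen_mem S hL hs (H0_le_stalk x D f.2)⟩
      map_add' := fun f g => Subtype.ext (by simp [add_div])
      map_smul' := fun c f => Subtype.ext (by simp [smul_div_assoc]) }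
  let ψ : H0 D →ₗ[ℂ] x.ring ⧸ maximalIdeal x.ring ^ n :=
    (Ideal.Quotient.mkₐ ℂ (maximalIdeal x.ring ^ n)).toLinearMap ∘ₗ φ
  have hψ : ∀ f, ψ f = Ideal.Quotient.mk _ (φ f) := fun f => rfl
  have h1 : LinearMap.range ψ = ⊤ := by
    rw [LinearMap.range_eq_top]
    intro y
    obtain ⟨g, rfl⟩ := Ideal.Quotient.mk_surjective y
    obtain ⟨f, hf, b, hb, hbg⟩ := hsurj g
    refine ⟨⟨f, hf⟩, ?_⟩
    rw [hψ, Ideal.Quotient.eq]
    rwa [show φ ⟨f, hf⟩ = b from Subtype.ext hb.symm]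
  have h2 : (LinearMap.ker ψ).map (H0 D).subtype = H0 D' := by
    ext f
    by_cases h0 : f = 0
    · simp [h0]
    have hE : ∀ hf : f ∈ H0 D, ψ ⟨f, hf⟩ = 0 ↔ 0 ≤ E.ord f + D' E := by
      intro hf
      rw [hψ, Ideal.Quotient.eq_zero_iff_mem,
        ← hB.ord _ n (fun h => div_ne_zero h0 hs.1 (congrArg Subtype.val h))]
      change (n : ℤ) ≤ E.pl.ord (f / s) ↔ _
      rw [Pl.ord_div _ h0 hs.1]
      unfold Crv.ord at *
      omega
    constructor
    · rintro ⟨⟨f', hf⟩, hk, rfl⟩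
      refine Or.inr fun C' _ => ?_
      rcases hB.all C' with rfl | ⟨C, rfl⟩
      · exact (hE hf).1 hk
      · rw [hD, ord_iota hB]
        exact hf.resolve_left h0 C trivial
    · intro hf
      have hf' : f ∈ H0 D := Or.inr fun C _ => by
        have := hf.resolve_left h0 (ι C) trivial
        rwa [hD, ord_iota hB] at this
      exact ⟨⟨f, hf'⟩, (hE hf').2 (hf.resolve_left h0 E trivial), rfl⟩
  have h3 := LinearMap.finrank_range_add_finrank_ker ψ
  rw [h1, finrank_top, ← Submodule.finrank_map_subtype_eq, h2] at h3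
  have h4 := hR.jet_dim x n
  unfold h0
  zify at h3 h4
  linarith

end Bl4

end Vale.Agent.P297Z.Sf
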