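import Vale.Agent.P297Z.Surf.SspA
import Vale.Agent.P297Z.Surf.Hilb
import Vale.Agent.P297Z.Dim.Alg
import Vale.Agent.P297Z.Top.Defs

/-!
# The cone over the surface: finite over the plane, of dimension three, regular at its points
-/

set_option linter.all false

noncomputable section

namespace Vale.Agent.P297Z.Sf.SA

open LaurentPolynomial IsLocalRing

variable {K : Type} [Field K] [Algebra ℂ K] {S : Surf K}

/-- the three linear forms -/
def xl (S : Surf K) (i : Fin 3) : S.ring := S.lin ⟨S.x i, S.x_mem i⟩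

/-- the map from the coordinate ring of the plane -/
def plane (S : Surf K) : MvPolynomial (Fin 3) ℂ →ₐ[ℂ] S.ring := MvPolynomial.aeval (xl S)

theorem coe_plane {n : ℕ} {t : MvPolynomial (Fin 3) ℂ} (ht : t ∈ Gr.Tz n) :
    (plane S t : K[T;T⁻¹]) = mon (MvPolynomial.aeval S.x t) n := by
  have h1 := Gr.aeval_scale (fun i => (C (S.x i) : K[T;T⁻¹])) (T 1) n t ht
  have h2 : MvPolynomial.aeval (fun i => (C (S.x i) : K[T;T⁻¹])) t =
      C (MvPolynomial.aeval S.x t) :=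
    MvPolynomial.aeval_algebraMap_apply (A := K) (B := K[T;T⁻¹]) S.x t
  have h3 := MvPolynomial.comp_aeval_apply (xl S) S.ring.val t
  rw [h2, T_pow, mul_one, mul_comm] at h1
  refine h3.trans (Eq.trans ?_ h1)
  exact congrArg (fun y => MvPolynomial.aeval y t) (funext fun i => mul_comm _ _)

theorem plane_inj (S : Surf K) : Function.Injective (plane S) := by
  refine (injective_iff_map_eq_zero _).2 fun t ht => ?_
  have h1 : ∀ n, MvPolynomial.homogeneousComponent n t ∈ Gr.Tz (n : ℕ) := fun n =>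
    Gr.Tz_iff.2 (MvPolynomial.homogeneousComponent_isHomogeneous n t)
  rw [← MvPolynomial.sum_homogeneousComponent t] at ht ⊢
  refine Finset.sum_eq_zero fun n hn => S.aeval_inj (h1 n) ?_
  have h2 := congrArg (fun r : S.ring => (r : K[T;T⁻¹]).coeff n) ht
  simp only [map_sum, AddSubmonoidClass.coe_finset_sum, AddMonoidAlgebra.coeff_sum,
    Finsupp.finset_sum_apply, coe_plane (h1 _), coeff_mon, Nat.cast_inj, Finset.sum_ite_eq', hn,
    if_true] at h2
  exact h2

theorem X_le (S : Surf K) : S.X ≤ S.W :=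
  Submodule.span_le.2 (by rintro _ ⟨i, rfl⟩; exact S.x_mem i)

theorem form_X {n : ℕ} {N : Submodule ℂ S.ring}
    (hN : ∀ i b hb, xl S i * S.form n b hb ∈ N) {a : K} (ha : a ∈ S.X * S.W ^ n)
    (ha' : a ∈ S.W ^ (1 + n)) : S.form (1 + n) a ha' ∈ N := by
  suffices h : ∃ ha', S.form (1 + n) a ha' ∈ N from h.2
  refine Submodule.mul_induction_on ha (fun l hl b hb => ?_) fun x y ⟨h1, h2⟩ ⟨h3, h4⟩ =>
    ⟨_, form_add h1 h3 ▸ add_mem h2 h4⟩
  refine ⟨mul_mem_pow (mem_one ⟨l, X_le S hl⟩) hb, ?_⟩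
  rw [← form_mul (mem_one ⟨l, X_le S hl⟩) hb]
  change (LinearMap.mulRight ℂ (S.form n b hb) ∘ₗ S.linL) ⟨l, X_le S hl⟩ ∈ N
  induction hl using Submodule.span_induction with
  | mem x hx =>
    obtain ⟨i, rfl⟩ := hx
    exact hN i b hb
  | zero => exact (map_zero (LinearMap.mulRight ℂ (S.form n b hb) ∘ₗ S.linL)).symm ▸ zero_mem N
  | add x y hx hy h h' =>
    exact (map_add (LinearMap.mulRight ℂ (S.form n b hb) ∘ₗ S.linL) ⟨x, X_le S hx⟩
      ⟨y, X_le S hy⟩).symm ▸ add_mem h h'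
  | smul c x hx h =>
    exact (map_smul (LinearMap.mulRight ℂ (S.form n b hb) ∘ₗ S.linL) c ⟨x, X_le S hx⟩).symm ▸
      N.smul_mem c h

theorem cover_hom (y : S.ring →ₐ[ℂ] ℂ) {w : S.W} (hw : y (S.lin w) ≠ 0) :
    ∃ i, y (xl S i) ≠ 0 := by
  by_contra h1
  push Not at h1
  obtain ⟨n, hn⟩ := S.nn
  have h2 := form_X (N := LinearMap.ker y.toLinearMap) (n := n) (fun i b hb => by
    change y _ = 0
    rw [map_mul, h1, zero_mul]) (hn (pow_mem w _)) (add_comm n 1 ▸ pow_mem w _)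
  rw [form_congr _ (pow_mem w (n + 1)) (add_comm _ _) rfl, ← lin_pow] at h2
  exact pow_ne_zero _ hw ((map_pow y _ _).symm.trans h2)

theorem finite_plane (S : Surf K) :
    Module.Finite (Algebra.adjoin ℂ (Set.range (xl S))) S.ring := by
  set B := Algebra.adjoin ℂ (Set.range (xl S))
  obtain ⟨n, hn⟩ := S.nn
  have := S.model.fin
  have := S.ring_ft
  have h1 : (S.W ^ n).FG := Submodule.FG.pow (Module.Finite.iff_fg.1 inferInstance) n
  have := Module.Finite.iff_fg.2 h1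
  obtain ⟨s, hs⟩ : (LinearMap.range (formL S n)).FG := Module.Finite.iff_fg.1 inferInstance
  have h2 : ∀ b hb, S.form n b hb ∈ Submodule.span B (s : Set S.ring) := fun b hb =>
    Submodule.span_le_restrictScalars ℂ B _ (hs ▸ ⟨⟨b, hb⟩, rfl⟩)
  have h3 : ∀ w, IsIntegral B (S.lin w) := fun w => by
    refine isIntegral_of_smul_mem_submodule (Submodule.span B (s : Set S.ring)) (fun h => ?_)
      (Submodule.fg_span s.finite_toSet) _ fun r hr => ?_
    · have h4 := h2 _ (pow_mem ⟨_, S.x_mem 0⟩ n)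
      rw [h, Submodule.mem_bot, form_eq_zero] at h4
      exact pow_ne_zero n (S.x_ne 0) h4
    · induction hr using Submodule.span_induction with
      | mem x hx =>
        obtain ⟨b, rfl⟩ : x ∈ LinearMap.range (formL S n) := hs ▸ Submodule.subset_span hx
        have h4 := mul_mem_pow (mem_one w) b.2
        have h5 := form_X (N := (Submodule.span B (s : Set S.ring)).restrictScalars ℂ)
          (fun i b hb => Submodule.smul_mem _ (⟨xl S i, Algebra.subset_adjoin ⟨i, rfl⟩⟩ : B)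
            (h2 b hb)) (hn (add_comm 1 n ▸ h4)) h4
        rwa [← form_mul (mem_one w) b.2] at h5
      | zero => simp
      | add x y _ _ h h' => exact smul_add (S.lin w) x y ▸ add_mem h h'
      | smul c x _ h => exact smul_comm (S.lin w) c x ▸ Submodule.smul_mem _ c h
  have h4 : Algebra.IsIntegral B S.ring := ⟨fun r => by
    have h5 : r ∈ Algebra.adjoin ℂ (Set.range S.lin) := adjoin_lin S ▸ Algebra.mem_top
    exact Algebra.adjoin_le (S := (integralClosure B S.ring).restrictScalars ℂ)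
      (by rintro _ ⟨w, rfl⟩; exact h3 w) h5⟩
  have := Algebra.FiniteType.of_restrictScalars_finiteType ℂ B S.ring
  exact Algebra.IsIntegral.finite (R := B) (A := S.ring)

theorem td_ring (S : Surf K) : Dim.td ℂ S.ring = 3 := by
  have := S.ring_ft
  have := finite_plane S
  have e := AlgEquiv.ofInjective (plane S) (plane_inj S)
  have h1 : (plane S).range = Algebra.adjoin ℂ (Set.range (xl S)) :=
    (Algebra.adjoin_range_eq_range_aeval ℂ (xl S)).symm
  rw [h1] at e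
  have := Algebra.FiniteType.equiv inferInstance e
  rw [← (Dim.td_eq_iff (k := ℂ) (R := Algebra.adjoin ℂ (Set.range (xl S))) (S := S.ring)).2
    inferInstance, ← Dim.td_eq_of_equiv e, Dim.td_mvPolynomial, Dim.td_self]
  rfl

theorem dim_ring (S : Surf K) : ringKrullDim S.ring = (3 : ℕ) := by
  have := S.ring_ft
  rw [Dim.dim_eq_td (k := ℂ), td_ring]

variable (h : S.All)

theorem xl_mem_wt (i : Fin 3) : xl S i ∈ (S.spc h).wt fun _ => 1 := lin_mem_wt h _

theorem cover (z : (S.spc h).Pt) : ∃ i, z.1 (xl S i) ≠ 0 :=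
  (exists_lin h z).elim fun _ hw => cover_hom (hom z) hw

theorem pt_iff' (z : S.ring →ₐ[ℂ] ℂ) : (∃ f ∈ (S.spc h).b, z f ≠ 0) ↔ ∃ i, z (xl S i) ≠ 0 :=
  (pt_iff h z).trans ⟨fun ⟨_, hw⟩ => cover_hom z hw, fun ⟨_, hi⟩ => ⟨_, hi⟩⟩

theorem isProj : (S.spc h).IsProj := by
  obtain ⟨s, hs⟩ := (Set.finite_range (xl S)).exists_finset_coe
  refine ⟨fun _ => s, fun j y hy => ?_, ?_, fun z => (pt_iff' h z).trans ?_⟩
  · obtain ⟨i, rfl⟩ : y ∈ Set.range (xl S) := hs ▸ hy
    have h1 : (Pi.single j 1 : (S.spc h).J → ℤ) = fun _ => 1 :=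
      funext fun _ => Pi.single_eq_same j _
    exact h1 ▸ xl_mem_wt h i
  · have h1 := finite_plane S
    rw [← hs, ← Set.iUnion_const (ι := Unit) (s : Set S.ring)] at h1
    exact h1
  · exact ⟨fun ⟨i, hi⟩ _ => ⟨_, hs.ge ⟨i, rfl⟩, hi⟩,
      fun h1 => (h1 ()).elim fun _ ⟨h2, h3⟩ => (hs.le h2).elim fun i hi => ⟨i, hi ▸ h3⟩⟩

theorem isVar : (S.spc h).IsVar 2 :=
  ⟨isProj h, inferInstanceAs (IsDomain S.ring),
    h.pt_ne.elim fun p => (exists_pt h p).elim fun z _ => ⟨z⟩, dim_ring S⟩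

/-! ### local generators -/

variable {h} {z : (S.spc h).Pt} {p : Pt S.W}

/-- `l₁ / w` and `l₂ / w` are regular parameters at `p` -/
structure Par (p : Pt S.W) (w l₁ l₂ : S.W) : Prop where
  mem : p.In w
  gen : maximalIdeal p.ring = Ideal.span {dehAt mem (S.lin l₁), dehAt mem (S.lin l₂)}

theorem exists_par (h : S.All) {w : S.W} (hw : p.In w) : ∃ l₁ l₂, Par p w l₁ l₂ := by
  obtain ⟨l₁, h1, l₂, h2, s, t, h3, h4, h5⟩ := h.gens p w w.2 hw
  refine ⟨⟨l₁, h1.1⟩, ⟨l₂, h2.1⟩, hw, ?_⟩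
  rw [h5, show s = dehAt hw (S.lin ⟨l₁, h1.1⟩) from
    Subtype.ext (h3.trans (deh_lin hw.1 ⟨l₁, h1.1⟩).symm),
    show t = dehAt hw (S.lin ⟨l₂, h2.1⟩) from
    Subtype.ext (h4.trans (deh_lin hw.1 ⟨l₂, h2.1⟩).symm)]

variable {w l₁ l₂ : S.W}

theorem Par.van (hp : Par p w l₁ l₂) : (l₁ : K) ∈ van p ∧ (l₂ : K) ∈ van p := by
  rw [mem_van_iff hp.mem, mem_van_iff hp.mem, ← deh_lin hp.mem.1, ← deh_lin hp.mem.1]
  exact ⟨(p.mem_max (dehAt hp.mem _)).1 (hp.gen ▸ Ideal.subset_span (by simp)),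
    (p.mem_max (dehAt hp.mem _)).1 (hp.gen ▸ Ideal.subset_span (by simp))⟩

theorem loc_form (hz : S.Over h z p) (hp : Par p w l₁ l₂) {n : ℕ} {a : K} (ha : a ∈ S.W ^ n)
    (hv : p.Van (a / w ^ n)) : ∃ (N : ℕ) (b : K) (hb : b ∈ S.W ^ N), z.1 (S.form N b hb) ≠ 0 ∧
      S.form N b hb * S.form n a ha ∈ Ideal.span {S.lin l₁, S.lin l₂} := by
  have h0 := hp.mem.1
  have h1 := (p.mem_max (dehAt hp.mem (S.form n a ha))).2 (by rwa [coe_dehAt, deh_form])
  rw [hp.gen, Ideal.mem_span_pair] at h1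
  obtain ⟨α, β, h1⟩ := h1
  have h2 := congrArg Subtype.val h1
  simp only [Subalgebra.coe_add, MulMemClass.coe_mul, coe_dehAt, deh_form, deh_lin] at h2
  obtain ⟨N₁, h3⟩ := exists_frac hz α.2
  obtain ⟨N₂, h4⟩ := exists_frac hz β.2
  obtain ⟨_, ha₁, b₁, hb₁, h5, rfl⟩ := h3 N₁ le_rfl
  obtain ⟨_, ha₂, b₂, hb₂, h6, rfl⟩ := h4 N₂ le_rfl
  refine ⟨_, _, mul_mem_pow (mul_mem_pow hb₁ hb₂) (mem_one w), ?_, Ideal.mem_span_pair.2
    ⟨S.form _ _ (mul_mem_pow (mul_mem_pow ha₁ hb₂) (pow_mem w n)),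
      S.form _ _ (mul_mem_pow (mul_mem_pow hb₁ ha₂) (pow_mem w n)), ?_⟩⟩
  · rw [← form_mul (mul_mem_pow hb₁ hb₂) (mem_one w), ← form_mul hb₁ hb₂, ← hom_apply, map_mul,
      map_mul]
    exact mul_ne_zero (mul_ne_zero h5 h6) ((over_in hz w).1 hp.mem)
  · rw [lin_eq, lin_eq, form_mul, form_mul, form_add, form_mul]
    refine form_congr _ _ (by omega) ?_
    field_simp at h2
    linear_combination b₁ * b₂ * h2

theorem loc_van (hz : S.Over h z p) (hp : Par p w l₁ l₂) (r : S.ring)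
    (hr : r ∈ (S.spc h).van {z | S.Over h z p}) :
    ∃ u : S.ring, z.1 u ≠ 0 ∧ u * r ∈ Ideal.span {S.lin l₁, S.lin l₂} := by
  let P : S.ring → Prop := fun r => ∃ u : S.ring, hom z u ≠ 0 ∧
    u * r ∈ Ideal.span {S.lin l₁, S.lin l₂}
  have h0 : P 0 := ⟨1, by simp, by simp⟩
  have h1 : ∀ x y, P x → P y → P (x + y) := fun x y ⟨u, h1, h2⟩ ⟨u', h3, h4⟩ =>
    ⟨u * u', by rw [map_mul]; exact mul_ne_zero h1 h3, by
      have h5 := add_mem (Ideal.mul_mem_left _ u' h2) (Ideal.mul_mem_left _ u h4)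
      rwa [show u' * (u * x) + u * (u' * y) = u * u' * (x + y) by ring] at h5⟩
  refine wt_induction_sub (S.spc h).span (((S.spc h).van {z | S.Over h z p}).restrictScalars ℂ)
    (Spc.van_act (S.over_stab h p)) (P := P) h0 (fun γ v hv h2 => ?_) h1 r hr
  rcases (mem_wt h).1 h2 with rfl | ⟨n, a, ha, -, rfl⟩
  · exact h0
  · obtain ⟨N, b, hb, h2⟩ := loc_form hz hp ha ((form_mem_van hp.mem ha).1 hv)
    exact ⟨_, h2⟩

theorem loc_ker (hz : S.Over h z p) (hp : Par p w l₁ l₂) (r : S.ring) (hr : z.1 r = 0) :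
    ∃ u : S.ring, z.1 u ≠ 0 ∧ u * r ∈
      Ideal.span {S.lin l₁, S.lin l₂, S.lin w - algebraMap ℂ S.ring (z.1 (S.lin w))} := by
  obtain ⟨n, hn⟩ := exists_form w ((over_in hz w).1 hp.mem) r
  obtain ⟨a, ha, h1, h2⟩ := hn n le_rfl
  obtain ⟨N, b, hb, h3, h4⟩ := loc_form hz hp ha
    ((over_form hz hp.mem ha).1 ((h2 ℂ (hom z) rfl).trans hr))
  refine ⟨_, h3, ?_⟩
  have e1 : Ideal.span {S.lin l₁, S.lin l₂} ≤
      Ideal.span {S.lin l₁, S.lin l₂, S.lin w - algebraMap ℂ S.ring (z.1 (S.lin w))} :=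
    Ideal.span_mono (Set.insert_subset_insert (Set.singleton_subset_iff.2 (Set.mem_insert _ _)))
  have e2 : Ideal.span {S.lin w - algebraMap ℂ S.ring (z.1 (S.lin w))} ≤
      Ideal.span {S.lin l₁, S.lin l₂, S.lin w - algebraMap ℂ S.ring (z.1 (S.lin w))} :=
    Ideal.span_mono (Set.singleton_subset_iff.2 (Or.inr (Or.inr rfl)))
  have h5 := add_mem (e1 h4) (Ideal.mul_mem_left _ (S.form N b hb) (e2 h1))
  rwa [← mul_add, add_sub_cancel] at h5

theorem tan_ext (hz : S.Over h z p) (hp : Par p w l₁ l₂) {D : S.ring →ₗ[ℂ] ℂ}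
    (hD : D ∈ Tan (hom z)) (h1 : D (S.lin l₁) = 0) (h2 : D (S.lin l₂) = 0)
    (h3 : D (S.lin w) = 0) : D = 0 := by
  have h4 : ∀ c, D (algebraMap ℂ S.ring c) = 0 := fun c => by
    have h5 := hD 1 1
    rw [mul_one, map_one (hom z), one_mul, left_eq_add] at h5
    rw [Algebra.algebraMap_eq_smul_one, map_smul, h5, smul_zero]
  have h5 : ∀ r ∈ Ideal.span {S.lin l₁, S.lin l₂,
      S.lin w - algebraMap ℂ S.ring (hom z (S.lin w))}, hom z r = 0 ∧ D r = 0 := by
    intro r hr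
    induction hr using Submodule.span_induction with
    | mem x hx =>
      rcases hx with rfl | rfl | rfl
      · exact ⟨(hz _).2 hp.van.1, h1⟩
      · exact ⟨(hz _).2 hp.van.2, h2⟩
      · simp [h3, h4]
    | zero => simp
    | add x y _ _ hx hy => simp [hx, hy]
    | smul c x _ hx => rw [smul_eq_mul, map_mul, hD c x, hx.1, hx.2]; simp
  ext r
  have h6 : hom z (r - algebraMap ℂ S.ring (hom z r)) = 0 := by simp
  obtain ⟨u, h7, h8⟩ := loc_ker hz hp _ h6
  have h9 := (h5 _ h8).2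
  rw [hD, h6, zero_mul, add_zero, map_sub, h4, sub_zero] at h9
  exact (mul_eq_zero.1 h9).resolve_left h7

theorem tan_le (z : (S.spc h).Pt) :
    FiniteDimensional ℂ (Tan (hom z)) ∧ Module.finrank ℂ (Tan (hom z)) ≤ 3 := by
  obtain ⟨p, hz⟩ := exists_over z
  obtain ⟨w, hw⟩ := exists_lin h z
  obtain ⟨l₁, l₂, hp⟩ := exists_par h ((over_in hz w).2 hw)
  let φ : Tan (hom z) →ₗ[ℂ] (Fin 3 → ℂ) := LinearMap.pi fun i =>
    LinearMap.applyₗ (S.lin (![l₁, l₂, w] i)) ∘ₗ (Tan (hom z)).subtype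
  have h1 : Function.Injective φ := (injective_iff_map_eq_zero _).2 fun D hD =>
    Subtype.ext (tan_ext hz hp D.2 (congrFun hD 0) (congrFun hD 1) (congrFun hD 2))
  exact ⟨Module.Finite.of_injective φ h1,
    (LinearMap.finrank_le_finrank_of_injective h1).trans (by simp)⟩

theorem ker_isMaximal (y : S.ring →ₐ[ℂ] ℂ) : (RingHom.ker y).IsMaximal :=
  RingHom.ker_isMaximal_of_surjective y fun c => ⟨algebraMap ℂ _ c, y.commutes c⟩

theorem height_ker (y : S.ring →ₐ[ℂ] ℂ) : (RingHom.ker y).height = (3 : ℕ) := by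
  have := S.ring_ft
  have := ker_isMaximal y
  rw [Dim.height_maximal (k := ℂ), td_ring]

theorem max_eq (hz : S.Over h z p) (hp : Par p w l₁ l₂) (A : Type) [CommRing A] [Algebra S.ring A]
    [(RingHom.ker (hom z)).IsPrime] [IsLocalization.AtPrime A (RingHom.ker (hom z))]
    [IsLocalRing A] : maximalIdeal A = Ideal.span (algebraMap S.ring A ''
      {S.lin l₁, S.lin l₂, S.lin w - algebraMap ℂ S.ring (hom z (S.lin w))}) := by
  rw [← IsLocalization.AtPrime.map_eq_maximalIdeal (RingHom.ker (hom z)) A, ← Ideal.map_span]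
  refine le_antisymm (Ideal.map_le_iff_le_comap.2 fun r hr => ?_) (Ideal.map_mono
    (Ideal.span_le.2 ?_))
  · obtain ⟨u, h1, h2⟩ := loc_ker hz hp r hr
    have h3 := Ideal.mem_map_of_mem (algebraMap S.ring A) h2
    rw [map_mul] at h3
    exact (Ideal.unit_mul_mem_iff_mem _
      (IsLocalization.map_units A (⟨u, h1⟩ : (RingHom.ker (hom z)).primeCompl))).1 h3
  · rintro _ (rfl | rfl | rfl)
    · exact (hz _).2 hp.van.1
    · exact (hz _).2 hp.van.2
    · simp

theorem regular (z : (S.spc h).Pt) [(RingHom.ker (hom z)).IsPrime] :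
    IsRegularLocalRing (Localization.AtPrime (RingHom.ker (hom z))) := by
  obtain ⟨p, hz⟩ := exists_over z
  obtain ⟨w, hw⟩ := exists_lin h z
  obtain ⟨l₁, l₂, hp⟩ := exists_par h ((over_in hz w).2 hw)
  have := S.ring_ft
  have : IsNoetherianRing S.ring := Algebra.FiniteType.isNoetherianRing ℂ _
  refine IsRegularLocalRing.of_spanFinrank_maximalIdeal_le _ ?_
  rw [IsLocalization.AtPrime.ringKrullDim_eq_height (RingHom.ker (hom z)), height_ker,
    max_eq hz hp (Localization.AtPrime (RingHom.ker (hom z)))]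
  have h1 := (Submodule.spanFinrank_span_le_ncard_of_finite
    (R := Localization.AtPrime (RingHom.ker (hom z))) ((Set.toFinite {S.lin l₁, S.lin l₂,
      S.lin w - algebraMap ℂ S.ring (hom z (S.lin w))}).image (algebraMap S.ring
        (Localization.AtPrime (RingHom.ker (hom z)))))).trans ((Set.ncard_image_le
          (Set.toFinite _)).trans ((Set.ncard_insert_le _ _).trans
            (Nat.succ_le_succ ((Set.ncard_insert_le _ _).trans_eq
              (congrArg (· + 1) (Set.ncard_singleton _))))))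
  exact_mod_cast h1

end Vale.Agent.P297Z.Sf.SA
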