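import Vale.Agent.P297Z.Surf.SspB1
import Vale.Agent.P297Z.K.AK2
import Vale.Agent.P297Z.Top.Fin

/-!
# The classes of the line bundles and of the points of the surface
-/

set_option linter.all false

open scoped TensorProduct

noncomputable section

namespace Vale.Agent.P297Z.Sf.Sl

open LaurentPolynomial SA

variable {K : Type} [Field K] [Algebra ℂ K] (S : Surf K) (h : S.All)

theorem rk_lK (D : Div S.W) : rk _ (S.lK h D) = 1 := rk_kc (lb_isBun S h D)

theorem lK_add (D D' : Div S.W) : S.lK h (D + D') = S.lK h D * S.lK h D' :=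
  (kc_qis (qis_mul S h D D') 1).symm.trans (kc_ten (lb_isBun S h D) (lb_isBun S h D'))

theorem lK_zero : S.lK h 0 = 1 := (kc_qis (qis_one S h) 1).symm.trans kc_one

theorem lK_add_div (D : Div S.W) {g : K} (hg : g ≠ 0) : S.lK h (D + div S.W g) = S.lK h D :=
  (kc_qis (qis_div S h D hg) 1).trans (kc_qis (AK.qis_shift_zero _) 1)

theorem lK_div (g : K) (hg : g ≠ 0) : S.lK h (div S.W g) = 1 := by
  rw [← zero_add (div S.W g), lK_add_div S h 0 hg, lK_zero]

theorem lK_lin {D D' : Div S.W} (hl : Lin D D') : S.lK h D = S.lK h D' := by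
  obtain ⟨g, hg, rfl⟩ := hl
  exact (lK_add_div S h D hg).symm

theorem lK_add_H (D : Div S.W) (m : ℤ) :
    S.lK h (D + m • S.H) = line (S.spc h) (fun _ => m) * S.lK h D :=
  (kc_qis (qis_H S h D m) 1).trans (kc_shift (lb_isBun S h D) _)

theorem lK_H (m : ℤ) : S.lK h (m • S.H) = line (S.spc h) fun _ => m := by
  rw [← zero_add (m • S.H), lK_add_H, lK_zero, mul_one]

theorem lK_mul_neg (D : Div S.W) : S.lK h D * S.lK h (-D) = 1 := by
  rw [← lK_add, add_neg_cancel, lK_zero]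

theorem lK_sub (D D' : Div S.W) : S.lK h (D - D') = S.lK h D * S.lK h (-D') := by
  rw [← lK_add, sub_eq_add_neg]

theorem lK_nsmul (n : ℕ) (D : Div S.W) : S.lK h (n • D) = S.lK h D ^ n := by
  induction n with
  | zero => rw [zero_smul, pow_zero, lK_zero]
  | succ n ih => rw [succ_nsmul, lK_add, ih, pow_succ]

theorem kact_lK_oG (D : Div S.W) : kact _ (S.lK h D) (oG _) = cls (S.lb h D) :=
  kact_oG (lb_isBun S h D)

theorem pts : PTS := fun _ _ _ S h => ⟨exists_pt h, rk_lK S h⟩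

/-- the module of the point `p` -/
def ptM (p : Pt S.W) : GMod (S.spc h) :=
  (GMod.one (S.spc h)).quo ((S.spc h).van {z | S.Over h z p}) (S.van_stab h p)

theorem ptG_eq_cls (p : Pt S.W) : S.ptG h p = cls (ptM S h p) := rfl

theorem exists_kill {p : Pt S.W} {z : (S.spc h).Pt} (hz : ¬ S.Over h z p) :
    ∃ r ∈ (S.spc h).van {z | S.Over h z p}, z.1 r ≠ 0 := by
  obtain ⟨q, hq⟩ := exists_over z
  obtain ⟨w, h1, h2⟩ := h.sep p q fun e => hz (e ▸ hq)
  exact ⟨S.lin ⟨w, h1.1⟩, (lin_mem_van _).2 h1, (over_in hq ⟨w, h1.1⟩).1 h2⟩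

theorem ten_kill {R A : Type} [CommRing R] [AddCommGroup A] [Module R A] {I : Ideal R} {r : R}
    (hr : r ∈ I) (x : A ⊗[R] (R ⧸ I)) : r • x = 0 := by
  induction x using TensorProduct.induction_on with
  | zero => exact smul_zero r
  | add x y hx hy => rw [smul_add, hx, hy, add_zero]
  | tmul a q =>
    obtain ⟨q, rfl⟩ := Submodule.Quotient.mk_surjective _ q
    rw [← TensorProduct.tmul_smul, ← Submodule.Quotient.mk_smul, smul_eq_mul,
      (Submodule.Quotient.mk_eq_zero _).2 (I.mul_mem_right q hr), TensorProduct.tmul_zero]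

theorem kact_ptG_of_gen (D : Div S.W) (p : Pt S.W) {a : K} (ha : a ∈ H0 D) (hg : GenAt p D a) :
    kact _ (S.lK h D) (S.ptG h p) = S.ptG h p := by
  have e : D + (0 : ℤ) • S.H = D := by rw [zero_smul, add_zero]
  have ha' : a ∈ M D 0 := by rwa [M, e]
  let σ : (S.lb h D).M := S.sec 0 a ha'
  let f : (GMod.one (S.spc h)).M →ₗ[(S.spc h).R] (S.lb h D).M :=
    LinearMap.toSpanSingleton (S.spc h).R _ σ
  have hf : (GMod.one (S.spc h)).IsHom (S.lb h D) f := GMod.isHom_of_wt fun γ r hr => by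
    have := GMod.smul_mem_wt (M := S.lb h D) hr (sec_mem_wt S h 0 a ha')
    exact (add_zero γ : γ + (fun _ => 0) = γ) ▸ this
  refine (kact_kc (lb_isBun S h D) (ptM S h p)).trans
    (Eq.trans (cls_of_bij (hf.ten (GMod.IsHom.id (ptM S h p))) fun z => ?_).symm
      (cls_qis (AK.qis_lid _)))
  by_cases hz : S.Over h z p
  · have h1 : IsoAt z.1 f := by
      refine isoAt_of_surjAt (GMod.isBun_one _ z) (lb_isBun S h _ z) fun x => ?_
      obtain ⟨r, u, h1, h2⟩ := lb_gen S h D p z hz 0 a ha' (e.symm ▸ hg) x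
      exact ⟨r, u, h1, h2.symm⟩
    have h2 := AK.iso_map h1 (IsoAt.id (A := (ptM S h p).M))
    exact ⟨h2.injAt, h2.surjAt⟩
  · obtain ⟨r, h1, h2⟩ := exists_kill S h hz
    exact ⟨fun x _ => ⟨r, h2, ten_kill h1 x⟩,
      fun x => ⟨r, 0, h2, (map_zero _).trans (ten_kill h1 x).symm⟩⟩

theorem kact_ptG (D : Div S.W) (p : Pt S.W) : kact _ (S.lK h D) (S.ptG h p) = S.ptG h p := by
  obtain ⟨m, hm⟩ := h.gen_sec D
  obtain ⟨m', hm'⟩ := h.gen_sec 0
  obtain ⟨a, ha, hg⟩ := hm (max m m') (le_max_left _ _) p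
  obtain ⟨b, hb, hg'⟩ := hm' (max m m') (le_max_right _ _) p
  have h1 := kact_ptG_of_gen S h _ p ha hg
  have h2 := kact_ptG_of_gen S h _ p hb hg'
  rw [zero_add] at h2
  rwa [lK_add, kact_mul, h2] at h1

theorem kact_line_ptG (m : ℤ) (p : Pt S.W) :
    kact _ (line (S.spc h) fun _ => m) (S.ptG h p) = S.ptG h p := by
  rw [← lK_H, kact_ptG]

theorem finrank_ptM (p : Pt S.W) (γ : Unit → ℤ) (hγ : 0 ≤ γ ()) :
    Module.finrank ℂ ((ptM S h p).wt γ) = 1 := by
  obtain ⟨w, hW, hi⟩ := p.exists_in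
  lift w to S.W using hW
  let I := (S.spc h).van {z | S.Over h z p}
  have hq := GMod.isHom_mkQ (GMod.one (S.spc h)) I (S.van_stab h p)
  obtain ⟨n, hn⟩ := Int.eq_ofNat_of_zero_le hγ
  obtain rfl : γ = fun _ => (n : ℤ) := funext fun _ => hn
  refine finrank_eq_one ⟨_, hq.map_wt (form_mem_wt h (SA.pow_mem w n))⟩ (fun e => ?_) fun x => ?_
  · have h1 := (form_mem_van hi (SA.pow_mem w n)).1
      ((Submodule.Quotient.mk_eq_zero I).1 (congrArg Subtype.val e))
    rw [div_self (pow_ne_zero n hi.1)] at h1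
    exact p.not_van_one h1
  · obtain ⟨x, hx⟩ := x
    obtain ⟨r, rfl⟩ := Submodule.Quotient.mk_surjective I x
    obtain ⟨r', h1, h2⟩ := hq.exists_preimage hx
    have h3 : ∃ (a : K) (ha : a ∈ S.W ^ n), r' = S.form n a ha := by
      rcases (SA.mem_wt h).1 h1 with e | ⟨k, a, ha, e1, e2⟩
      · exact ⟨0, zero_mem _, e.trans (form_zero n).symm⟩
      · obtain rfl : n = k := Int.ofNat.inj e1
        exact ⟨a, ha, e2⟩
    obtain ⟨a, ha, rfl⟩ := h3
    let c := ev h p (dehAt hi (S.form n a ha))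
    refine ⟨c, Subtype.ext (Eq.trans ?_ h2)⟩
    refine (Submodule.Quotient.eq I).2 ?_
    have h4 : (c • S.form n _ (SA.pow_mem w n) - S.form n a ha : S.ring) =
        S.form n (c • (w : K) ^ n - a) (sub_mem (Submodule.smul_mem _ c (SA.pow_mem w n)) ha) := by
      rw [sub_eq_iff_eq_add, form_smul, form_add]
      exact form_congr _ _ rfl (sub_add_cancel _ _).symm
    refine h4.symm ▸ (form_mem_van hi _).2 ?_
    have h5 := ((ev_eq h (dehAt hi (S.form n a ha)) c).1 rfl).neg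
    rw [coe_dehAt, deh_form] at h5
    rw [sub_div, smul_div_assoc, div_self (pow_ne_zero n hi.1), ← Algebra.algebraMap_eq_smul_one,
      ← neg_sub]
    exact h5

end Vale.Agent.P297Z.Sf.Sl
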