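import Vale.Agent.P297Z.Surf.SspA
import Vale.Agent.P297Z.K.AK1
import Vale.Agent.P297Z.K.AG

/-!
# The line bundles of the surface as modules on the space
-/

set_option linter.all false

open scoped TensorProduct

noncomputable section

namespace Vale.Agent.P297Z.Sf.Sl

open LaurentPolynomial SA

variable {K : Type} [Field K] [Algebra ℂ K] (S : Surf K) (h : S.All)

theorem mon_one : mon (1 : K) 0 = 1 := by simp [mon]

theorem coe_sec {D : Div S.W} (m : ℤ) (a : K) (ha : a ∈ M D m) :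
    (S.sec m a ha : K[T;T⁻¹]) = mon a m := rfl

theorem coe_smul {D : Div S.W} (r : S.ring) (x : S.lbS D) :
    ((r • x : S.lbS D) : K[T;T⁻¹]) = (r : K[T;T⁻¹]) * x := rfl

theorem sec_mem_wt {D : Div S.W} (m : ℤ) (a : K) (ha : a ∈ M D m) :
    S.sec m a ha ∈ (S.lb h D).wt fun _ => m := fun g => S.actM_sec g m a ha

theorem mem_lb_wt (D : Div S.W) (γ : Unit → ℤ) (x : S.lbS D) :
    x ∈ (S.lb h D).wt γ ↔ ∃ (a : K) (ha : a ∈ M D (γ ())), x = S.sec (γ ()) a ha := by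
  constructor
  · intro hx
    refine ⟨_, x.2 (γ ()), Subtype.ext (eq_mon_of_scale fun g => ?_)⟩
    have h1 : scale K g x = chr γ (fun _ => g) • (x : K[T;T⁻¹]) :=
      congrArg Subtype.val (hx fun _ => g)
    rwa [chr_unit] at h1
  · rintro ⟨a, ha, rfl⟩
    exact sec_mem_wt S h _ a ha

/-- the sections of a given degree, as a linear map -/
def secL (D : Div S.W) (m : ℤ) : M D m →ₗ[ℂ] S.lbS D where
  toFun a := S.sec m a a.2
  map_add' a b := Subtype.ext (mon_add _ _ _)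
  map_smul' c a := Subtype.ext (mon_smul _ _ _)

theorem secL_inj (D : Div S.W) (m : ℤ) : Function.Injective (secL S D m) :=
  fun a b e => Subtype.ext (monL_injective m (congrArg Subtype.val e))

theorem range_secL (D : Div S.W) (γ : Unit → ℤ) :
    LinearMap.range (secL S D (γ ())) = (S.lb h D).wt γ := by
  ext x
  refine Iff.trans ?_ (mem_lb_wt S h D γ x).symm
  exact ⟨fun ⟨a, e⟩ => ⟨a, a.2, e.symm⟩, fun ⟨a, ha, e⟩ => ⟨⟨a, ha⟩, e.symm⟩⟩

theorem finrank_lb_wt (D : Div S.W) (γ : Unit → ℤ) :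
    Module.finrank ℂ ((S.lb h D).wt γ) = Module.finrank ℂ (M D (γ ())) := by
  exact (congrArg (fun N : Submodule ℂ (S.lbS D) => Module.finrank ℂ N)
    (range_secL S h D γ)).symm.trans (LinearMap.finrank_range_of_inj (secL_inj S D _))

include h in
theorem quot_mem {D : Div S.W} {p : Pt S.W} {w : K} (hW : w ∈ S.W) (hw : p.In w) {m n : ℤ}
    {a b : K} (hg : GenAt p (D + m • S.H) a) (hb : b ∈ M D n) :
    b / a * w ^ (m - n) ∈ p.ring := by
  by_cases h0 : b = 0
  · simp [h0]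
  refine (h.normal p _).1 (Or.inr fun C hC => ?_)
  have h1 := hb.resolve_left h0 C trivial
  have h2 := hg.2 C hC
  have h3 := h.hyp_in C w hW (hC.crv_in hw)
  have h4 := Pl.ord_mul C.pl (div_ne_zero h0 hg.1) (zpow_ne_zero (m - n) hw.1)
  rw [Pl.ord_div _ h0 hg.1, Pl.ord_zpow] at h4
  simp only [Finsupp.add_apply, Finsupp.smul_apply, smul_eq_mul, Finsupp.coe_zero,
    Pi.zero_apply] at *
  unfold Surf.H at *
  rw [h3] at h1 h2
  unfold Crv.ord at *
  rw [h4]
  linarith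

/-- a section that generates the stalk at `p` generates the module at the points over `p` -/
theorem lb_gen (D : Div S.W) (p : Pt S.W) (z : (S.spc h).Pt) (hz : S.Over h z p) (m : ℤ) (a : K)
    (ha : a ∈ M D m) (hg : GenAt p (D + m • S.H) a) (x : S.lbS D) :
    ∃ r u : S.ring, z.1 r ≠ 0 ∧ r • x = u • S.sec m a ha := by
  obtain ⟨i, hi⟩ := h.pt_cover p
  let w : S.W := ⟨S.x i, S.x_mem i⟩
  change ∃ r u : S.ring, hom z r ≠ 0 ∧ _
  induction x using S.lbS_induction with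
  | h0 => exact ⟨1, 0, ev_one, by rw [smul_zero, zero_smul]⟩
  | ha f g hf hg =>
    obtain ⟨r, u, h1, h2⟩ := hf
    obtain ⟨r', u', h3, h4⟩ := hg
    refine ⟨r * r', r' * u + r * u', ev_mul h1 h3, ?_⟩
    rw [smul_add, add_smul, mul_smul r r' g, h4, mul_comm r r', mul_smul r' r f, h2, mul_smul,
      mul_smul]
  | hm n b hb =>
    obtain ⟨N, hN⟩ := exists_frac hz (quot_mem S h w.2 hi hg hb)
    obtain ⟨c, hc, d, hd, h1, h2⟩ := hN N le_rfl
    have h3 : hom z (S.lin w) ≠ 0 := (over_in hz w).1 hi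
    refine ⟨S.form N d hd * S.lin w ^ (m - n).toNat, S.form N c hc * S.lin w ^ (n - m).toNat,
      ev_mul h1 (ev_pow h3 _), Subtype.ext ?_⟩
    change mon d N * mon (w : K) 1 ^ _ * mon b n = mon c N * mon (w : K) 1 ^ _ * mon a m
    rw [mon_pow, mon_pow, mon_mul, mon_mul, mon_mul, mon_mul, ← h2]
    refine congrArg₂ mon ?_ (by omega)
    · have h4 : (w : K) ^ (m - n) * w ^ (n - m).toNat = w ^ (m - n).toNat := by
        rw [← zpow_natCast, ← zpow_natCast, ← zpow_add₀ hi.1]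
        congr 1
        omega
      rw [← h4]
      have := hg.1
      field_simp

theorem sec_ne {D : Div S.W} {m : ℤ} {a : K} (ha : a ∈ M D m) (h0 : a ≠ 0) : S.sec m a ha ≠ 0 :=
  fun e => mon_ne_zero h0 m (congrArg Subtype.val e)

theorem smul_eq_zero' {D : Div S.W} {r : S.ring} {x : S.lbS D} (e : r • x = 0) : r = 0 ∨ x = 0 :=
  (mul_eq_zero.1 (congrArg Subtype.val e :)).imp Subtype.ext Subtype.ext

/-- a local generator -/
theorem exists_gen (D : Div S.W) : ∃ m₀ : ℤ, ∀ m, m₀ ≤ m → ∀ z : (S.spc h).Pt,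
    ∃ (a : K) (ha : a ∈ M D m), a ≠ 0 ∧
      ∀ x : S.lbS D, ∃ r u : S.ring, z.1 r ≠ 0 ∧ r • x = u • S.sec m a ha := by
  obtain ⟨m₀, hm⟩ := h.gen_sec D
  refine ⟨m₀, fun m hm' z => ?_⟩
  obtain ⟨p, hp⟩ := exists_over z
  obtain ⟨a, ha, hg⟩ := hm m hm' p
  exact ⟨a, ha, hg.1, lb_gen S h D p z hp m a ha hg⟩

theorem lb_isBun (D : Div S.W) : (S.lb h D).IsBun 1 := by
  intro z
  obtain ⟨m, hm⟩ := exists_gen S h D
  obtain ⟨a, ha, h0, hg⟩ := hm m le_rfl z
  let σ : (S.lb h D).M := S.sec m a ha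
  refine freeAt_one.of_isoAt (f := LinearMap.toSpanSingleton (S.spc h).R _ σ)
    (isoAt_of (InjAt.of_inj ?_) fun x => ?_)
  · refine (injective_iff_map_eq_zero _).2 fun r e => ?_
    exact (smul_eq_zero' S e).resolve_right (sec_ne S ha h0)
  · obtain ⟨r, u, h1, h2⟩ := hg x
    exact ⟨r, u, h1, h2.symm⟩

/-- the multiplication of sections -/
def mulL (D D' : Div S.W) : S.lbS D ⊗[S.ring] S.lbS D' →ₗ[S.ring] S.lbS (D + D') :=
  TensorProduct.lift (LinearMap.mk₂ S.ring (fun f g => ⟨f.1 * g.1, S.mul_mem_lbS f.2 g.2⟩)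
    (fun a b c => Subtype.ext (add_mul a.1 b.1 c.1))
    (fun r a b => Subtype.ext (mul_assoc r.1 a.1 b.1))
    (fun a b c => Subtype.ext (mul_add a.1 b.1 c.1))
    (fun r a b => Subtype.ext (mul_left_comm a.1 r.1 b.1)))

theorem mulL_tmul {D D' : Div S.W} (f : S.lbS D) (g : S.lbS D') :
    (mulL S D D' (f ⊗ₜ g) : K[T;T⁻¹]) = f * g := rfl

theorem genAt_mul {W : Submodule ℂ K} {p : Pt W} {D D' : Div W} {a b : K} (ha : GenAt p D a)
    (hb : GenAt p D' b) : GenAt p (D + D') (a * b) := by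
  refine ⟨mul_ne_zero ha.1 hb.1, fun C hC => ?_⟩
  have h1 := ha.2 C hC
  have h2 := hb.2 C hC
  have h3 := Pl.ord_mul C.pl ha.1 hb.1
  rw [Finsupp.add_apply]
  unfold Crv.ord at *
  omega

theorem qis_mul (D D' : Div S.W) :
    GMod.Qis ((S.lb h D).ten (S.lb h D')) (S.lb h (D + D')) (mulL S D D') := by
  refine ⟨GMod.isHom_ten fun t x y => Subtype.ext (scale_mul (t ()) x.1 y.1).symm, fun z => ?_⟩
  refine isoAt_of_surjAt (((lb_isBun S h D).ten (lb_isBun S h D')) z) (lb_isBun S h _ z)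
    fun x => ?_
  obtain ⟨p, hp⟩ := exists_over z
  obtain ⟨m, hm⟩ := h.gen_sec D
  obtain ⟨m', hm'⟩ := h.gen_sec D'
  obtain ⟨a, ha, hg⟩ := hm m le_rfl p
  obtain ⟨b, hb, hg'⟩ := hm' m' le_rfl p
  have h1 : GenAt p (D + D' + (m + m') • S.H) (a * b) := by
    have := genAt_mul hg hg'
    rwa [add_add_add_comm, ← add_smul] at this
  obtain ⟨r, u, h2, h3⟩ := lb_gen S h _ p z hp _ _ (mul_mem_M ha hb) h1 x
  refine ⟨r, u • (S.sec m a ha ⊗ₜ[S.ring] S.sec m' b hb), h2, ?_⟩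
  refine ((mulL S D D').map_smul u _).trans (Eq.trans ?_ h3.symm)
  exact congrArg (u • ·) (Subtype.ext (mon_mul a b m m'))

/-- the inclusion of the coordinate ring in the module of all sections -/
def oneL : S.ring →ₗ[S.ring] S.lbS 0 where
  toFun r := ⟨r, S.ring_le_lbS r⟩
  map_add' _ _ := rfl
  map_smul' _ _ := rfl

theorem qis_one : GMod.Qis (GMod.one (S.spc h)) (S.lb h 0) (oneL S) := by
  refine ⟨fun _ _ => rfl, fun z => ?_⟩
  refine isoAt_of_surjAt (GMod.isBun_one _ z) (lb_isBun S h _ z) fun x => ?_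
  obtain ⟨p, hp⟩ := exists_over z
  have h1 : GenAt p ((0 : Div S.W) + (0 : ℤ) • S.H) 1 :=
    ⟨one_ne_zero, fun C _ => by simpa using C.ord_const 1⟩
  obtain ⟨r, u, h2, h3⟩ := lb_gen S h 0 p z hp 0 1 (S.mon_mem_lbS.1 (by
    rw [mon_one]; exact S.ring_le_lbS 1)) h1 x
  refine ⟨r, u, h2, Eq.trans (Subtype.ext ?_) h3.symm⟩
  change u.1 = u.1 * mon 1 0
  rw [mon_one, mul_one]

/-- the multiplication by a monomial -/
def monE {D D' : Div S.W} {g : K} (hg : g ≠ 0) (k : ℤ)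
    (e : ∀ a m, a ∈ M D m ↔ g * a ∈ M D' (k + m)) : S.lbS D ≃ₗ[S.ring] S.lbS D' where
  toFun f := ⟨mon g k * f, by
    induction f using S.lbS_induction with
    | h0 => simpa using zero_mem _
    | hm m a ha => rw [coe_sec, mon_mul]; exact S.mon_mem_lbS.2 ((e a m).1 ha)
    | ha f f' h1 h2 => rw [Submodule.coe_add, mul_add]; exact add_mem h1 h2⟩
  invFun f := ⟨mon g⁻¹ (-k) * f, by
    induction f using S.lbS_induction with
    | h0 => simpa using zero_mem _
    | hm m a ha =>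
      rw [coe_sec, mon_mul]
      exact S.mon_mem_lbS.2 ((e _ _).2 (by rwa [mul_inv_cancel_left₀ hg, add_neg_cancel_left]))
    | ha f f' h1 h2 => rw [Submodule.coe_add, mul_add]; exact add_mem h1 h2⟩
  map_add' a b := Subtype.ext (mul_add _ a.1 b.1)
  map_smul' r a := Subtype.ext (mul_left_comm _ r.1 a.1)
  left_inv f := Subtype.ext (by
    change mon g⁻¹ (-k) * (mon g k * f) = f
    rw [← mul_assoc, mon_mul, inv_mul_cancel₀ hg, neg_add_cancel, mon_one, one_mul])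
  right_inv f := Subtype.ext (by
    change mon g k * (mon g⁻¹ (-k) * f) = f
    rw [← mul_assoc, mon_mul, mul_inv_cancel₀ hg, add_neg_cancel, mon_one, one_mul])

theorem monE_hom {D D' : Div S.W} {g : K} (hg : g ≠ 0) (k : ℤ)
    (e : ∀ a m, a ∈ M D m ↔ g * a ∈ M D' (k + m)) :
    (S.lb h D).IsHom ((S.lb h D').shift fun _ => k) (monE S hg k e).toLinearMap := by
  refine GMod.isHom_of_wt fun γ x hx => GMod.mem_shift_wt.2 ?_
  obtain ⟨a, ha, rfl⟩ := (mem_lb_wt S h D γ x).1 hx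
  refine (mem_lb_wt S h D' _ _).2 ⟨g * a, ?_, Subtype.ext ?_⟩
  · exact (add_comm k (γ ()) ▸ (e a _).1 ha : g * a ∈ M D' (γ () + k))
  · exact (mon_mul g a k (γ ())).trans (congrArg (mon (g * a)) (add_comm k (γ ())))

theorem mem_M_H (D : Div S.W) (k : ℤ) (a : K) (m : ℤ) :
    a ∈ M (D + k • S.H) m ↔ 1 * a ∈ M D (k + m) := by
  rw [one_mul, M, M, add_smul, add_assoc]

include h in
theorem mem_M_div (D : Div S.W) {g : K} (hg : g ≠ 0) (a : K) (m : ℤ) :
    a ∈ M (D + div S.W g) m ↔ g * a ∈ M D (0 + m) := by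
  by_cases h0 : a = 0
  · simp [h0]
  refine or_congr (by simp [hg]) (forall_congr' fun C => imp_congr_right fun _ => ?_)
  have h1 := Pl.ord_mul C.pl hg h0
  have h2 : div S.W g C = C.ord g := toDiv_apply (h.fin_div g) C
  simp only [Finsupp.add_apply, zero_add, h2]
  unfold Crv.ord at *
  omega

theorem qis_H (D : Div S.W) (k : ℤ) : GMod.Qis (S.lb h (D + k • S.H))
    ((S.lb h D).shift fun _ => k) (monE S one_ne_zero k (mem_M_H S D k)).toLinearMap :=
  GMod.qis_of_equiv _ (monE_hom S h _ k _)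

theorem qis_div (D : Div S.W) {g : K} (hg : g ≠ 0) : GMod.Qis (S.lb h (D + div S.W g))
    ((S.lb h D).shift fun _ => 0) (monE S hg 0 (mem_M_div S h D hg)).toLinearMap :=
  GMod.qis_of_equiv _ (monE_hom S h _ 0 _)

end Vale.Agent.P297Z.Sf.Sl
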