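import Vale.Agent.P297Z.Surf.SspB2
import Vale.Agent.P297Z.Surf.SspA2
import Vale.Agent.P297Z.K.AK3
import Vale.Agent.P297Z.K.Rec
import Vale.Agent.P297Z.K.AS

/-!
# Duals and Euler characteristics of the line bundles of the surface
-/

set_option linter.all false

noncomputable section

namespace Vale.Agent.P297Z.Sf.Sl

variable {K : Type} [Field K] [Algebra ℂ K] (S : Surf K) (h : S.All)

theorem lK_neg (D : Div S.W) : S.lK h (-D) = dualK _ (S.lK h D) := by
  have h1 : S.lK h D * dualK _ (S.lK h D) = 1 := kc_mul_dual (lb_isBun S h D)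
  rw [← mul_one (S.lK h (-D)), ← h1, ← mul_assoc, mul_comm (S.lK h (-D)), lK_mul_neg, one_mul]

theorem chiG_lb (D : Div S.W) : chiG _ (cls (S.lb h D)) = chi D := by
  refine Extr.unique ⟨fun _ => Function.bijective_id, fun _ _ _ => rfl⟩
    (chiG_spec (SA.isProj h) (S.lb h D)) ⟨fun k => chi (D + k () • S.H), fun e => ?_, ?_, ?_⟩
  · refine ⟨[(), (), ()], funext fun k => ?_⟩
    have h1 := h.third (D + (k () - 1 - 1 - 1) • S.H)
    have e1 : D + (k () - 1 - 1 - 1) • S.H + 3 • S.H = D + k () • S.H := by module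
    have e2 : D + (k () - 1 - 1 - 1) • S.H + 2 • S.H = D + (k () - 1) • S.H := by module
    have e3 : D + (k () - 1 - 1 - 1) • S.H + S.H = D + (k () - 1 - 1) • S.H := by module
    rw [e1, e2, e3] at h1
    change chi (D + k () • S.H) - chi (D + (k () - 1) • S.H) -
      (chi (D + (k () - 1) • S.H) - chi (D + (k () - 1 - 1) • S.H)) -
      (chi (D + (k () - 1) • S.H) - chi (D + (k () - 1 - 1) • S.H) -
      (chi (D + (k () - 1 - 1) • S.H) - chi (D + (k () - 1 - 1 - 1) • S.H))) = 0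
    linarith
  · obtain ⟨m₀, hm⟩ := h.large D
    exact ⟨fun _ => m₀, fun k hk => (hm (k ()) (hk ())).symm.trans
      (congrArg Nat.cast (finrank_lb_wt S h D k).symm)⟩
  · change chi D = chi (D + (0 : ℤ) • S.H)
    rw [zero_smul, add_zero]

theorem chiG_lK (D : Div S.W) : chiG _ (kact _ (S.lK h D) (oG _)) = chi D := by
  rw [kact_lK_oG, chiG_lb]

theorem chiG_oG : chiG _ (oG (S.spc h)) = chi (0 : Div S.W) := by
  rw [← chiG_lK S h 0, lK_zero, kact_one]

theorem chiG_inter (D D' : Div S.W) :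
    chiG _ (kact _ ((S.lK h D - 1) * (S.lK h D' - 1)) (oG _)) = inter D D' := by
  have e : (S.lK h D - 1) * (S.lK h D' - 1) =
      S.lK h (D + D') - S.lK h D - S.lK h D' + S.lK h 0 := by
    rw [lK_add, lK_zero]; ring
  rw [e]
  simp only [map_add, map_sub, AddMonoidHom.add_apply, AddMonoidHom.sub_apply, chiG_lK]
  rfl

theorem chiG_ptG (p : Pt S.W) : chiG _ (S.ptG h p) = 1 := by
  obtain ⟨k₀, hk⟩ := chiG_shift (SA.isProj h) (ptM S h p)
  have h1 := hk (fun _ => max (k₀ ()) 0) fun _ => le_max_left _ _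
  rw [← kact_line_ptG S h (max (k₀ ()) 0) p]
  exact ((congrArg (chiG _) (kact_line _ _)).trans h1).trans
    (congrArg Nat.cast (finrank_ptM S h p _ (le_max_right _ _)))

end Vale.Agent.P297Z.Sf.Sl
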