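import Vale.Agent.P297Z.Surf.BR1c

/-! An ample divisor has a very ample multiple: the dictionary. -/

set_option linter.all false

open CategoryTheory TopologicalSpace Opposite AlgebraicGeometry Order IsLocalRing

namespace Vale.Agent.P297Z.Sf

open Vale.Agent.P297 (ClosedPt)
open Vale.Agent.P299

namespace BR1x

variable {X : S.PVar} {D : S.Div X} {W : Submodule ℂ (S.K X)}

/-- Every localisation of a chart is the local ring at a point. -/
theorem Sys.exists_pt (h : Sys X D W) {w : S.K X} (hw : w ∈ W) (h0 : w ≠ 0)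
    (p : Ideal (chart W w)) (hp : p.IsPrime) : ∃ y : X.X, OX X y = loc _ p hp := by
  obtain ⟨V, h1, h2⟩ := exists_valuation p hp.ne_top
  obtain ⟨x, hx⟩ := exists_center V fun c => h1 _ (Subalgebra.algebraMap_mem _ c)
  obtain ⟨t, ht, hg, ha⟩ := h.cov x
  have h3 : (⟨t / w, div_mem_chart ht⟩ : chart W w) ∉ p := fun hm => by
    rcases h2 _ hm with h4 | h4
    · exact div_ne_zero hg.1 h0 h4
    · refine h4 ?_
      change (t / w)⁻¹ ∈ V
      rw [inv_div]
      exact hx _ (div_mem (h.sec w hw) hg)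
  obtain ⟨hle, e⟩ := loc_change hw ht h0 hp h3
  obtain ⟨y, -, hy⟩ := ha.surj _ (ctr_isPrime hle)
  exact ⟨y, hy.trans e⟩

theorem Sys.inj (h : Sys X D W) {y z : X.X} (e : OX X y = OX X z) : y = z := by
  obtain ⟨t, ht, hg, ha⟩ := h.cov y
  obtain ⟨t', ht', hg', -⟩ := h.cov z
  exact ha.inj y hg z (genAt_of_mem (h.sec t ht) hg.1 hg' (e ▸ div_mem (h.sec t' ht') hg)) e

theorem Sys.isClosed (h : Sys X D W) {y : X.X} (hy : HasVal (OX X y)) : IsClosed {y} := by
  obtain ⟨z, hz⟩ := exists_closed y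
  obtain ⟨t, ht, hg, ha⟩ := h.cov z.1
  obtain ⟨p, hp, e, -⟩ := ha.pt y (ha.spe y z.1 hz hg)
  obtain ⟨q, hq, e', -⟩ := ha.pt z.1 hg
  have := ha.ft
  have h1 : p.IsMaximal := (isMaximal_iff_hasVal p hp).2 ((hasVal_congr e).1 hy)
  have h2 : p ≤ q := le_of_loc_le hp hq (e ▸ e' ▸ OX_mono hz)
  have h3 : y = z.1 := h.inj (e.trans ((loc_congr hp hq (h1.eq_of_le hq.ne_top h2)).trans e'.symm))
  rw [h3]
  exact z.2

theorem Sys.td (h : Sys X D W) (h2 : S.dim X = 2) : Algebra.trdeg ℂ (S.K X) = 2 := by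
  obtain ⟨t, -, -, ha⟩ := h.cov (genericPoint X.X)
  have := ha.ft
  have := ha.frac
  exact trdeg_eq (chart W t) h2

theorem Sys.isModel (h : Sys X D W) (hM : MODEL) (h2 : S.dim X = 2) : IsModel W := by
  obtain ⟨t, ht, hg, ha⟩ := h.cov (genericPoint X.X)
  refine hM _ W h.fin ((Submodule.ne_bot_iff W).2 ⟨t, ht, hg.1⟩) (h.td h2) ⟨t, ht, ha.frac⟩
    fun w hw h0 p hp => ?_
  obtain ⟨y, hy⟩ := h.exists_pt hw h0 p hp
  rw [← hy]
  exact OX_regular y

theorem Sys.exists_c (h : Sys X D W) :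
    ∃ c : Pt W → ClosedPt X.X, Function.Surjective c ∧ ∀ x, x.ring = OX X (c x).1 := by
  have key : ∀ x : Pt W, ∃ y : ClosedPt X.X, x.ring = OX X y.1 := by
    intro x
    obtain ⟨w, hw, h0, m, hm, e⟩ := x.prop
    obtain ⟨y, hy⟩ := h.exists_pt hw h0 m hm.isPrime
    have := h.fin
    have := chart_finiteType (W := W) w
    exact ⟨⟨y, h.isClosed ((hasVal_congr hy).2 (hasVal_loc m hm))⟩, e.trans hy.symm⟩
  choose c hc using key
  refine ⟨c, fun z => ?_, hc⟩
  obtain ⟨t, ht, hg, ha⟩ := h.cov z.1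
  obtain ⟨p, hp, e, hm⟩ := ha.pt z.1 hg
  exact ⟨⟨OX X z.1, t, ht, hg.1, p, hm z.2, e⟩, Subtype.ext (h.inj (hc _).symm)⟩

theorem Sys.exists_e (h : Sys X D W) (h2 : S.dim X = 2) :
    ∃ e : Crv W ≃ {y : S.Pt X.X // S.codim y = 1}, ∀ C, C.alg = OX X (e C).1 := by
  have key : ∀ C : Crv W, ∃ y : {y : S.Pt X.X // S.codim y = 1}, C.alg = OX X y.1 := by
    intro C
    obtain ⟨w, hw, h0, p, hp, -, e⟩ := C.prop
    obtain ⟨y, hy⟩ := h.exists_pt hw h0 p hp
    have e' : C.alg = OX X y := (Subalgebra.ext e).trans hy.symm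
    have h1 := OX_dim y
    have h3 : IsDiscreteValuationRing C.alg := C.pl.dvr
    rw [← e', IsDiscreteValuationRing.ringKrullDim_eq_one] at h1
    exact ⟨⟨y, (WithBot.coe_injective h1).symm⟩, e'⟩
  choose c hc using key
  refine ⟨Equiv.ofBijective c ⟨fun C C' e => ?_, fun z => ?_⟩, hc⟩
  · refine Crv.eq_of_le (show C.alg ≤ C'.alg from ?_)
    rw [hc, hc, e]
  · obtain ⟨t, ht, hg, ha⟩ := h.cov z.1
    obtain ⟨p, hp, e, -⟩ := ha.pt z.1 hg
    have := ha.ft
    have := ha.frac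
    have := OX_dvr (X := X) z.1 z.2
    have : IsFractionRing (OX X z.1) (S.K X) := isFractionRing_of_le (e ▸ le_loc _ p hp)
    obtain ⟨P, hP⟩ := exists_place (OX X z.1)
    have hm : ¬ p.IsMaximal := fun hm => by
      have h1 := height_eq_two (h.td h2) _ p hm
      have h3 := OX_dim (X := X) z.1
      have h4 : coheight (α := X.X) z.1 = 1 := z.2
      rw [e, IsLocalization.AtPrime.ringKrullDim_eq_height p, h1, h4] at h3
      exact absurd (WithBot.coe_injective h3) (by decide)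
    refine ⟨⟨P, t, ht, hg.1, p, hp, hm, fun f => by rw [hP, e]⟩, Subtype.ext (h.inj ?_)⟩
    exact (hc _).symm.trans (Subalgebra.ext hP)

end BR1x

open BR1x

theorem br1 (h : MODEL) : BR1 := by
  intro X A h2 hA
  obtain ⟨n, W, hn, hS⟩ := exists_sys hA
  obtain ⟨c, hc, hc'⟩ := hS.exists_c
  obtain ⟨e, he⟩ := hS.exists_e h2
  have hring : ∀ (C : Crv W) f, f ∈ C.pl.ring ↔ f ∈ OX X (e C).1 := fun C f => by
    rw [← he]
    rfl
  refine ⟨n, W, e, c, hn, hS.isModel h h2, hring, fun C f hf => ?_, hc,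
    fun x f => by rw [hc']; rfl, hS.sec, fun y => (hS.cov y).imp fun t ht => ⟨ht.1, ht.2.1⟩⟩
  refine ord_unique C.pl.ord (fun g => S.ord g (e C).1) (fun x y => Pl.ord_mul _)
    (fun x y hx hy => sord_mul hx hy _) (fun x hx => ?_) (Pl.exists_ord_eq_one _)
    (exists_sord_one (e C).2) f hf
  rw [Pl.ord_nonneg_iff _ hx, hring]
  exact ⟨sord_nonneg, mem_of_sord (e C).2 hx⟩

end Vale.Agent.P297Z.Sf
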