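import Vale.Agent.P297Z.Surf.UnifA1
import Mathlib.FieldTheory.IsAlgClosed.Classification
import Mathlib.Analysis.Complex.Cardinality
import Mathlib.Analysis.Complex.Polynomial.Basic

/-! Generic points are conjugate. -/

set_option linter.all false

open Cardinal MvPolynomial

namespace Vale.Agent.P297Z.Sf

namespace UA

theorem exists_equiv {D L M : Type} [CommRing D] [Nontrivial D] [Field L] [Field M]
    [IsAlgClosed L] [IsAlgClosed M] [Algebra D L] [Algebra D M] [FaithfulSMul D L]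
    [FaithfulSMul D M] (hD : #D ≤ ℵ₀) (hL : ℵ₀ < #L) (h : #L = #M) :
    ∃ e : L ≃+* M, ∀ d, e (algebraMap D L d) = algebraMap D M d := by
  obtain ⟨ι, v, hv⟩ := exists_isTranscendenceBasis' D L
  obtain ⟨κ, w, hw⟩ := exists_isTranscendenceBasis' D M
  have k : #ι = #κ := by
    rw [← IsAlgClosed.cardinal_eq_cardinal_transcendence_basis_of_aleph0_lt' v hv hD hL,
      ← IsAlgClosed.cardinal_eq_cardinal_transcendence_basis_of_aleph0_lt' w hw hD (h ▸ hL), h]
  obtain ⟨e⟩ := Cardinal.eq.1 k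
  letI := IsAlgClosed.isAlgClosure_of_transcendence_basis v hv
  letI := IsAlgClosed.isAlgClosure_of_transcendence_basis w hw
  let f : Algebra.adjoin D (Set.range v) ≃ₐ[D] Algebra.adjoin D (Set.range w) :=
    hv.1.aevalEquiv.symm.trans ((renameEquiv D e).trans hw.1.aevalEquiv)
  refine ⟨IsAlgClosure.equivOfEquiv L M f.toRingEquiv, fun d => ?_⟩
  rw [IsScalarTower.algebraMap_apply D (Algebra.adjoin D (Set.range v)) L,
    IsAlgClosure.equivOfEquiv_algebraMap,
    IsScalarTower.algebraMap_apply D (Algebra.adjoin D (Set.range w)) M]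
  exact congrArg _ (f.commutes d)

theorem exists_aut {R : Type} [CommRing R] [Countable R] (f g : R →+* ℂ)
    (h : ∀ r, f r = 0 ↔ g r = 0) : ∃ t : ℂ ≃+* ℂ, ∀ r, t (f r) = g r := by
  let g' : R ⧸ RingHom.ker f →+* ℂ := Ideal.Quotient.lift _ g fun r hr => (h r).1 hr
  have i2 : Function.Injective g' := (injective_iff_map_eq_zero g').2 fun a ha => by
    obtain ⟨a, rfl⟩ := Ideal.Quotient.mk_surjective a
    exact Ideal.Quotient.eq_zero_iff_mem.2 ((h a).2 ha)
  haveI : Nontrivial (R ⧸ RingHom.ker f) := g'.domain_nontrivial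
  haveI : Countable (R ⧸ RingHom.ker f) := Ideal.Quotient.mk_surjective.countable
  obtain ⟨e, he⟩ := @exists_equiv (R ⧸ RingHom.ker f) ℂ ℂ _ _ _ _ _ _
    (RingHom.kerLift f).toAlgebra g'.toAlgebra
    ((@faithfulSMul_iff_algebraMap_injective _ _ _ _ (RingHom.kerLift f).toAlgebra).2
      (RingHom.kerLift_injective f))
    ((@faithfulSMul_iff_algebraMap_injective _ _ _ _ g'.toAlgebra).2 i2) mk_le_aleph0
    (by rw [mk_complex]; exact aleph0_lt_continuum) rfl
  exact ⟨e, fun r => he (Ideal.Quotient.mk _ r)⟩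

variable {K : Type} [Field K] [Algebra ℂ K] {ι : Type}

theorem exists_hom (u : ι → K) (R : Subalgebra ℂ K) [IsFractionRing R K]
    (hR : ∀ f, f ∈ R ↔ ∃ P : MvPolynomial ι ℂ, aeval u P = f) (t : ℂ ≃+* ℂ)
    (h : ∀ P : MvPolynomial ι ℂ, aeval u (map (t : ℂ →+* ℂ) P) = 0 ↔ aeval u P = 0) :
    ∃ s : K →+* K, ∀ P : MvPolynomial ι ℂ, s (aeval u P) = aeval u (map (t : ℂ →+* ℂ) P) := by
  let φ : MvPolynomial ι ℂ →+* R :=
    (aeval u : MvPolynomial ι ℂ →ₐ[ℂ] K).toRingHom.codRestrict R fun P => (hR _).2 ⟨P, rfl⟩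
  have hs : Function.Surjective φ := fun r => by
    obtain ⟨P, hP⟩ := (hR r).1 r.2
    exact ⟨P, Subtype.ext hP⟩
  let ψ : R →+* K := φ.liftOfSurjective hs
    ⟨(aeval u : MvPolynomial ι ℂ →ₐ[ℂ] K).toRingHom.comp (map (t : ℂ →+* ℂ)),
      fun P hP => (h P).2 (congrArg Subtype.val hP)⟩
  have e : ∀ P, ψ (φ P) = aeval u (map (t : ℂ →+* ℂ) P) := fun P =>
    RingHom.liftOfSurjective_comp_apply _ _ _ P
  have i : Function.Injective ψ := (injective_iff_map_eq_zero ψ).2 fun r hr => by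
    obtain ⟨P, rfl⟩ := hs r
    exact Subtype.ext ((h P).1 ((e P).symm.trans hr))
  exact ⟨IsFractionRing.lift i, fun P => (IsFractionRing.lift_algebraMap i (φ P)).trans (e P)⟩

theorem exists_ringEquiv (u : ι → K) (R : Subalgebra ℂ K) [IsFractionRing R K]
    (hR : ∀ f, f ∈ R ↔ ∃ P : MvPolynomial ι ℂ, aeval u P = f) (t : ℂ ≃+* ℂ)
    (G : Set (MvPolynomial ι ℂ)) (hG : Ideal.span G = RingHom.ker (aeval u : _ →ₐ[ℂ] K))
    (h : ∀ P ∈ G, map (t : ℂ →+* ℂ) P = P) :
    ∃ s : K ≃+* K, ∀ P : MvPolynomial ι ℂ, s (aeval u P) = aeval u (map (t : ℂ →+* ℂ) P) := by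
  have inv : ∀ (t : ℂ ≃+* ℂ) (P : MvPolynomial ι ℂ),
      map (t.symm : ℂ →+* ℂ) (map (t : ℂ →+* ℂ) P) = P := fun t P => by
    rw [map_map]; simp [map_id]
  have one : ∀ t : ℂ ≃+* ℂ, (∀ P ∈ G, map (t : ℂ →+* ℂ) P = P) →
      ∀ P, aeval u P = 0 → aeval u (map (t : ℂ →+* ℂ) P) = 0 := fun t h P hP => by
    have : Ideal.span G ≤ (RingHom.ker (aeval u : _ →ₐ[ℂ] K)).comap (map (t : ℂ →+* ℂ)) :=
      Ideal.span_le.2 fun P hP => by
        rw [SetLike.mem_coe, Ideal.mem_comap, h P hP, ← hG]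
        exact Ideal.subset_span hP
    exact this (hG.ge hP)
  have h' : ∀ P ∈ G, map (t.symm : ℂ →+* ℂ) P = P := fun P hP => by
    rw [← h P hP, inv, h P hP]
  obtain ⟨s, hs⟩ := exists_hom u R hR t fun P =>
    ⟨fun k => by rw [← inv t P]; exact one _ h' _ k, one t h P⟩
  obtain ⟨s', hs'⟩ := exists_hom u R hR t.symm fun P =>
    ⟨fun k => by rw [← inv t.symm P]; exact one _ h _ k, one _ h' P⟩
  refine ⟨RingEquiv.ofRingHom s s' ?_ ?_, hs⟩
  all_goals
    refine IsLocalization.ringHom_ext (nonZeroDivisors R) (RingHom.ext fun r => ?_)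
    obtain ⟨P, hP⟩ := (hR r).1 r.2
    change _ = (r : K)
    simp only [RingHom.comp_apply, Subalgebra.algebraMap_apply, ← hP]
  · rw [hs', hs]; exact congrArg _ (inv t.symm P)
  · rw [hs, hs', inv]

variable {W : Submodule ℂ K}

/-- `c` is the value of `a` at `x`. -/
def Val (x : Pt W) (a : K) (c : ℂ) : Prop := x.Van (a - algebraMap ℂ K c)

theorem Val.mem {x : Pt W} {a : K} {c : ℂ} (h : Val x a c) : a ∈ x.ring := by
  simpa using add_mem h.1 (x.ring.algebraMap_mem c)

theorem val_const (x : Pt W) (c : ℂ) : Val x (algebraMap ℂ K c) c := by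
  simpa [Val] using x.van_zero

theorem Val.add {x : Pt W} {a b : K} {c d : ℂ} (h : Val x a c) (k : Val x b d) :
    Val x (a + b) (c + d) := by
  have := Pt.Van.add h k
  rwa [sub_add_sub_comm, ← map_add] at this

theorem Val.mul {x : Pt W} {a b : K} {c d : ℂ} (h : Val x a c) (k : Val x b d) :
    Val x (a * b) (c * d) := by
  have := (Pt.Van.mul_left h.mem k).add (Pt.Van.mul_left (x.ring.algebraMap_mem d) h)
  rwa [show a * (b - algebraMap ℂ K d) + algebraMap ℂ K d * (a - algebraMap ℂ K c) =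
    a * b - algebraMap ℂ K (c * d) by rw [map_mul]; ring] at this

theorem Val.van_iff {x : Pt W} {a : K} {c : ℂ} (h : Val x a c) : x.Van a ↔ c = 0 :=
  ⟨fun k => Pt.van_const (by simpa using k.sub h), fun k => by simpa [Val, k] using h⟩

theorem Sym.pt_eq {S : Surf K} (hS : S.Loc) (g : Sym S.W) {x x' : Pt S.W} {w : K} (hw : w ∈ S.W)
    (h' : x'.In w) (gw : g.s w = w) (b : ι → K) (hb : S.W ≤ Submodule.span ℂ (Set.range b))
    (gb : ∀ j, g.s (b j) = b j) (c : ι → ℂ) (k' : ∀ j, Val x' (b j / w) (c j))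
    (k : ∀ j, Val x (b j / w) (g.t (c j))) : g.pt x = x' := by
  have key : ∀ a ∈ chart S.W w, ∃ γ, Val x' a γ ∧ Val x (g.s a) (g.t γ) := by
    intro a ha
    induction ha using Algebra.adjoin_induction with
    | mem a ha =>
      obtain ⟨a, ha, rfl⟩ := ha
      have ha' := hb ha
      clear ha
      induction ha' using Submodule.span_induction with
      | mem a ha =>
        obtain ⟨j, rfl⟩ := ha
        exact ⟨c j, k' j, by rw [map_div₀, gb, gw]; exact k j⟩
      | zero => exact ⟨0, by simpa using val_const x' 0, by simpa using val_const x 0⟩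
      | add a a' _ _ h1 h2 =>
        obtain ⟨γ, p1, p2⟩ := h1
        obtain ⟨δ, q1, q2⟩ := h2
        exact ⟨γ + δ, by simpa only [add_div] using p1.add q1,
          by simpa only [add_div, map_add] using p2.add q2⟩
      | smul e a _ h1 =>
        obtain ⟨γ, p1, p2⟩ := h1
        exact ⟨e * γ, by simpa only [Algebra.smul_def, mul_div_assoc] using (val_const x' e).mul p1,
          by simpa only [Algebra.smul_def, mul_div_assoc, map_mul, g.const] using
            (val_const x (g.t e)).mul p2⟩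
    | algebraMap e => exact ⟨e, val_const _ _, by rw [g.const]; exact val_const _ _⟩
    | add a a' _ _ h1 h2 =>
      obtain ⟨γ, p1, p2⟩ := h1
      obtain ⟨δ, q1, q2⟩ := h2
      exact ⟨γ + δ, p1.add q1, by simpa only [map_add] using p2.add q2⟩
    | mul a a' _ _ h1 h2 =>
      obtain ⟨γ, p1, p2⟩ := h1
      obtain ⟨δ, q1, q2⟩ := h2
      exact ⟨γ * δ, p1.mul q1, by simpa only [map_mul] using p2.mul q2⟩
  refine (hS.pt_ext _ _ fun f hf => ?_).symm
  obtain ⟨m, hm, e, hv⟩ := hS.pt_chart x' w hw h'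
  rw [e] at hf
  obtain ⟨p, q, hq, hf⟩ := hf
  obtain ⟨γ, -, p2⟩ := key p p.2
  obtain ⟨δ, q1, q2⟩ := key q q.2
  obtain ⟨n1, n2⟩ := Pt.inv_mem q2.mem fun hc =>
    hq ((hv q).2 (q1.van_iff.2 (by simpa using q2.van_iff.1 hc)))
  change g.s f ∈ x.ring
  rw [← mul_inv_cancel_right₀ n1 (g.s f), ← map_mul, hf]
  exact mul_mem p2.mem n2

theorem mem_chart_iff {w : K} (b : ι → K) (hb : W = Submodule.span ℂ (Set.range b)) (f : K) :
    f ∈ chart W w ↔ ∃ P : MvPolynomial ι ℂ, aeval (fun j => b j / w) P = f := by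
  constructor
  · refine fun hf => chart_le (B := (aeval fun j => b j / w).range) (fun a ha => ?_) hf
    rw [hb] at ha
    induction ha using Submodule.span_induction with
    | mem a ha =>
      obtain ⟨j, rfl⟩ := ha
      exact ⟨X j, aeval_X _ _⟩
    | zero => rw [zero_div]; exact zero_mem _
    | add a a' _ _ h1 h2 => rw [add_div]; exact add_mem h1 h2
    | smul e a _ h1 => rw [smul_div_assoc]; exact Subalgebra.smul_mem _ h1 _
  · rintro ⟨P, rfl⟩
    induction P using MvPolynomial.induction_on with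
    | C c => rw [aeval_C]; exact Subalgebra.algebraMap_mem _ _
    | add p q h1 h2 => rw [map_add]; exact add_mem h1 h2
    | mul_X p j h1 =>
      rw [map_mul, aeval_X]
      exact mul_mem h1 (div_mem_chart (hb ▸ Submodule.subset_span ⟨j, rfl⟩))

theorem map_mem (s : K ≃+* K) (t : ℂ ≃+* ℂ) (h : ∀ c, s (algebraMap ℂ K c) = algebraMap ℂ K (t c))
    (b : ι → K) (hb : ∀ j, s (b j) = b j) (a : K) (ha : a ∈ Submodule.span ℂ (Set.range b)) :
    s a ∈ Submodule.span ℂ (Set.range b) := by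
  induction ha using Submodule.span_induction with
  | mem a ha =>
    obtain ⟨j, rfl⟩ := ha
    rw [hb]; exact Submodule.subset_span ⟨j, rfl⟩
  | zero => rw [map_zero]; exact zero_mem _
  | add a a' _ _ h1 h2 => rw [map_add]; exact add_mem h1 h2
  | smul e a _ h1 =>
    rw [Algebra.smul_def, map_mul, h, ← Algebra.smul_def]; exact Submodule.smul_mem _ _ h1

end UA

open UA in
theorem unifA : UNIFA := by
  classical
  intro K _ _ S hS y
  haveI := S.model.fin
  obtain ⟨n, b, hb⟩ := Submodule.fg_iff_exists_fin_generating_family.1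
    ((Submodule.fg_iff_finiteDimensional S.W).2 inferInstance)
  have bW : ∀ j, b j ∈ S.W := fun j => hb ▸ Submodule.subset_span ⟨j, rfl⟩
  obtain ⟨w, hw, yw⟩ := y.exists_in
  haveI := S.model.frac _ (S.x_mem 0) (S.x_ne 0)
  have hR := mem_chart_iff (w := S.x 0) b hb.symm
  set u : Fin n → K := fun j => b j / S.x 0 with hu
  have fr : ∀ f : K, ∃ p q : MvPolynomial (Fin n) ℂ, f = aeval u p / aeval u q := fun f => by
    obtain ⟨p, q, -, e⟩ := IsFractionRing.div_surjective (A := chart S.W (S.x 0)) f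
    obtain ⟨P, hP⟩ := (hR p).1 p.2
    obtain ⟨Q, hQ⟩ := (hR q).1 q.2
    exact ⟨P, Q, by rw [hP, hQ, ← e]; rfl⟩
  obtain ⟨p₀, q₀, e₀⟩ := fr (S.x 0)
  obtain ⟨p₁, q₁, e₁⟩ := fr w
  obtain ⟨G, hG⟩ := (inferInstance : IsNoetherianRing (MvPolynomial (Fin n) ℂ)).noetherian
    (RingHom.ker (aeval u : _ →ₐ[ℂ] K))
  choose d hd using fun j => hS.val y _ (yw.2 _ (bW j))
  let T : Finset ℂ := (G ∪ {p₀, q₀, p₁, q₁}).biUnion coeffs ∪ Finset.univ.image d
  let ψ : MvPolynomial (Fin n ⊕ T) ℤ →+* K :=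
    eval₂Hom (Int.castRingHom K) (Sum.elim u fun t => algebraMap ℂ K t)
  haveI : Countable (MvPolynomial (Fin n ⊕ T) ℤ) :=
    mk_le_aleph0_iff.1 (cardinalMk_le_max.trans (by simp))
  refine ⟨Set.range ψ \ {0}, (Set.countable_range ψ).mono Set.diff_subset, ?_, ?_⟩
  · rintro _ ⟨⟨P, rfl⟩, h0⟩
    refine ⟨h0, ?_⟩
    clear h0
    induction P using MvPolynomial.induction_on with
    | C c => simp [ψ]
    | add p q h1 h2 => rw [map_add]; exact add_mem h1 h2
    | mul_X p j h1 =>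
      rw [map_mul]
      refine mul_mem h1 ?_
      rcases j with j | t
      · simpa [ψ] using div_mem_chart (w := S.x 0) (bW j)
      · simp [ψ]
  have gen : ∀ z : Pt S.W, z.In (S.x 0) → (∀ a ∈ Set.range ψ \ {0}, ¬ z.Van a) →
      ∃ c : Fin n → ℂ, (∀ j, Val z (u j) (c j)) ∧
        ∀ P, eval₂Hom (Int.castRingHom ℂ) (Sum.elim c Subtype.val) P = 0 ↔ ψ P = 0 := by
    intro z hz ha
    choose c hc using fun j => hS.val z _ (hz.2 _ (bW j))
    refine ⟨c, hc, fun P => ?_⟩
    have v : Val z (ψ P) (eval₂Hom (Int.castRingHom ℂ) (Sum.elim c Subtype.val) P) := by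
      induction P using MvPolynomial.induction_on with
      | C c => simpa [ψ] using val_const z c
      | add p q h1 h2 => rw [map_add, map_add]; exact h1.add h2
      | mul_X p j h1 =>
        rw [map_mul, map_mul]
        refine h1.mul ?_
        rcases j with j | t
        · simpa [ψ, Val, hu] using hc j
        · simpa [ψ] using val_const z t
    rw [← v.van_iff]
    exact ⟨fun h => by_contra fun h0 => ha _ ⟨⟨P, rfl⟩, h0⟩ h, fun h => h ▸ z.van_zero⟩
  intro z z' hz hz' ha ha' m H Q _ c hc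
  obtain ⟨c₁, v₁, k₁⟩ := gen z hz ha
  obtain ⟨c₂, v₂, k₂⟩ := gen z' hz' ha'
  obtain ⟨t, ht⟩ := exists_aut _ _ fun P => (k₂ P).trans (k₁ P).symm
  have t1 : ∀ j, t (c₂ j) = c₁ j := fun j => by simpa using ht (X (Sum.inl j))
  have t2 : ∀ a ∈ T, t a = a := fun a h => by simpa using ht (X (Sum.inr ⟨a, h⟩))
  have t3 : ∀ P ∈ G ∪ {p₀, q₀, p₁, q₁}, map (t : ℂ →+* ℂ) P = P := fun P hP => by
    ext i
    rw [coeff_map]
    by_cases h : P.coeff i = 0
    · rw [h, map_zero]
    · exact t2 _ (Finset.mem_union_left _ (Finset.mem_biUnion.2 ⟨P, hP, coeff_mem_coeffs i h⟩))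
  obtain ⟨s, hs⟩ := exists_ringEquiv u _ hR t G hG fun P hP => t3 P (Finset.mem_union_left _ hP)
  have s0 : ∀ c, s (algebraMap ℂ K c) = algebraMap ℂ K (t c) := fun c => by simpa using hs (C c)
  have s1 : s (S.x 0) = S.x 0 := by
    conv_lhs => rw [e₀, map_div₀, hs, hs, t3 _ (by simp), t3 _ (by simp), ← e₀]
  have s2 : s w = w := by
    conv_lhs => rw [e₁, map_div₀, hs, hs, t3 _ (by simp), t3 _ (by simp), ← e₁]
  have s3 : ∀ j, s (b j) = b j := fun j => by
    have := hs (X j)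
    rw [map_X, aeval_X, hu, map_div₀, s1] at this
    exact (div_left_inj' (S.x_ne 0)).1 this
  let g : Sym S.W := ⟨s, t, s0, fun a => ⟨fun h => by
    have := map_mem s.symm t.symm
      (fun c => by rw [RingEquiv.symm_apply_eq, s0, t.apply_symm_apply]) b
      (fun j => by rw [RingEquiv.symm_apply_eq, s3]) _ (hb.ge h)
    rwa [s.symm_apply_apply, hb] at this, fun h => hb.le (map_mem s t s0 b s3 a (hb.ge h))⟩⟩
  have e1 : g.pt z = z' := g.pt_eq hS (S.x_mem 0) hz' s1 b hb.ge s3 c₂ v₂ fun j => by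
    change Val z _ (t (c₂ j))
    rw [t1]; exact v₁ j
  have e2 : g.pt y = y := g.pt_eq hS hw yw s2 b hb.ge s3 d hd fun j => by
    change Val y _ (t (d j))
    rw [t2 _ (Finset.mem_union_right _ (Finset.mem_image_of_mem d (Finset.mem_univ j)))]
    exact hd j
  have := H Q _ (g.ratOK hS.fin_div hc)
  rwa [e1, e2] at this

end Vale.Agent.P297Z.Sf
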