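import Vale.Agent.P297Z.Surf.Asm
import Vale.Agent.P297Z.Surf.BR1
import Vale.Agent.P297Z.Surf.UnifA

/-! The statement on schemes follows from the first stage. -/

namespace Vale.Agent.P297Z.Sf

theorem bloch_of_STAGE1 (h : STAGE1) : BlochAll := bloch_of_stage1 (br1 model) unifA h

end Vale.Agent.P297Z.Sf
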