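import Vale.Agent.P297Z.Surf.NumI
import Vale.Agent.P297Z.Surf.Int

/-! Surfaces with a nef class of arithmetic genus zero. -/

set_option linter.all false

open IsLocalRing

namespace Vale.Agent.P297Z.Sf

variable {K : Type} [Field K] [Algebra ℂ K] {S : Surf K}

namespace Rul

/-- Ideals of given colength above a given ideal. -/
theorem exists_ideal {R : Type} [CommRing R] [IsLocalRing R] [IsNoetherianRing R] [Algebra ℂ R]
    (hv : ∀ f : R, ∃ c : ℂ, f - algebraMap ℂ R c ∈ maximalIdeal R) (I : Ideal R) (n : ℕ) :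
    ∃ J : Ideal R, I ≤ J ∧ Module.Finite ℂ (R ⧸ J) ∧ Module.finrank ℂ (R ⧸ J) ≤ n ∧
      (J = I ∨ Module.finrank ℂ (R ⧸ J) = n) := by
  induction n with
  | zero =>
    have : Subsingleton (R ⧸ (⊤ : Ideal R)) := Ideal.Quotient.subsingleton_iff.2 rfl
    exact ⟨⊤, le_top, inferInstance, Module.finrank_zero_of_subsingleton.le,
      Or.inr Module.finrank_zero_of_subsingleton⟩
  | succ n ih =>
    obtain ⟨J, h1, h2, h3, h4⟩ := ih
    by_cases e : J = I
    · exact ⟨J, h1, h2, by omega, Or.inl e⟩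
    have h5 := h4.resolve_left e
    obtain ⟨J', ⟨a1, a2⟩, a3⟩ := set_has_maximal_iff_noetherian.2 (inferInstance : IsNoetherian R R)
      {J' | I ≤ J' ∧ J' < J} ⟨I, le_rfl, lt_of_le_of_ne h1 (Ne.symm e)⟩
    have a4 : ∀ L : Ideal R, J' ≤ L → L ≤ J → L = J' ∨ L = J := fun L b1 b2 => by
      by_contra hc
      push Not at hc
      exact a3 L ⟨a1.trans b1, lt_of_le_of_ne b2 hc.2⟩ (lt_of_le_of_ne b1 hc.1.symm)
    have a5 : maximalIdeal R • J ≤ J' := by
      rcases a4 (J' ⊔ maximalIdeal R • J) le_sup_left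
        (sup_le a2.le Submodule.smul_le_right) with b | b
      · exact sup_eq_left.1 b
      · exact absurd (Submodule.le_of_le_smul_of_le_jacobson_bot (IsNoetherian.noetherian J)
          (maximalIdeal_le_jacobson _) b.ge) a2.not_ge
    obtain ⟨f, hf, hf'⟩ := SetLike.exists_of_lt a2
    have a6 : J' ⊔ Ideal.span {f} = J :=
      (a4 _ le_sup_left (sup_le a2.le ((Ideal.span_singleton_le_iff_mem _).2 hf))).resolve_left
        fun b => hf' ((Ideal.span_singleton_le_iff_mem _).1 (sup_eq_left.1 b))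
    let φ : (R ⧸ J') →ₗ[ℂ] R ⧸ J := (Ideal.Quotient.factorₐ ℂ a2.le).toLinearMap
    have hφ : ∀ r : R, φ (Ideal.Quotient.mk J' r) = Ideal.Quotient.mk J r := fun r => rfl
    have hr : LinearMap.range φ = ⊤ := by
      rw [eq_top_iff]
      intro q _
      obtain ⟨r, rfl⟩ := Ideal.Quotient.mk_surjective q
      exact ⟨_, hφ r⟩
    have hk : LinearMap.ker φ = Submodule.span ℂ {Ideal.Quotient.mk J' f} := by
      ext q
      obtain ⟨r, rfl⟩ := Ideal.Quotient.mk_surjective q
      rw [LinearMap.mem_ker, hφ, Ideal.Quotient.eq_zero_iff_mem, Submodule.mem_span_singleton]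
      constructor
      · intro b
        rw [← a6] at b
        obtain ⟨j, hj, k, hk, rfl⟩ := Submodule.mem_sup.1 b
        obtain ⟨t, rfl⟩ := Ideal.mem_span_singleton'.1 hk
        obtain ⟨c, hc⟩ := hv t
        refine ⟨c, ?_⟩
        rw [← Ideal.Quotient.mkₐ_eq_mk ℂ, ← map_smul, Ideal.Quotient.mkₐ_eq_mk, Ideal.Quotient.eq]
        have e : c • f - (j + t * f) = -(j + (t - algebraMap ℂ R c) * f) := by
          rw [Algebra.smul_def]
          ring
        rw [e]
        exact neg_mem (add_mem hj (a5 (Submodule.smul_mem_smul hc hf)))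
      · rintro ⟨c, hc⟩
        rw [← Ideal.Quotient.mkₐ_eq_mk ℂ, ← map_smul, Ideal.Quotient.mkₐ_eq_mk,
          Ideal.Quotient.eq] at hc
        have b : c • f ∈ J := by
          rw [Algebra.smul_def]
          exact J.mul_mem_left _ hf
        simpa using J.sub_mem b (a2.le hc)
    have hfin : Module.Finite ℂ (R ⧸ J') := ⟨Submodule.fg_of_fg_map_of_fg_inf_ker φ
      (by rw [Submodule.map_top, hr]; exact Module.Finite.fg_top)
      (by rw [top_inf_eq, hk]; exact Submodule.fg_span_singleton _)⟩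
    have a7 := LinearMap.finrank_range_add_finrank_ker φ
    rw [hr, hk, finrank_top, finrank_span_singleton
      (fun b => hf' (Ideal.Quotient.eq_zero_iff_mem.1 b)), h5] at a7
    exact ⟨J', a1, hfin, a7.ge, Or.inr a7.symm⟩

/-- Sections with conditions at one point. -/
theorem exists_cut (hA : S.All) (E : Div S.W) (x : Pt S.W) (J : Ideal x.ring)
    [Module.Finite ℂ (x.ring ⧸ J)] (D : Div S.W)
    (h : (Module.finrank ℂ (x.ring ⧸ J) : ℤ) + h0 D < h0 E) :
    ∃ s ∈ H0 E, s ∉ H0 D ∧ idl x (E + div S.W s) ≤ J := by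
  have fin : ∀ X : Div S.W, FiniteDimensional ℂ (H0 X) := fun X => by
    have := (hA.fg X).1 0
    rwa [M, zero_smul, add_zero] at this
  have := fin E
  have := fin D
  obtain ⟨g, hg⟩ := hA.gen x E
  let ψ : H0 E →ₗ[ℂ] x.ring :=
    { toFun := fun f => ⟨f / g, (Mu.div_mem_ring hA.toLoc hg).2
        (secOn_mono (fun _ _ => ⟨trivial, le_rfl⟩) f.2)⟩
      map_add' := fun f g => Subtype.ext (add_div _ _ _)
      map_smul' := fun c f => Subtype.ext (smul_div_assoc _ _ _) }
  let φ := (Ideal.Quotient.mkₐ ℂ J).toLinearMap ∘ₗ ψ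
  have a1 := LinearMap.finrank_range_add_finrank_ker φ
  have a2 := (LinearMap.range φ).finrank_le
  have a3 : ¬ (LinearMap.ker φ).map (H0 E).subtype ≤ H0 D := fun b => by
    have a4 := Submodule.finrank_mono b
    rw [Submodule.finrank_map_subtype_eq] at a4
    unfold h0 at h
    omega
  obtain ⟨_, ⟨s, hs, rfl⟩, hs'⟩ := SetLike.not_le_iff_exists.1 a3
  have s0 : (s : K) ≠ 0 := fun e => hs' (Or.inl e)
  refine ⟨s, s.2, hs', fun f hf => ?_⟩
  have b1 : ψ s ∈ J := Ideal.Quotient.eq_zero_iff_mem.1 hs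
  have b2 : GenAt x (-(E + div S.W s)) (s / g) := ⟨div_ne_zero s0 hg.1, fun C hC => by
    have b3 := hg.2 C hC
    rw [Finsupp.neg_apply, Finsupp.add_apply, div_apply hA.toLoc2]
    unfold Crv.ord at *
    rw [Pl.ord_div _ s0 hg.1]
    omega⟩
  have b4 := (Mu.div_mem_ring hA.toLoc b2).2 hf
  have e : f = ⟨_, b4⟩ * ψ s := Subtype.ext (div_mul_cancel₀ _ b2.1).symm
  rw [e]
  exact J.mul_mem_left _ b1

theorem single_or {C : Crv S.W} {Z : Div S.W} (h : Z C = 0) (X : Crv S.W) :
    (Finsupp.single C (1 : ℤ) : Div S.W) X = 0 ∨ Z X = 0 := by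
  by_cases e : X = C
  · exact Or.inr (e ▸ h)
  · exact Or.inl (Finsupp.single_eq_of_ne e)

theorem sum_const (hA : S.All) {C : Crv S.W} {Z : Div S.W} (hZ : 0 ≤ Z) (h : Z C = 0)
    {c : Pt S.W → ℂ} {v : ℂ} (hv : ∀ x, mult x (Finsupp.single C 1) Z ≠ 0 → c x = v) :
    ∑ᶠ x, mult x (Finsupp.single C 1) Z • c x = (inter (Finsupp.single C 1) Z : ℂ) * v := by
  have h1 : (0 : Div S.W) ≤ Finsupp.single C 1 := Finsupp.single_nonneg.2 zero_le_one
  have hf := Mu.finite_mult hA.toLoc hA.multPos h1 hZ (single_or h)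
  rw [inter_eq hA.inte h1 hZ (single_or h),
    finsum_eq_sum_of_support_subset (s := hf.toFinset) _ fun x hx => by
      simpa using fun e => hx (by simp [e]),
    finsum_eq_sum_of_support_subset (s := hf.toFinset) _ fun x hx => by
      simpa using hx]
  push_cast
  rw [Finset.sum_mul]
  exact Finset.sum_congr rfl fun x hx => by rw [hv x (hf.mem_toFinset.1 hx), nsmul_eq_mul]

/-- Comparison of two members of a linear system on a curve. -/
theorem cmp (hA : S.All) {c : Pt S.W → ℂ} (hc : RatOK c) {C : Crv S.W} {E : Div S.W} {s s' : K}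
    (hs : s ∈ H0 E) (hs' : s' ∈ H0 E) (s0 : s ≠ 0) (s0' : s' ≠ 0) (h : (E + div S.W s) C = 0)
    (h' : (E + div S.W s') C = 0) (hp : 0 < inter E (Finsupp.single C 1)) {v v' : ℂ}
    (hv : ∀ x, mult x (Finsupp.single C 1) (E + div S.W s) ≠ 0 → c x = v)
    (hv' : ∀ x, mult x (Finsupp.single C 1) (E + div S.W s') ≠ 0 → c x = v') : v = v' := by
  have e1 := eff_of_mem hA.toLoc2 hs s0
  have e2 := eff_of_mem hA.toLoc2 hs' s0'
  have h1 := hc C _ _ (s / s') e1 e2 h h' (div_ne_zero s0 s0') (by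
    ext X
    simp only [Finsupp.sub_apply, Finsupp.add_apply, div_apply hA.toLoc2]
    unfold Crv.ord
    rw [Pl.ord_div _ s0 s0']
    ring)
  rw [sum_const hA e1 h hv, sum_const hA e2 h' hv', inter_comm, inter_lin hA.toRR _ _ s0,
    inter_comm _ (E + _), inter_lin hA.toRR _ _ s0'] at h1
  exact mul_left_cancel₀ (Int.cast_ne_zero.2 hp.ne') h1

/-- On a curve of arithmetic genus zero, a section that meets the curve at one point only. -/
theorem exists_one (hA : S.All) {C : Crv S.W} {E : Div S.W}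
    (h : h0 E = h0 (E - Finsupp.single C 1) + inter E (Finsupp.single C 1) + 1)
    (hp : 0 < inter E (Finsupp.single C 1)) {x : Pt S.W} (hx : x.On C) :
    ∃ s ∈ H0 E, s ≠ 0 ∧ (E + div S.W s) C = 0 ∧
      ∀ y, mult y (Finsupp.single C 1) (E + div S.W s) ≠ 0 → y = x := by
  have := hA.reg x
  obtain ⟨N, hN⟩ := Int.eq_ofNat_of_zero_le hp.le
  obtain ⟨J, h1, h2, h3, h4⟩ := exists_ideal (R := x.ring) (fun f => by
    obtain ⟨c, hc⟩ := hA.val x f f.2
    exact ⟨c, (x.mem_max _).2 hc⟩) (idl x (Finsupp.single C 1)) N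
  obtain ⟨s, hs, hs', h5⟩ := exists_cut hA E x J (E - Finsupp.single C 1) (by omega)
  have s0 : s ≠ 0 := fun e => hs' (Or.inl e)
  have e1 := eff_of_mem hA.toLoc2 hs s0
  have h6 : (E + div S.W s) C = 0 := by
    by_contra hc
    refine hs' (Or.inr fun X _ => ?_)
    have b1 : 0 ≤ (E + div S.W s) X := e1 X
    rw [Finsupp.add_apply, div_apply hA.toLoc2] at b1 hc
    rw [Finsupp.sub_apply]
    by_cases e : X = C
    · subst e
      rw [Finsupp.single_eq_same]
      omega
    · rw [Finsupp.single_eq_of_ne e]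
      omega
  have h7 : Module.finrank ℂ (x.ring ⧸ J) = N := h4.resolve_left fun e => by
    obtain ⟨a, a0, a1, a2⟩ := Mu.exists_eqn hA.toLoc x e1
    rw [e, a1, Ideal.span_singleton_le_iff_mem] at h5
    have b1 := (mem_idl.1 h5).resolve_left (fun b => a0 (Subtype.ext b)) C hx
    rw [a2 C hx, h6, Finsupp.neg_apply, Finsupp.single_eq_same] at b1
    omega
  have c1 : (0 : Div S.W) ≤ Finsupp.single C 1 := Finsupp.single_nonneg.2 zero_le_one
  have h8 : N ≤ mult x (Finsupp.single C 1) (E + div S.W s) := by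
    have := (hA.multPos x _ _ c1 e1 (single_or h6)).1
    rw [← h7]
    refine LinearMap.finrank_le_finrank_of_surjective
      (f := (Ideal.Quotient.factorₐ ℂ (sup_le h1 h5)).toLinearMap) fun q => ?_
    obtain ⟨r, rfl⟩ := Ideal.Quotient.mk_surjective q
    exact ⟨Ideal.Quotient.mk _ r, rfl⟩
  refine ⟨s, hs, s0, h6, fun y hy => by_contra fun e => ?_⟩
  have hf := Mu.finite_mult hA.toLoc hA.multPos c1 e1 (single_or h6)
  have h9 := inter_eq hA.inte c1 e1 (single_or h6)
  classical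
  rw [inter_comm, inter_lin hA.toRR _ _ s0, hN,
    finsum_eq_sum_of_support_subset (s := insert x hf.toFinset) _ fun x hx => by
      simpa using Or.inr (by simpa using hx)] at h9
  have h10 := Finset.sum_le_sum_of_subset_of_nonneg
    (f := fun z => (mult z (Finsupp.single C 1) (E + div S.W s) : ℤ))
    (show ({y, x} : Finset (Pt S.W)) ⊆ insert x hf.toFinset from by
      intro z hz
      rcases Finset.mem_insert.1 hz with rfl | hz
      · exact Finset.mem_insert_of_mem (hf.mem_toFinset.2 hy)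
      · rw [Finset.mem_singleton.1 hz]
        exact Finset.mem_insert_self _ _) fun _ _ _ => Int.natCast_nonneg _
  rw [Finset.sum_pair e, ← h9] at h10
  omega

/-- The points of a curve of arithmetic genus zero are equivalent. -/
theorem crv (hA : S.All) {C : Crv S.W} (h : inter (Finsupp.single C 1) (Finsupp.single C 1) +
    inter S.kap (Finsupp.single C 1) = -2) {c : Pt S.W → ℂ} (hc : RatOK c) {p q : Pt S.W}
    (hp : p.On C) (hq : q.On C) : c p = c q := by
  obtain ⟨m₁, h1⟩ := hA.large 0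
  obtain ⟨m₂, h2⟩ := hA.large (-Finsupp.single C 1)
  obtain ⟨m, a1, a2, a3⟩ : ∃ m : ℤ, m₁ ≤ m ∧ m₂ ≤ m ∧ 0 < m :=
    ⟨max (max m₁ m₂) 1, by omega, by omega, by omega⟩
  have h3 := h1 m a1
  have h4 := h2 m a2
  rw [zero_add] at h3
  rw [add_comm, ← sub_eq_add_neg] at h4
  have h5 : 0 < inter (m • S.H) (Finsupp.single C 1) := by
    rw [← interHom_apply hA.toRR, map_zsmul, AddMonoidHom.zsmul_apply, smul_eq_mul]
    exact mul_pos a3 (hA.crv C)
  generalize m • S.H = E at h3 h4 h5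
  have h6 : h0 E = h0 (E - Finsupp.single C 1) + inter E (Finsupp.single C 1) + 1 := by
    have b1 := hA.rr E
    have b2 := hA.rr (E - Finsupp.single C 1)
    have b3 := inter_comm E (Finsupp.single C 1)
    simp only [← interHom_apply hA.toRR, map_sub, AddMonoidHom.sub_apply] at b1 b2 b3 h ⊢
    omega
  obtain ⟨s, s1, s2, s3, s4⟩ := exists_one hA h6 h5 hp
  obtain ⟨t, t1, t2, t3, t4⟩ := exists_one hA h6 h5 hq
  exact cmp hA hc s1 t1 s2 t2 s3 t3 h5 (fun y hy => by rw [s4 y hy]) fun y hy => by rw [t4 y hy]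

theorem nef_eff (hA : S.All) {D Z : Div S.W} (h : ∀ C, 0 ≤ inter D (Finsupp.single C 1))
    (hZ : 0 ≤ Z) : 0 ≤ inter D Z := by
  rw [← interHom_apply hA.toRR, eq_sum_single Z, map_sum]
  refine Finset.sum_nonneg fun C _ => ?_
  rw [map_zsmul, smul_eq_mul]
  exact mul_nonneg (hZ C) (h C)

theorem bot_of_neg (hA : S.All) {D X : Div S.W} (h : ∀ C, 0 ≤ inter D (Finsupp.single C 1))
    (hX : inter D X < 0) : H0 X = ⊥ := by
  by_contra hc
  obtain ⟨f, hf, f0⟩ := (Submodule.ne_bot_iff _).1 hc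
  have h1 := nef_eff hA h (eff_of_mem hA.toLoc2 hf f0)
  rw [inter_comm, inter_lin hA.toRR _ _ f0, inter_comm] at h1
  omega

theorem H_pos (hA : S.All) {Z : Div S.W} (hZ : 0 ≤ Z) {C : Crv S.W} (hC : Z C ≠ 0) :
    0 < inter S.H Z := by
  rw [← interHom_apply hA.toRR, eq_sum_single Z, map_sum]
  refine Finset.sum_pos (fun C hC => ?_) ⟨C, Finsupp.mem_support_iff.2 hC⟩
  rw [map_zsmul, smul_eq_mul]
  exact mul_pos (lt_of_le_of_ne (hZ C) (Finsupp.mem_support_iff.1 hC).symm) (hA.crv C)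

/-- The parts of a member have arithmetic genus at most zero. -/
theorem part (hA : S.All) (hG : S.Good) {Z A : Div S.W}
    (h1 : ∀ C, 0 ≤ inter Z (Finsupp.single C 1)) (h3 : inter Z Z + inter S.kap Z = -2)
    (hA0 : 0 ≤ A) (hAZ : A ≤ Z) {C : Crv S.W} (hC : A C ≠ 0) :
    inter A A + inter S.kap A ≤ -2 := by
  have a1 := nef_eff hA h1 (sub_nonneg.2 hAZ)
  have a2 := H_pos hA hA0 hC
  have a3 := inter_comm Z S.kap
  have b1 := hA.le (-A)
  have b2 := hA.rr (-A)
  rw [h0_bot (bot_of_neg hA (fun C => (hA.crv C).le) ?_), h0_bot (bot_of_neg hA h1 ?_)] at b1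
  all_goals
    simp only [← interHom_apply hA.toRR, map_sub, map_neg, AddMonoidHom.neg_apply,
      hG.chi_zero] at *
    omega

/-- All the points of a member are equivalent. -/
theorem member (hA : S.All) (hG : S.Good) {Z : Div S.W} (hZ : 0 ≤ Z)
    (h1 : ∀ C, 0 ≤ inter Z (Finsupp.single C 1)) (h3 : inter Z Z + inter S.kap Z = -2)
    {c : Pt S.W → ℂ} (hc : RatOK c) {p q : Pt S.W} {C C' : Crv S.W} (hC : Z C ≠ 0)
    (hC' : Z C' ≠ 0) (hp : p.On C) (hq : q.On C') : c q = c p := by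
  classical
  have k : ∀ X, Z X ≠ 0 → ∀ x y : Pt S.W, x.On X → y.On X → c x = c y := fun X hX x y hx hy => by
    refine crv hA (le_antisymm (part hA hG h1 h3 (Finsupp.single_nonneg.2 zero_le_one)
      (fun Y => ?_) (C := X) (by simp)) ((numSurf S hA hG).adj X)) hc hx hy
    have b : 0 ≤ Z Y := hZ Y
    by_cases e : Y = X
    · subst e
      rw [Finsupp.single_eq_same]
      omega
    · rwa [Finsupp.single_eq_of_ne e]
  by_contra hne
  let P : Crv S.W → Prop := fun X => ∀ x : Pt S.W, x.On X → c x = c p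
  have a1 : 0 ≤ Z.filter P := fun X => by
    rw [Finsupp.filter_apply]
    split_ifs
    exacts [hZ X, le_rfl]
  have a2 : 0 ≤ Z.filter fun X => ¬ P X := fun X => by
    rw [Finsupp.filter_apply]
    split_ifs
    exacts [le_rfl, hZ X]
  have a3 := Finsupp.filter_add_filter_not Z P
  have a4 : ∀ X, (Z.filter P) X = 0 ∨ (Z.filter fun X => ¬ P X) X = 0 := fun X => by
    by_cases e : P X
    · exact Or.inr (Finsupp.filter_apply_neg _ _ (not_not.2 e))
    · exact Or.inl (Finsupp.filter_apply_neg _ _ e)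
  have a5 : inter (Z.filter P) (Z.filter fun X => ¬ P X) = 0 := by
    rw [inter_eq hA.inte a1 a2 a4]
    refine finsum_eq_zero_of_forall_eq_zero fun x => Nat.cast_eq_zero.2 (by_contra fun e => ?_)
    obtain ⟨⟨X, b1, b2⟩, Y, b3, b4⟩ := (hA.multPos x _ _ a1 a2 a4).2.1 e
    rw [Finsupp.filter_apply, Ne, ite_eq_right_iff, Classical.not_imp] at b2 b4
    exact b4.1 fun y hy => (k Y b4.2 y x hy b3).trans (b2.1 x b1)
  have a6 := part hA hG h1 h3 a1 (le_of_le_of_eq (le_add_of_nonneg_right a2) a3) (C := C) (by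
    rwa [Finsupp.filter_apply_pos P Z fun y hy => k C hC y p hy hp])
  have a7 := part hA hG h1 h3 a2 (le_of_le_of_eq (le_add_of_nonneg_left a1) a3) (C := C') (by
    rwa [Finsupp.filter_apply_pos (fun X => ¬ P X) Z fun b => hne (b q hq)])
  generalize Z.filter P = A at a3 a5 a6
  generalize (Z.filter fun X => ¬ P X) = B at a3 a5 a7
  subst a3
  have a8 := inter_comm A B
  simp only [← interHom_apply hA.toRR, map_add, AddMonoidHom.add_apply] at h3 a5 a6 a7 a8
  omega

end Rul

/-- A surface with a nef class of arithmetic genus zero. -/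
theorem Surf.rul (S : Surf K) (h : S.All) (hG : S.Good) (D : Div S.W)
    (h1 : ∀ C : Crv S.W, 0 ≤ inter D (Finsupp.single C 1)) (h2 : 0 ≤ inter D D)
    (h3 : inter D D + inter S.kap D = -2) (c : Pt S.W → ℂ) (hc : RatOK c) (p q : Pt S.W) :
    c p = c q := by
  have a1 : 2 ≤ h0 D := by
    have b1 := h.le D
    have b2 := h.rr D
    have b3 := inter_comm D S.kap
    have b4 : inter D (S.kap - D) = inter D S.kap - inter D D :=
      map_sub (interHom h.toRR D) S.kap D
    rw [h0_bot (Rul.bot_of_neg h h1 (X := S.kap - D) (by omega))] at b1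
    rw [hG.chi_zero] at b2
    omega
  have a2 : ∀ x : Pt S.W, ∃ s ∈ H0 D, s ≠ 0 ∧ (∃ C, (D + div S.W s) C ≠ 0) ∧
      ∀ (y : Pt S.W) (C : Crv S.W), y.On C → (D + div S.W s) C ≠ 0 → c y = c x := fun x => by
    have f1 := h.jet_fin x 1
    have f2 := h.jet_dim x 1
    obtain ⟨s, s1, s2, s3⟩ := Rul.exists_cut h D x (maximalIdeal x.ring ^ 1) (-S.H) (by
      rw [h0_bot (Rul.bot_of_neg h (fun C => (h.crv C).le) (by
        have := h.sq
        simp only [← interHom_apply h.toRR, map_neg] at *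
        omega))]
      omega)
    have s0 : s ≠ 0 := fun e => s2 (Or.inl e)
    have e1 := eff_of_mem h.toLoc2 s1 s0
    rw [pow_one] at s3
    obtain ⟨X, x1, x2⟩ := (Mu.idl_le_max h.toLoc x e1).1 s3
    refine ⟨s, s1, s0, ⟨X, x2⟩, fun y C hy hC => Rul.member h hG e1 (fun C => ?_) ?_ hc x2 hC x1 hy⟩
    · rw [inter_lin h.toRR _ _ s0]
      exact h1 C
    · rw [inter_lin h.toRR _ _ s0, inter_comm D, inter_lin h.toRR _ _ s0, inter_comm S.kap,
        inter_lin h.toRR _ _ s0, inter_comm D S.kap]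
      exact h3
  obtain ⟨s, s1, s0, ⟨X, x2⟩, s3⟩ := a2 p
  obtain ⟨t, t1, t0, -, t3⟩ := a2 q
  have e1 := eff_of_mem h.toLoc2 s1 s0
  have e2 := eff_of_mem h.toLoc2 t1 t0
  classical
  obtain ⟨w, w1, w0, -, w2⟩ := h.avoid ∅ ((D + div S.W s).support ∪ (D + div S.W t).support)
  have e3 := eff_of_mem h.toLoc2 (mem_H0_H h.toLoc2 w1) w0
  have a3 : ∃ A, (S.H + div S.W w) A ≠ 0 ∧ 0 < inter D (Finsupp.single A 1) := by
    by_contra hn
    push Not at hn
    have b1 := Rul.H_pos h e1 x2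
    rw [inter_comm, inter_lin h.toRR _ _ s0, inter_comm, ← inter_lin h.toRR _ _ w0, inter_comm,
      ← interHom_apply h.toRR, eq_sum_single (S.H + _), map_sum] at b1
    refine b1.not_ge (Finset.sum_nonpos fun A hA => ?_)
    rw [map_zsmul, smul_eq_mul]
    exact mul_nonpos_of_nonneg_of_nonpos (e3 A) (hn A (Finsupp.mem_support_iff.1 hA))
  obtain ⟨A, b1, b2⟩ := a3
  have b3 : A ∉ (D + div S.W s).support ∪ (D + div S.W t).support := fun e => b1 (by
    rw [Finsupp.add_apply, div_apply h.toLoc2, h.hyp_in A w w1 (w2 A e), neg_add_cancel])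
  rw [Finset.mem_union, not_or, Finsupp.notMem_support_iff, Finsupp.notMem_support_iff] at b3
  have c1 : (0 : Div S.W) ≤ Finsupp.single A 1 := Finsupp.single_nonneg.2 zero_le_one
  refine Rul.cmp h hc s1 t1 s0 t0 b3.1 b3.2 b2 (fun y hy => ?_) fun y hy => ?_
  · obtain ⟨-, C, d1, d2⟩ := (h.multPos y _ _ c1 e1 (Rul.single_or b3.1)).2.1 hy
    exact s3 y C d1 d2
  · obtain ⟨-, C, d1, d2⟩ := (h.multPos y _ _ c1 e2 (Rul.single_or b3.2)).2.1 hy
    exact t3 y C d1 d2

end Vale.Agent.P297Z.Sf
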