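import Vale.Agent.P297Z.Surf.Ring
import Vale.Agent.P297Z.K.KG

/-!
# The surface as a space, the modules of sections of the line bundles, the points
-/

set_option linter.all false

noncomputable section

namespace Vale.Agent.P297Z.Sf

open LaurentPolynomial

variable {K : Type} [Field K] [Algebra ℂ K]

theorem chr_unit (γ : Unit → ℤ) (g : Unit → ℂˣ) : chr γ g = ((g () ^ γ () : ℂˣ) : ℂ) := by
  simp [chr]

namespace Surf

variable (S : Surf K)

/-- the scaling on the coordinate ring -/
def actR (g : Unit → ℂˣ) : S.ring →ₐ[ℂ] S.ring where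
  toFun := fun f => ⟨scale K (g ()) f, S.scale_mem_ring _ f⟩
  map_one' := Subtype.ext (map_one (scaleA K (g ())))
  map_mul' := fun a b => Subtype.ext (map_mul (scaleA K (g ())) a.1 b.1)
  map_zero' := Subtype.ext (map_zero (scaleA K (g ())))
  map_add' := fun a b => Subtype.ext (map_add (scaleA K (g ())) a.1 b.1)
  commutes' := fun c => Subtype.ext ((scaleA K (g ())).commutes c)

theorem actR_form (g : Unit → ℂˣ) (n : ℕ) (a : K) (ha : a ∈ S.W ^ n) :
    S.actR g (S.form n a ha) = chr (fun _ => (n : ℤ)) g • S.form n a ha := by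
  rw [chr_unit]
  exact Subtype.ext (scale_mon _ _ _)

theorem actR_lin (g : Unit → ℂˣ) (w : S.W) : S.actR g (S.lin w) = (g () : ℂ) • S.lin w :=
  Subtype.ext ((scale_mon _ _ _).trans (by rw [zpow_one]; rfl))

/-- the surface as a space -/
def spc (h : S.All) : Spc where
  R := S.ring
  ft := S.ring_ft
  J := Unit
  act := S.actR
  span := iSup_wt_eq_top (S.ring_induction (Submodule.zero_mem _)
    (fun n a ha => mem_iSup_wt (γ := fun _ => (n : ℤ)) fun g => S.actR_form g n a ha)
    fun _ _ => Submodule.add_mem _)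
  b := Ideal.span (Set.range S.lin)
  b_act := fun g => span_stab (S.actR g) S.lin fun w => by
    rw [S.actR_lin, Algebra.smul_def]
    exact Ideal.mul_mem_left _ _ (Ideal.subset_span ⟨w, rfl⟩)
  sep := S.ring_sep

/-- the scaling on the module of sections -/
def actM (D : Div S.W) (g : Unit → ℂˣ) : S.lbS D →ₗ[ℂ] S.lbS D where
  toFun := fun f => ⟨scale K (g ()) f, scale_mem_fam _ f.2⟩
  map_add' := fun a b => Subtype.ext (map_add (scale K (g ())) a.1 b.1)
  map_smul' := fun c a => Subtype.ext (map_smul (scale K (g ())) c a.1)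

/-- the element of the module of sections given by a section -/
def sec {D : Div S.W} (m : ℤ) (a : K) (ha : a ∈ M D m) : S.lbS D := ⟨mon a m, S.mon_mem_lbS.2 ha⟩

theorem lbS_induction {D : Div S.W} {P : S.lbS D → Prop} (h0 : P 0)
    (hm : ∀ (m : ℤ) (a : K) (ha : a ∈ M D m), P (S.sec m a ha))
    (ha : ∀ f g, P f → P g → P (f + g)) (f : S.lbS D) : P f :=
  (fam_induction (N := M D) (P := fun f => ∃ h : f ∈ S.lbS D, P ⟨f, h⟩) ⟨zero_mem _, h0⟩
    (fun m a h => ⟨_, hm m a h⟩)
    (fun f g ⟨h1, h2⟩ ⟨h3, h4⟩ => ⟨add_mem h1 h3, ha _ _ h2 h4⟩) f f.2).2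

theorem actM_sec {D : Div S.W} (g : Unit → ℂˣ) (m : ℤ) (a : K) (ha : a ∈ M D m) :
    S.actM D g (S.sec m a ha) = chr (fun _ => m) g • S.sec m a ha := by
  rw [chr_unit]
  exact Subtype.ext (scale_mon _ _ _)

/-- the module of the twisted sections of `O(D)` -/
def lb (h : S.All) (D : Div S.W) : GMod (S.spc h) where
  M := S.lbS D
  acg := inferInstance
  mR := inferInstanceAs (Module S.ring (S.lbS D))
  mC := inferInstance
  tow := inferInstanceAs (IsScalarTower ℂ S.ring (S.lbS D))
  fin := by exact S.lbS_fin h.fg D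
  act := S.actM D
  act_smul := fun g r m => Subtype.ext (scale_mul (g ()) r.1 m.1)
  span := iSup_wt_eq_top (S.lbS_induction (Submodule.zero_mem _)
    (fun m a ha => mem_iSup_wt (γ := fun _ => m) fun g => S.actM_sec g m a ha)
    fun _ _ => Submodule.add_mem _)

/-- the class of `O(D)` -/
def lK (h : S.All) (D : Div S.W) : K0 (S.spc h) := kc (S.lb h D) 1

/-- the point `z` of the cone lies over the point `p` of the surface -/
def Over (h : S.All) (z : (S.spc h).Pt) (p : Pt S.W) : Prop :=
  ∀ w : S.W, z.1 (S.lin w) = 0 ↔ (w : K) ∈ van p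

theorem over_stab (h : S.All) (p : Pt S.W) : (S.spc h).Stab {z | S.Over h z p} := by
  rintro z hz z' ⟨g, e⟩ w
  rw [← hz w, e]
  have e1 : z.1 (S.actR g (S.lin w)) = (g () : ℂ) • z.1 (S.lin w) :=
    (congrArg z.1 (S.actR_lin g w)).trans (map_smul z.1 (g () : ℂ) (S.lin w))
  refine (Eq.congr_left e1).trans ?_
  simp

theorem van_stab (h : S.All) (p : Pt S.W) :
    (GMod.one (S.spc h)).Stab ((S.spc h).van {z | S.Over h z p}) :=
  Spc.van_act (S.over_stab h p)

/-- the class of the point `p` -/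
def ptG (h : S.All) (p : Pt S.W) : G (S.spc h) :=
  cls ((GMod.one (S.spc h)).quo ((S.spc h).van {z | S.Over h z p}) (S.van_stab h p))

end Surf

end Vale.Agent.P297Z.Sf
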