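import Vale.Agent.P297Z.Surf.Ord
import Mathlib.RingTheory.Derivation.Basic
import Mathlib.RingTheory.Trace.Basic

/-!
Smooth projective surfaces inside their function field `K`: the surface is the closure of the point
of the projective space of `W` given by a finite dimensional subspace `W` of `K`.
-/

set_option linter.all false

open Filter

namespace Vale.Agent.P297Z.Sf

open Vale.Agent.P297 (Place)

variable {K : Type} [Field K] [Algebra ℂ K]

/-- The affine coordinate ring of the chart `w ≠ 0`. -/
def chart (W : Submodule ℂ K) (w : K) : Subalgebra ℂ K :=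
  Algebra.adjoin ℂ ((fun a => a / w) '' (W : Set K))

/-- The localisation of a subalgebra of `K` at a prime ideal, inside `K`. -/
def loc (A : Subalgebra ℂ K) (p : Ideal A) (hp : p.IsPrime) : Subalgebra ℂ K where
  carrier := {f | ∃ a b : A, b ∉ p ∧ f * b = a}
  mul_mem' := by
    rintro f g ⟨a, b, hb, h⟩ ⟨a', b', hb', h'⟩
    refine ⟨a * a', b * b', fun hm => (hp.mem_or_mem hm).elim hb hb', ?_⟩
    push_cast
    rw [← h, ← h']; ring
  add_mem' := by
    rintro f g ⟨a, b, hb, h⟩ ⟨a', b', hb', h'⟩
    refine ⟨a * b' + a' * b, b * b', fun hm => (hp.mem_or_mem hm).elim hb hb', ?_⟩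
    push_cast
    rw [← h, ← h']; ring
  algebraMap_mem' c :=
    ⟨algebraMap ℂ A c, 1, (Ideal.ne_top_iff_one p).1 hp.ne_top, by simp⟩

/-- `W` defines a smooth projective surface with function field `K`. -/
structure IsModel (W : Submodule ℂ K) : Prop where
  fin : FiniteDimensional ℂ W
  ne : W ≠ ⊥
  td : Algebra.trdeg ℂ K = 2
  frac : ∀ w ∈ W, w ≠ 0 → IsFractionRing (chart W w) K
  reg : ∀ w ∈ W, w ≠ 0 → IsRegularRing (chart W w)

/-- A smooth projective surface with a finite linear projection to the plane. -/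
structure Surf (K : Type) [Field K] [Algebra ℂ K] where
  /-- the linear forms -/
  W : Submodule ℂ K
  model : IsModel W
  /-- the three linear forms without common zero -/
  x : Fin 3 → K
  x_mem : ∀ i, x i ∈ W
  x_ne : ∀ i, x i ≠ 0
  indep : AlgebraicIndependent ℂ ![x 1 / x 0, x 2 / x 0]
  nn : ∃ n : ℕ, W ^ (n + 1) ≤ Submodule.span ℂ (Set.range x) * W ^ n

/-- A closed point, given by its local ring. -/
@[ext] structure Pt (W : Submodule ℂ K) where
  /-- the local ring -/
  ring : Subalgebra ℂ K
  prop : ∃ w ∈ W, w ≠ 0 ∧ ∃ (m : Ideal (chart W w)) (hm : m.IsMaximal),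
    ring = loc (chart W w) m hm.isPrime

/-- An integral curve, given by its discrete valuation ring. -/
@[ext] structure Crv (W : Submodule ℂ K) where
  /-- the place -/
  pl : Place K
  prop : ∃ w ∈ W, w ≠ 0 ∧ ∃ (p : Ideal (chart W w)) (hp : p.IsPrime), ¬ p.IsMaximal ∧
    ∀ f, f ∈ pl.ring ↔ f ∈ loc (chart W w) p hp

variable {W : Submodule ℂ K}

/-- The order along a curve. -/
noncomputable abbrev Crv.ord (C : Crv W) (f : K) : ℤ := C.pl.ord f

theorem Crv.const_mem (C : Crv W) (c : ℂ) : algebraMap ℂ K c ∈ C.pl.ring := by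
  obtain ⟨w, -, -, p, hp, -, h⟩ := C.prop
  exact (h _).2 (Subalgebra.algebraMap_mem _ c)

theorem Crv.ord_const (C : Crv W) (c : ℂ) : C.ord (algebraMap ℂ K c) = 0 :=
  Pl.ord_unit _ (C.const_mem c) (by rw [← map_inv₀]; exact C.const_mem _)

/-- The point `x` lies on the curve `C`. -/
def Pt.On (x : Pt W) (C : Crv W) : Prop := ∀ f ∈ x.ring, f ∈ C.pl.ring

/-- The point `x` lies in the chart `w ≠ 0`. -/
def Pt.In (x : Pt W) (w : K) : Prop := w ≠ 0 ∧ ∀ a ∈ W, a / w ∈ x.ring

/-- The curve `C` meets the chart `w ≠ 0`. -/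
def Crv.In (C : Crv W) (w : K) : Prop := w ≠ 0 ∧ ∀ a ∈ W, a / w ∈ C.pl.ring

/-- `f` is regular at `x` and vanishes there. -/
def Pt.Van (x : Pt W) (f : K) : Prop := f ∈ x.ring ∧ (f = 0 ∨ f⁻¹ ∉ x.ring)

/-- Divisors. -/
abbrev Div (W : Submodule ℂ K) : Type := Crv W →₀ ℤ

/-- The divisor with given coefficients (zero if the support is infinite). -/
noncomputable def toDiv (g : Crv W → ℤ) : Div W :=
  open Classical in
  if h : (Function.support g).Finite then Finsupp.ofSupportFinite g h else 0

theorem toDiv_apply {g : Crv W → ℤ} (h : (Function.support g).Finite) (C : Crv W) :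
    toDiv g C = g C := by
  rw [toDiv, dif_pos h]; rfl

variable (W) in
/-- The divisor of a rational function. -/
noncomputable def div (f : K) : Div W := toDiv fun C => C.ord f

/-- The rational functions `f` with `div f + D ≥ 0` along the curves that satisfy `P`. -/
def secOn (P : Crv W → Prop) (D : Div W) : Submodule ℂ K where
  carrier := {f | f = 0 ∨ ∀ C, P C → 0 ≤ C.ord f + D C}
  zero_mem' := Or.inl rfl
  add_mem' := by
    intro f g hf hg
    by_cases h0 : f = 0
    · simpa [h0] using hg
    by_cases h1 : g = 0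
    · simpa [h1] using hf
    by_cases h2 : f + g = 0
    · exact Or.inl h2
    refine Or.inr fun C hC => ?_
    have a1 := hf.resolve_left h0 C hC
    have a2 := hg.resolve_left h1 C hC
    have a3 := Pl.min_ord_le_add C.pl h0 h1 h2
    rw [min_le_iff] at a3
    unfold Crv.ord at *
    omega
  smul_mem' := by
    intro c f hf
    by_cases h0 : f = 0
    · exact Or.inl (by simp [h0])
    by_cases h1 : c = 0
    · exact Or.inl (by simp [h1])
    refine Or.inr fun C hC => ?_
    have a1 := hf.resolve_left h0 C hC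
    have a2 := C.ord_const c
    rw [Algebra.smul_def]
    unfold Crv.ord at *
    rw [Pl.ord_mul _ (by simpa using h1) h0, a2, zero_add]
    exact a1

theorem mem_secOn {P : Crv W → Prop} {D : Div W} {f : K} :
    f ∈ secOn P D ↔ f = 0 ∨ ∀ C, P C → 0 ≤ C.ord f + D C := Iff.rfl

/-- The global sections of `O(D)`. -/
def H0 (D : Div W) : Submodule ℂ K := secOn (fun _ => True) D

/-- The stalk of `O(D)` at `x`. -/
def stalk (x : Pt W) (D : Div W) : Submodule ℂ K := secOn x.On D

/-- The sections of `O(D)` on the chart `w ≠ 0`. -/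
def secIn (w : K) (D : Div W) : Submodule ℂ K := secOn (fun C => C.In w) D

/-- The dimension of the space of global sections. -/
noncomputable def h0 (D : Div W) : ℤ := Module.finrank ℂ (H0 D)

variable (W) in
/-- The hyperplane divisor: the elements of `W` generate `O(hyp W)`. -/
noncomputable def hyp : Div W :=
  toDiv fun C => - sInf {k : ℤ | ∃ w ∈ W, w ≠ 0 ∧ C.ord w = k}

/-- The graded pieces of the module of twisted global sections of `O(D)`. -/
noncomputable def M (D : Div W) (m : ℤ) : Submodule ℂ K := H0 (D + m • hyp W)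

/-- The Euler characteristic: the value at `0` of the Hilbert polynomial. -/
noncomputable def chi (D : Div W) : ℤ :=
  Classical.epsilon fun c : ℤ => ∀ᶠ k : ℤ in atTop,
    3 * h0 (D + k • hyp W) - 3 * h0 (D + (2 * k) • hyp W) + h0 (D + (3 * k) • hyp W) = c

/-- The intersection number. -/
noncomputable def inter (D D' : Div W) : ℤ := chi (D + D') - chi D - chi D' + chi (0 : Div W)

/-- `s` generates `O(D)` at the point `x`. -/
def GenAt (x : Pt W) (D : Div W) (s : K) : Prop := s ≠ 0 ∧ ∀ C, x.On C → C.ord s + D C = 0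

/-- The ideal of the local ring at `x` of the functions that vanish on `D`. -/
def idl (x : Pt W) (D : Div W) : Ideal x.ring where
  carrier := {f | (f : K) ∈ stalk x (-D)}
  zero_mem' := (stalk x (-D)).zero_mem
  add_mem' := fun h1 h2 => (stalk x (-D)).add_mem h1 h2
  smul_mem' := by
    intro c f hf
    by_cases h0 : (f : K) = 0
    · exact Or.inl (by simp [h0])
    by_cases h1 : (c : K) = 0
    · exact Or.inl (by simp [h1])
    refine Or.inr fun C hC => ?_
    have a1 := hf.resolve_left h0 C hC
    have a2 := Pl.ord_nonneg_of_mem C.pl (hC _ c.2)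
    change 0 ≤ C.pl.ord ((c : K) * f) + _
    unfold Crv.ord at *
    rw [Pl.ord_mul _ h1 h0]
    omega

/-- The local intersection multiplicity. -/
noncomputable def mult (x : Pt W) (D D' : Div W) : ℕ :=
  Module.finrank ℂ (x.ring ⧸ (idl x D ⊔ idl x D'))

/-- The derivation `δ` preserves the valuation ring of the place `P`. -/
def RegDer (P : Place K) (δ : Derivation ℂ K K) : Prop := ∀ a ∈ P.ring, δ a ∈ P.ring

/-- The value of the form `du ∧ dv` on two vector fields. -/
def wedge (u v : K) (δ₁ δ₂ : Derivation ℂ K K) : K := δ₁ u * δ₂ v - δ₁ v * δ₂ u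

/-- The orders of the values of `du ∧ dv` on vector fields that are regular at `P`. -/
def canSet (u v : K) (P : Place K) : Set ℤ :=
  {k | ∃ δ₁ δ₂, RegDer P δ₁ ∧ RegDer P δ₂ ∧ wedge u v δ₁ δ₂ ≠ 0 ∧ P.ord (wedge u v δ₁ δ₂) = k}

variable (W) in
/-- The divisor of the form `du ∧ dv`. -/
noncomputable def canDiv (u v : K) : Div W := toDiv fun C => sInf (canSet u v C.pl)

/-- The map `c` on points kills the divisors of the rational functions on curves. -/
def RatOK {Q : Type} [AddCommGroup Q] (c : Pt W → Q) : Prop :=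
  ∀ (C : Crv W) (D D' : Div W) (f : K), 0 ≤ D → 0 ≤ D' → D C = 0 → D' C = 0 → f ≠ 0 →
    div W f = D - D' →
    ∑ᶠ x, mult x (Finsupp.single C 1) D • c x = ∑ᶠ x, mult x (Finsupp.single C 1) D' • c x

/-- `π` is the map on points of a birational morphism. -/
def Dominates {W' : Submodule ℂ K} (π : Pt W' → Pt W) : Prop :=
  ∀ y : Pt W', (π y).ring ≤ y.ring ∧ ∀ f, (π y).Van f → y.Van f

namespace Surf

variable (S : Surf K)

/-- The hyperplane divisor. -/
noncomputable abbrev H : Div S.W := hyp S.W

/-- The canonical divisor. -/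
noncomputable def kap : Div S.W := canDiv S.W (S.x 1 / S.x 0) (S.x 2 / S.x 0)

/-- The linear forms of the plane. -/
def X : Submodule ℂ K := Submodule.span ℂ (Set.range S.x)

/-- The forms of degree `n` of the plane. -/
def Xp (n : ℤ) : Submodule ℂ K := if 0 ≤ n then S.X ^ n.toNat else ⊥

/-- The function field of the plane. -/
noncomputable def F : IntermediateField ℂ K := IntermediateField.adjoin ℂ {S.x 1 / S.x 0, S.x 2 / S.x 0}

/-- The trace to the function field of the plane, on elements of degree `n`, with values of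
degree `n - 3`. -/
noncomputable def tr (n : ℤ) (f : K) : K :=
  (Algebra.trace S.F K (f / S.x 0 ^ n) : K) * S.x 0 ^ (n - 3)

/-- The first Cech cohomology of `O(D)` for the cover by the three charts vanishes. -/
def Cech1 (D : Div S.W) : Prop :=
  ∀ f : Fin 3 → K,
    (∀ i j, f i - f j ∈ secOn (fun C => C.In (S.x i) ∧ C.In (S.x j)) D) →
    ∃ g, ∀ i, f i - g ∈ secIn (S.x i) D

/-- `p_g = q = 0`. -/
structure Good : Prop where
  chi_zero : chi (0 : Div S.W) = 1
  pg : H0 S.kap = ⊥

end Surf

end Vale.Agent.P297Z.Sf
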