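import Vale.Agent.P297Z.Stmt

/-! The statement for all surfaces with `p_g = q = 0`. -/

namespace Vale.Agent.P297Z

open Vale.Agent.P299.S Vale.Agent.P297

/-- Bloch's conjecture for the surfaces with `p_g = q = 0`. -/
def BlochAll : Prop :=
  ∀ (X : Var) (κ : Div X.toPVar), dim X.toPVar = 2 → IsCanonical κ → ¬ HasSec κ →
    IrregularityZero X.toPVar → ∀ x y : ClosedPt X.X, RatEquiv X.str x y

theorem BlochAll.bloch (h : BlochAll) : Bloch := fun X κ h1 h2 _ h3 h4 => h X κ h1 h2 h3 h4

end Vale.Agent.P297Z
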