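import Vale.Agent.P297Z.Surf.SkB
import Mathlib.LinearAlgebra.Determinant

/-! The canonical divisor and the hyperplane divisor in the dictionary. -/

set_option linter.all false

namespace Vale.Agent.P297Z.Sf

open Vale.Agent.P297 (ClosedPt)
open Vale.Agent.P299

/-- An alternating form on a two dimensional space of vector fields is a multiple of a nonzero
form `du ∧ dv`. -/
theorem exists_eq_mul_wedge {K : Type} [Field K] [Algebra ℂ K]
    (h2 : Module.finrank K (Derivation ℂ K K) = 2)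
    (ω : MultilinearMap K (fun _ : Fin 2 => Derivation ℂ K K) K)
    (hω : ∀ v : Fin 2 → Derivation ℂ K K, ∀ i j, v i = v j → i ≠ j → ω v = 0)
    {u v : K} {δ₁ δ₂ : Derivation ℂ K K} (h0 : wedge u v δ₁ δ₂ ≠ 0) :
    ∃ g : K, ∀ α : Fin 2 → Derivation ℂ K K, ω α = g * wedge u v (α 0) (α 1) := by
  have hfin : Module.Finite K (Derivation ℂ K K) := Module.finite_of_finrank_pos (by omega)
  let b := Module.finBasisOfFinrankEq K (Derivation ℂ K K) h2
  let ωA : (Derivation ℂ K K) [⋀^Fin 2]→ₗ[K] K :=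
    { toMultilinearMap := ω, map_eq_zero_of_eq' := hω }
  let L : Derivation ℂ K K →ₗ[K] (Fin 2 → K) :=
    { toFun := fun δ => ![δ u, δ v]
      map_add' := fun a c => by
        funext i
        fin_cases i <;> simp
      map_smul' := fun a c => by
        funext i
        fin_cases i <;> simp }
  let ηA : (Derivation ℂ K K) [⋀^Fin 2]→ₗ[K] K :=
    (Matrix.detRowAlternating (n := Fin 2) (R := K)).compLinearMap L
  have hη : ∀ α : Fin 2 → Derivation ℂ K K, ηA α = wedge u v (α 0) (α 1) := by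
    intro α
    change Matrix.det (Matrix.of fun i => L (α i)) = _
    rw [Matrix.det_fin_two]
    rfl
  have e1 : ∀ α, ω α = ωA b * b.det α := fun α => by
    have := congrArg (fun f : (Derivation ℂ K K) [⋀^Fin 2]→ₗ[K] K => f α)
      (ωA.eq_smul_basis_det b)
    exact this
  have e2 : ∀ α, wedge u v (α 0) (α 1) = ηA b * b.det α := fun α => by
    have := congrArg (fun f : (Derivation ℂ K K) [⋀^Fin 2]→ₗ[K] K => f α)
      (ηA.eq_smul_basis_det b)
    rw [← hη]
    exact this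
  have hb : ηA b ≠ 0 := by
    intro h
    apply h0
    have := e2 ![δ₁, δ₂]
    rw [h, zero_mul] at this
    exact this
  refine ⟨ωA b / ηA b, fun α => ?_⟩
  rw [e1, e2]
  field_simp

section

variable {X : S.PVar} {A : S.Div X} {W : Submodule ℂ (S.K X)}
  {e : Crv W ≃ {y : S.Pt X.X // S.codim y = 1}} {c : Pt W → ClosedPt X.X}

theorem coef_e (D : S.Div X) (C : Crv W) : S.coef D (e C).1 = D (e C) := by
  unfold S.coef
  rw [dif_pos (e C).2]

theorem Dict.exists_in (hD : Dict X A W e c) (C : Crv W) :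
    ∃ w ∈ W, C.In w ∧ C.ord w + A (e C) = 0 := by
  obtain ⟨w, hw, h0, h1⟩ := hD.gen (e C).1
  have h2 := h1 (e C).1 (e C).2 (specializes_refl (X := X.X) _)
  rw [coef_e, ← hD.ord C w h0] at h2
  refine ⟨w, hw, ⟨h0, fun a ha => ?_⟩, h2⟩
  by_cases ha0 : a = 0
  · simp [ha0]
  have h3 := hD.sec a ha (e C).1 (e C).2 ha0
  rw [coef_e, ← hD.ord C a ha0] at h3
  rw [← Pl.ord_nonneg_iff _ (div_ne_zero ha0 h0), Pl.ord_div _ ha0 h0]
  unfold Crv.ord at h2 h3
  omega

theorem Dict.regDer (hD : Dict X A W e c) (C : Crv W) (δ : S.Der X) :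
    RegDer C.pl δ ↔ S.RegDer δ (e C).1 := by
  constructor
  · intro h f hf
    exact (hD.ring C _).1 (h f ((hD.ring C f).2 hf))
  · intro h f hf
    exact (hD.ring C _).2 (h f ((hD.ring C f).1 hf))

theorem Dict.can (hD : Dict X A W e c) (h2 : S.dim X = 2) {u v : S.K X} {κ' : Div W}
    (hl : ∀ C : Crv W, IsLeast (canSet u v C.pl) (κ' C)) {κ : S.Div X}
    (N : ℕ) (hN : N = 2) (ω : S.Ten X N) (h0 : S.Nonzero ω) (ha : S.IsAlt ω)
    (hd : S.IsDivTensor ω κ) :
    ∃ g : S.K X, g ≠ 0 ∧ ∀ C, κ (e C) = κ' C + C.ord g := by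
  subst hN
  by_cases hne : Nonempty (Crv W)
  swap
  · exact ⟨1, one_ne_zero, fun C => absurd ⟨C⟩ hne⟩
  obtain ⟨C₀⟩ := hne
  obtain ⟨δ₁, δ₂, -, -, hw, -⟩ := (hl C₀).1
  obtain ⟨g, hg⟩ := exists_eq_mul_wedge h2 ω ha hw
  have hg0 : g ≠ 0 := by
    rintro rfl
    obtain ⟨α, hα⟩ := h0
    exact hα ((hg α).trans (zero_mul _))
  refine ⟨g, hg0, fun C => ?_⟩
  have h1 := hd (e C).1 (e C).2
  rw [coef_e] at h1
  apply le_antisymm
  · obtain ⟨α₁, α₂, r1, r2, n0, ho⟩ := (hl C).1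
    have hv : ω ![α₁, α₂] = g * wedge u v α₁ α₂ := hg ![α₁, α₂]
    refine h1.2 ⟨g * wedge u v α₁ α₂, ⟨![α₁, α₂], ?_, hv⟩, mul_ne_zero hg0 n0, ?_⟩
    · intro i
      fin_cases i
      · exact (hD.regDer C _).1 r1
      · exact (hD.regDer C _).1 r2
    · rw [← hD.ord C _ (mul_ne_zero hg0 n0), ← ho]
      unfold Crv.ord
      rw [Pl.ord_mul _ hg0 n0, add_comm]
  · obtain ⟨f, ⟨α, hα, hf⟩, f0, ho⟩ := h1.1
    have hv : f = g * wedge u v (α 0) (α 1) := hf.symm.trans (hg α)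
    have n0 : wedge u v (α 0) (α 1) ≠ 0 := by
      intro h
      rw [h, mul_zero] at hv
      exact f0 hv
    have h3 := (hl C).2 ⟨α 0, α 1, (hD.regDer C _).2 (hα 0), (hD.regDer C _).2 (hα 1), n0, rfl⟩
    rw [← ho, ← hD.ord C f f0, hv]
    unfold Crv.ord
    rw [Pl.ord_mul _ hg0 n0]
    omega

end

theorem br2 : BR2 := by
  intro X A T e c h2 hD hL hC κ hκ
  refine ⟨fun C => ?_, ?_⟩
  · obtain ⟨w, hw, h1, h3⟩ := hD.exists_in C
    rw [hL.hyp_in C w hw h1]
    omega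
  · obtain ⟨ω, h0, ha, hd⟩ := hκ
    exact hD.can h2 (hC.least _ _ T.indep) _ h2 ω h0 ha hd

end Vale.Agent.P297Z.Sf
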