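import Vale.Agent.P297Z.Surf.SkB
import Vale.Agent.P299.Q.Hartogs
import Vale.Agent.P299.Q.ConstExact

/-! The vanishing of the irregularity in the dictionary. -/

set_option linter.all false

open CategoryTheory TopologicalSpace Opposite AlgebraicGeometry Order

namespace Vale.Agent.P297Z.Sf

open Vale.Agent.P297 (ClosedPt)
open Vale.Agent.P299

section Cousin

variable {T : TopCat.{0}} [PreirreducibleSpace T] {K : Type} [AddCommGroup K] [Module ℂ K]

/-- The value of a constant section at the point `η`. -/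
noncomputable def evAt (M : T → Submodule ℂ K) (η : T) (U : Opens T) :
    Q.constSec M U →ₗ[ℂ] K :=
  open Classical in
  if h : η ∈ U then
    { toFun := fun s => s.1 ⟨η, h⟩
      map_add' := fun _ _ => rfl
      map_smul' := fun _ _ => rfl }
  else 0

theorem evAt_apply (M : T → Submodule ℂ K) {η : T} {U : Opens T} (h : η ∈ U)
    (s : Q.constSec M U) : evAt M η U s = s.1 ⟨η, h⟩ := by
  unfold evAt
  rw [dif_pos h]
  rfl

theorem isSheafOf_constSheaf (M : T → Submodule ℂ K) (η : T)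
    (hη : ∀ U : Opens T, Nonempty U → η ∈ U) :
    S.IsSheafOf (T := T) (fun x f => f ∈ M x) (Q.constSheaf M) := by
  refine ⟨fun U => ModuleCat.ofHom (evAt M η U), fun U hU => ⟨?_, fun f => ⟨?_, ?_⟩⟩,
    fun U V h hV => ?_⟩
  · have key : Function.Injective (evAt M η U) := by
      intro s t h1
      rw [evAt_apply M (hη U hU), evAt_apply M (hη U hU)] at h1
      apply Subtype.ext
      funext x
      exact (s.2.1 _ _).trans (h1.trans (t.2.1 _ _))
    exact (ModuleCat.mono_iff_injective (ModuleCat.ofHom (evAt M η U))).2 key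
  · have key : ∀ s : Q.constSec M U, evAt M η U s = f → ∀ x ∈ U, f ∈ M x := by
      intro s h1 x hx
      rw [evAt_apply M (hη U hU)] at h1
      rw [← h1, s.2.1 _ ⟨x, hx⟩]
      exact s.2.2 ⟨x, hx⟩
    rintro ⟨s, hs⟩
    exact key s hs
  · intro h
    exact ⟨⟨fun _ => f, fun _ _ => rfl, fun x => h x.1 x.2⟩, evAt_apply M (hη U hU) _⟩
  · have key : ∀ s : Q.constSec M U, evAt M η V (Q.constRes M h s) = evAt M η U s := by
      intro s
      rw [evAt_apply M (hη V hV), evAt_apply M (h (hη V hV))]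
      rfl
    exact ModuleCat.hom_ext (LinearMap.ext key)

/-- The additive problem of Cousin. -/
theorem cousin (M : T → Submodule ℂ K) (η : T) (hH : S.VanH (Q.constSheaf M) 1) {ι : Type}
    (U : ι → Opens T) (hU : ∀ x, ∃ i, x ∈ U i) (f : ι → K)
    (hf : ∀ i j x, x ∈ U i → x ∈ U j → f i - f j ∈ M x) :
    ∃ g, ∀ i x, x ∈ U i → f i - g ∈ M x := by
  let M₂ : T → Submodule ℂ (K × ℂ) := fun x =>
    { carrier := {p | ∀ i, x ∈ U i → p.2 • f i - p.1 ∈ M x}
      zero_mem' := fun i _ => by simp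
      add_mem' := fun {p q} hp hq i hi => by
        have := (M x).add_mem (hp i hi) (hq i hi)
        have e : (p + q).2 • f i - (p + q).1 = p.2 • f i - p.1 + (q.2 • f i - q.1) := by
          rw [Prod.fst_add, Prod.snd_add, add_smul]; abel
        rw [e]
        exact this
      smul_mem' := fun a p hp i hi => by
        have := (M x).smul_mem a (hp i hi)
        have e : (a • p).2 • f i - (a • p).1 = a • (p.2 • f i - p.1) := by
          rw [Prod.smul_fst, Prod.smul_snd, smul_sub, smul_eq_mul, mul_smul]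
        rw [e]
        exact this }
  have hM₂ : ∀ x p, p ∈ M₂ x ↔ ∀ i, x ∈ U i → p.2 • f i - p.1 ∈ M x := fun _ _ => Iff.rfl
  let M₃ : T → Submodule ℂ ℂ := fun _ => ⊤
  have hi : ∀ x, ∀ g ∈ M x, LinearMap.inl ℂ K ℂ g ∈ M₂ x := by
    intro x g hg
    rw [hM₂]
    intro i _
    simpa using hg
  have hq : ∀ x, ∀ p ∈ M₂ x, LinearMap.snd ℂ K ℂ p ∈ M₃ x := fun _ _ _ => Submodule.mem_top
  have hqi : ∀ g, LinearMap.snd ℂ K ℂ (LinearMap.inl ℂ K ℂ g) = 0 := fun _ => rfl
  have hS := Q.constComplex_shortExact hi hq hqi LinearMap.inl_injective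
    (by
      rintro ⟨g, a⟩ ha
      have ha' : a = 0 := ha
      subst ha'
      refine ⟨g, rfl, fun x hx => ?_⟩
      obtain ⟨i, hi⟩ := hU x
      simpa using (hM₂ _ _).1 hx i hi)
    (by
      intro V x₀ hx₀ a _
      obtain ⟨i, hi⟩ := hU x₀
      refine ⟨V ⊓ U i, inf_le_left, ⟨hx₀, hi⟩, (a • f i, a), rfl, fun x hx => ?_⟩
      rw [hM₂]
      intro j hj
      have := (M x).smul_mem a (hf j i x hj hx.2)
      rwa [smul_sub] at this)
  obtain ⟨s, hs⟩ := Q.exists_global_of_shortExact hS hH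
    (⟨fun _ => (1 : ℂ), fun _ _ => rfl, fun _ => Submodule.mem_top⟩ : Q.constSec M₃ ⊤)
  let s' : Q.constSec M₂ ⊤ := s
  have h1 : (s'.1 ⟨η, trivial⟩).2 = 1 :=
    congrArg (fun t : Q.constSec M₃ ⊤ => t.1 ⟨η, trivial⟩) hs
  refine ⟨(s'.1 ⟨η, trivial⟩).1, fun i x hx => ?_⟩
  have h2 := s'.2.2 ⟨x, trivial⟩
  rw [s'.2.1 _ ⟨η, trivial⟩] at h2
  have h3 := (hM₂ _ _).1 h2 i hx
  rwa [h1, one_smul] at h3

end Cousin

section Scheme

variable {X : S.PVar}

theorem reg_iff (f : S.K X) (x : X.X) :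
    S.Reg f x ↔ ∃ a : X.X.presheaf.stalk x, G.toK x a = f := Iff.rfl

theorem reg_of_spe {f : S.K X} {y x : X.X} (h : y ⤳ x) (hf : S.Reg f x) : S.Reg f y := by
  obtain ⟨a, ha⟩ := (reg_iff f x).1 hf
  exact (reg_iff f y).2 ⟨G.toStalk h a, (G.toK_toStalk h a).trans ha⟩

theorem reg_cst (a : ℂ) (x : X.X) : S.Reg (algebraMap ℂ (S.K X) a) x := by
  refine ⟨(S.num ≫ S.top X.str ≫ S.germ x).hom a, ?_⟩
  have h : S.germ x ≫ S.sp (S.spe_gp x) = S.germ (S.gp X.X) :=
    X.X.presheaf.germ_stalkSpecializes _ _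
  have h2 : (S.num ≫ S.top X.str ≫ S.germ x) ≫ S.sp (S.spe_gp x) =
      S.num ≫ S.top X.str ≫ S.germ (S.gp X.X) := by
    rw [Category.assoc, Category.assoc, h]
  exact congrArg (fun φ => φ.hom a) h2

variable (X) in
/-- The local ring as a subspace of the function field. -/
def regSub (x : S.Sp X.X) : Submodule ℂ (S.K X) where
  carrier := {f | S.Reg (X := X) f x}
  zero_mem' := ⟨0, map_zero _⟩
  add_mem' := by
    rintro _ _ ⟨a, rfl⟩ ⟨b, rfl⟩
    exact ⟨a + b, map_add _ _ _⟩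
  smul_mem' := by
    rintro c f ⟨a, ha⟩
    obtain ⟨b, hb⟩ := reg_cst (X := X) c x
    refine ⟨b * a, ?_⟩
    rw [Algebra.smul_def, map_mul, hb, ha]
    rfl

theorem reg_of_ord (f : S.K X) (x : X.X)
    (h : f = 0 ∨ ∀ y : X.X, coheight y = 1 → y ⤳ x → 0 ≤ S.ord f y) : S.Reg f x := by
  by_cases h0 : f = 0
  · subst h0
    exact ⟨0, map_zero _⟩
  let _ : X.X.Over Q.SpecC := ⟨X.str⟩
  have : Smooth (X.X ↘ Q.SpecC) := X.smooth
  exact Q.exists_of_forall_ord_nonneg_normal (Q.isIntegrallyClosed_stalk_of_smooth X.X) x f h0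
    (h.resolve_left h0)

theorem eq_of_spe {y z : X.X} (h : y ⤳ z) (hy : coheight y = 1) (hz : coheight z = 1) :
    y = z := by
  by_contra hne
  have h1 : z < y := by
    refine lt_of_le_not_ge h fun h' => hne ?_
    exact (Specializes.antisymm h h').eq
  have h2 := Order.coheight_add_one_le h1
  rw [hy, hz] at h2
  exact absurd h2 (by decide)

theorem exists_closed (x : X.X) : ∃ z : ClosedPt X.X, x ⤳ z.1 := by
  have : CompactSpace S.SpecC := inferInstanceAs (CompactSpace (Spec (CommRingCat.of ℂ)))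
  have : CompactSpace X.X := QuasiCompact.compactSpace_of_compactSpace X.str
  obtain ⟨z, hz, hc⟩ := (isClosed_closure (s := {x})).exists_closed_singleton
    ⟨x, subset_closure rfl⟩
  exact ⟨⟨z, hc⟩, specializes_iff_mem_closure.2 hz⟩

end Scheme

theorem br3 : BR3 := by
  intro X A T e c _ hD hL hq f hf
  have hirr : PreirreducibleSpace (S.Sp X.X) := inferInstanceAs (PreirreducibleSpace X.X)
  have hfin : ∀ i, {C : Crv T.W | ¬ C.In (T.x i)}.Finite := by
    intro i
    refine ((hL.fin_div (T.x i)).union T.H.hasFiniteSupport).subset fun C hC => ?_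
    by_contra hcon
    rw [Set.mem_union, not_or, Function.notMem_support, Function.notMem_support] at hcon
    obtain ⟨w, hw, h1⟩ := C.exists_in
    have h2 := hL.hyp_in C w hw h1
    refine hC ((Crv.in_iff h1 hw (T.x_mem i) (T.x_ne i)).2 ?_)
    have h3 := hcon.1
    have h4 := hcon.2
    omega
  let Z : Fin 3 → Set X.X := fun i =>
    ⋃ C ∈ {C : Crv T.W | ¬ C.In (T.x i)}, @closure X.X _ {(e C).1}
  have hZ : ∀ i, IsClosed (Z i) := fun i =>
    (hfin i).isClosed_biUnion fun _ _ => isClosed_closure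
  let U : Fin 3 → Opens (S.Sp X.X) := fun i => ⟨(Z i)ᶜ, (hZ i).isOpen_compl⟩
  have hU : ∀ i (x : X.X), x ∈ U i ↔
      ∀ C : Crv T.W, @Specializes X.X _ (e C).1 x → C.In (T.x i) := by
    intro i x
    change x ∉ Z i ↔ _
    simp only [Z, Set.mem_iUnion, not_exists, Set.mem_setOf_eq]
    exact forall_congr' fun C => not_imp_not.trans
      (imp_congr_left (specializes_iff_mem_closure (X := X.X)).symm)
  have hcov : ∀ x : X.X, ∃ i, x ∈ U i := by
    intro x
    obtain ⟨z, hz⟩ := exists_closed x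
    obtain ⟨p, rfl⟩ := hD.surj z
    obtain ⟨i, hi⟩ := hL.pt_cover p
    refine ⟨i, (hU i x).2 fun C hC => Pt.On.crv_in (fun a ha => ?_) hi⟩
    exact (hD.ring C a).2 (reg_of_spe (hC.trans hz) ((hD.pt p a).1 ha))
  have hη : ∀ V : Opens (S.Sp X.X), Nonempty V → genericPoint X.X ∈ V := by
    rintro V ⟨x, hx⟩
    exact ((genericPoint_spec X.X).mem_open_set_iff V.isOpen).2 ⟨x, trivial, hx⟩
  have hH := hq _ (isSheafOf_constSheaf (regSub X) (genericPoint X.X) hη)
  obtain ⟨g, hg⟩ := cousin (regSub X) (genericPoint X.X) hH U hcov f (by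
    intro i j x hi hj
    refine reg_of_ord _ x ?_
    by_cases h0 : f i - f j = 0
    · exact Or.inl h0
    refine Or.inr fun y hy hyx => ?_
    obtain ⟨C, hC⟩ := e.surjective ⟨y, hy⟩
    have hC' : ((e C).1 : X.X) = y := congrArg Subtype.val hC
    have h1 := (hf i j).resolve_left h0 C
      ⟨(hU i x).1 hi C (hC' ▸ hyx), (hU j x).1 hj C (hC' ▸ hyx)⟩
    rw [hD.ord C _ h0, hC'] at h1
    simpa using h1)
  refine ⟨g, fun i => Or.inr fun C hC => ?_⟩
  have h1 : ((e C).1 : X.X) ∈ U i := by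
    refine (hU i _).2 fun C' h => ?_
    have h2 : e C' = e C := Subtype.ext (eq_of_spe h (e C').2 (e C).2)
    rw [e.injective h2]
    exact hC
  have h2 := Pl.ord_nonneg_of_mem C.pl ((hD.ring C _).2 (hg i _ h1))
  simpa using h2

end Vale.Agent.P297Z.Sf
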