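import Vale.Agent.P297Z.Surf.SkB
import Vale.Agent.P297Z.Surf.RatRes

/-! The classes of the points modulo rational equivalence kill the principal cycles. -/

set_option linter.all false

open IsLocalRing CategoryTheory AlgebraicGeometry

namespace Vale.Agent.P297Z.Sf

open Vale.Agent.P297 (Place PlaceOver IsFF ClosedPt ZeroCycle Rat IsCenter liftAt centerMap
  constTo)
open Vale.Agent.P299

theorem fromSpecStalk_comp {Y : Scheme.{0}} (f : Y ⟶ Spec (.of ℂ)) (y : Y) :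
    Y.fromSpecStalk y ≫ f = Spec.map ((Scheme.ΓSpecIso (.of ℂ)).inv ≫ f.appTop ≫
      Y.presheaf.germ ⊤ y trivial) := by
  rw [Spec.map_comp, Spec.map_comp, ← Scheme.fromSpecStalk_toSpecΓ, Category.assoc,
    Category.assoc, ← Scheme.toSpecΓ_naturality_assoc, ← SpecMap_ΓSpecIso_hom, ← Spec.map_comp,
    Iso.inv_hom_id, Spec.map_id, Category.comp_id]

theorem isCenter_of {Y : Scheme.{0}} (f : Y ⟶ Spec (.of ℂ)) [IsProper f] {K : Type} [Field K]
    [Algebra ℂ K] (γ : Spec (.of K) ⟶ Y)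
    (hγ : γ ≫ f = Spec.map (CommRingCat.ofHom (algebraMap ℂ K))) (v : PlaceOver ℂ K) {E : Type}
    [Field E] (ρ : v.1.ring →+* E) (w : Place E) (y : Y) (σ : Y.presheaf.stalk y →+* K)
    (hσ : Spec.map (CommRingCat.ofHom σ) ≫ Y.fromSpecStalk y = γ) (h1 : ∀ a, σ a ∈ v.1.ring)
    (h2 : ∀ a, ρ ⟨σ a, h1 a⟩ ∈ w.ring)
    (h3 : ∀ a, ¬ IsUnit a → ρ ⟨σ a, h1 a⟩ = 0 ∨ 0 < w.ord (ρ ⟨σ a, h1 a⟩)) :
    IsCenter (Spec.map (CommRingCat.ofHom ρ) ≫ liftAt f γ hγ v) w y := by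
  let σ₁ : Y.presheaf.stalk y →+* v.1.ring := σ.codRestrict v.1.ring h1
  let σ₂ : Y.presheaf.stalk y →+* w.ring := (ρ.comp σ₁).codRestrict w.ring h2
  have e1 : liftAt f γ hγ v = Spec.map (CommRingCat.ofHom σ₁) ≫ Y.fromSpecStalk y := by
    apply P297.lift_unique f γ hγ v.1 _ _ (P297.liftAt_spec f γ hγ v)
    rw [← Category.assoc, ← Spec.map_comp, ← CommRingCat.ofHom_comp]
    exact hσ
  haveI : IsLocalHom σ₂ := ⟨fun a ha => by
    by_contra hc
    exact (Pl.mem_maximalIdeal_iff w (σ₂ a)).2 (h3 a hc) ha⟩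
  refine ⟨Spec.map (CommRingCat.ofHom σ₂) ≫ Y.fromSpecStalk y, ?_, ?_⟩
  · rw [e1, ← Category.assoc, ← Category.assoc, ← Spec.map_comp, ← Spec.map_comp,
      ← CommRingCat.ofHom_comp, ← CommRingCat.ofHom_comp]
    rfl
  · have h := IsLocalRing.comap_closedPoint σ₂
    exact (congrArg (fun z : Spec (Y.presheaf.stalk y) => (Y.fromSpecStalk y) z) h).trans
      Scheme.fromSpecStalk_closedPoint

theorem finsum_eq_of_sub {α β Q : Type} [AddCommGroup Q] (Φ : (β →₀ ℤ) →+ Q) (c : α → β)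
    (m m' : α → ℕ) (hm : {x | m x ≠ 0}.Finite) (hm' : {x | m' x ≠ 0}.Finite) (z : α →₀ ℤ)
    (hz : ∀ x, (m x : ℤ) - m' x = z x) (h0 : Φ (Finsupp.mapDomain c z) = 0) :
    ∑ᶠ x, m x • Φ (Finsupp.single (c x) 1) = ∑ᶠ x, m' x • Φ (Finsupp.single (c x) 1) := by
  have fin : ∀ n : α → ℕ, {x | n x ≠ 0}.Finite →
      (Function.support fun x => n x • Φ (Finsupp.single (c x) 1)).Finite := fun n hn =>
    hn.subset fun x hx h => hx (by simp [h])
  rw [← sub_eq_zero, ← finsum_sub_distrib (fin m hm) (fin m' hm'), ← h0]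
  have e : ∀ x, m x • Φ (Finsupp.single (c x) 1) - m' x • Φ (Finsupp.single (c x) 1) =
      Φ (Finsupp.single (c x) (z x)) := fun x => by
    rw [← hz, ← natCast_zsmul, ← natCast_zsmul, ← sub_smul, ← map_zsmul, Finsupp.smul_single,
      smul_eq_mul, mul_one]
  rw [finsum_congr e, finsum_eq_sum_of_support_subset (s := z.support), Finsupp.mapDomain,
    Finsupp.sum, map_sum]
  intro x hx
  rw [Finset.mem_coe, Finsupp.mem_support_iff]
  intro h
  exact hx (by simp [h])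

/-- The generic point of a variety. -/
noncomputable def genPt (X : S.PVar) : Spec (.of (S.K X)) ⟶ X.X :=
  X.X.fromSpecStalk (genericPoint X.X)

theorem genPt_comp (X : S.PVar) :
    genPt X ≫ X.str = Spec.map (CommRingCat.ofHom (algebraMap ℂ (S.K X))) :=
  fromSpecStalk_comp X.str _

theorem sp_injective {Y : Scheme.{0}} [IsIntegral Y] (y : Y) :
    Function.Injective (algebraMap (Y.presheaf.stalk y) Y.functionField) :=
  IsFractionRing.injective _ _

theorem van_of_not_isUnit {X : S.PVar} (y : S.Pt X.X) (a : S.stk X.X y) (ha : ¬ IsUnit a) :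
    S.Van (X := X) ((S.sp (S.spe_gp y)).hom a) y := by
  refine ⟨⟨a, rfl⟩, ?_⟩
  by_contra hc
  rw [not_or, not_not] at hc
  obtain ⟨h0, b, hb⟩ := hc
  refine ha (IsUnit.of_mul_eq_one b ?_)
  apply sp_injective (Y := X.X) y
  change (S.sp (S.spe_gp y)).hom (a * b) = (S.sp (S.spe_gp y)).hom 1
  rw [map_mul, map_one, hb]
  exact mul_inv_cancel₀ (G₀ := S.K X) h0

theorem rat : RAT := by
  intro X T c hL hM hR hV C D D' f hD hD' hC hC' hf h
  haveI := Surf.isFF hL.toLoc1 C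
  haveI : IsProper (Y := Spec (.of ℂ)) X.str := X.proper
  obtain ⟨u, hu⟩ := Surf.mult_sub hL C hD hD' hC hC' hf h
  let v : PlaceOver ℂ (S.K X) := ⟨C.pl, C.const_mem⟩
  let γ : Spec (.of C.Fn) ⟶ X.X :=
    Spec.map (CommRingCat.ofHom C.resid) ≫ liftAt X.str (genPt X) (genPt_comp X) v
  have hγ : γ ≫ X.str = Spec.map (CommRingCat.ofHom (algebraMap ℂ C.Fn)) := by
    have h1 := P297.liftAt_comp X.str (genPt X) (genPt_comp X) v
    refine (Category.assoc _ _ _).trans ((congrArg (_ ≫ ·) h1).trans ?_)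
    rw [← Spec.map_comp]
    rfl
  have hc : centerMap X.str γ hγ = c ∘ Surf.ctr hL.toLoc1 C := by
    funext w
    refine (P297.isCenter_iff X.str γ hγ w _).1 ?_
    have h1 := Surf.ctr_le hL.toLoc1 C w
    set x := Surf.ctr hL.toLoc1 C w
    have h2 : ∀ a, (S.sp (S.spe_gp (X := X.X) (c x).1)).hom a ∈ x.ring := fun a => hR x _ ⟨a, rfl⟩
    refine isCenter_of X.str (genPt X) (genPt_comp X) v C.resid w.1 (c x).1
      (S.sp (S.spe_gp (X := X.X) (c x).1)).hom
      (Scheme.SpecMap_stalkSpecializes_fromSpecStalk (S.spe_gp (X := X.X) (c x).1))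
      (fun a => (h1 (h2 a)).1)
      (fun a => (h1 (h2 a)).2) fun a ha => ?_
    exact Len.dom (C.rho (Crv.on_of_le h1)) ((Crv.le_cv_iff _).1 h1)
      ((x.mem_max ⟨_, h2 a⟩).2 (hV x _ (van_of_not_isUnit _ a ha)))
  refine finsum_eq_of_sub (QuotientAddGroup.mk' (Rat X.str)) c _ _
    (Surf.finite_mult hL hM C hD hC) (Surf.finite_mult hL hM C hD' hC') _ hu ?_
  rw [← Finsupp.mapDomain_comp, ← hc]
  exact (QuotientAddGroup.eq_zero_iff _).2 (P297.pushDiv_mem_Rat X.str γ hγ u)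

end Vale.Agent.P297Z.Sf
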