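import Vale.Agent.P297Z.Surf.UnifD
import Vale.Agent.P297Z.Surf.RR
import Vale.Agent.P297Z.Surf.Mult
import Vale.Agent.P297Z.Surf.Reg2A
import Mathlib.Algebra.Category.Grp.Injective
import Mathlib.Analysis.Complex.Cardinality

/-! One integer kills the differences of points. -/

set_option linter.all false

open IsLocalRing

namespace Vale.Agent.P297Z.Sf

open Vale.Agent.P297 (Place)

variable {K : Type} [Field K] [Algebra ℂ K] {S : Surf K}

namespace Ub

theorem exists_notMem {B : Set ℂ} (hB : B.Countable) : ∃ c, c ∉ B := by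
  by_contra hc
  push Not at hc
  exact not_countable_complex (hB.mono fun c _ => hc c)

/-- A finite dimensional complex space is not covered by countably many subspaces. -/
theorem avoid_sub {V : Type*} [AddCommGroup V] [Module ℂ V] (U : Submodule ℂ V) (hU : U.FG) :
    ∀ P : Set (Submodule ℂ V), P.Countable → (∀ p ∈ P, ¬ U ≤ p) → ∃ u ∈ U, ∀ p ∈ P, u ∉ p := by
  classical
  obtain ⟨s, rfl⟩ := hU
  induction s using Finset.induction_on with
  | empty => exact fun P _ h => ⟨0, zero_mem _, fun p hp => (h p hp (by simp)).elim⟩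
  | insert v s hv ih =>
    intro P hP h
    obtain ⟨u, hu, h1⟩ := ih {p ∈ P | ¬ Submodule.span ℂ (s : Set V) ≤ p}
      (hP.mono (Set.sep_subset _ _)) (fun p hp => hp.2)
    have h2 : (⋃ p ∈ P, {c : ℂ | u + c • v ∈ p}).Countable := by
      refine hP.biUnion fun p hp => Set.Subsingleton.countable fun c hc c' hc' => ?_
      by_contra hne
      have h3 : v ∈ p := by
        have h4 := p.sub_mem hc hc'
        rw [add_sub_add_left_eq_sub, ← sub_smul] at h4
        exact (p.smul_mem_iff (sub_ne_zero.2 hne)).1 h4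
      have h5 : u ∈ p := by simpa using p.sub_mem hc (p.smul_mem c h3)
      by_cases h6 : Submodule.span ℂ (s : Set V) ≤ p
      · refine h p hp ?_
        rw [Finset.coe_insert, Submodule.span_insert]
        exact sup_le ((Submodule.span_singleton_le_iff_mem _ _).2 h3) h6
      · exact h1 p ⟨hp, h6⟩ h5
    obtain ⟨c, hc⟩ := exists_notMem h2
    refine ⟨u + c • v, add_mem (Submodule.span_mono (by simp) hu)
      (Submodule.smul_mem _ _ (Submodule.subset_span (by simp))), fun p hp h3 => hc ?_⟩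
    exact Set.mem_biUnion hp h3

theorem disj {W : Submodule ℂ K} {C : Crv W} {D : Div W} (hC : D C = 0) (C' : Crv W) :
    (Finsupp.single C 1 : Div W) C' = 0 ∨ D C' = 0 := by
  by_cases e : C' = C
  · exact Or.inr (e ▸ hC)
  · exact Or.inl (Finsupp.single_eq_of_ne e)

theorem mult_ne (hA : S.All) {C : Crv S.W} {D : Div S.W} (hD : 0 ≤ D) (hC : D C = 0)
    {x : Pt S.W} (h : mult x (Finsupp.single C 1) D ≠ 0) :
    x.On C ∧ ∃ C', x.On C' ∧ D C' ≠ 0 := by
  obtain ⟨⟨C', h1, h2⟩, h3⟩ :=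
    (hA.multPos x _ D (Finsupp.single_nonneg.2 zero_le_one) hD (disj hC)).2.1 h
  have e : C' = C := by_contra fun e => h2 (Finsupp.single_eq_of_ne e)
  exact ⟨e ▸ h1, h3⟩

theorem meet_fin (h : S.Loc1) {C : Crv S.W} {D : Div S.W} (hC : D C = 0) :
    {x : Pt S.W | x.On C ∧ ∃ C', x.On C' ∧ D C' ≠ 0}.Finite :=
  (meet_finite h (disj hC)).subset fun x hx => ⟨⟨C, hx.1, by simp⟩, hx.2⟩

theorem supp_fin (hA : S.All) {C : Crv S.W} {D : Div S.W} (hD : 0 ≤ D) (hC : D C = 0)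
    {Q : Type*} [Zero Q] {g : Pt S.W → Q} (hg : ∀ x, mult x (Finsupp.single C 1) D = 0 → g x = 0) :
    Function.HasFiniteSupport g :=
  (meet_fin hA.toLoc1 hC).subset fun x hx => mult_ne hA hD hC fun e => hx (hg x e)

theorem map_sum (hA : S.All) {C : Crv S.W} {D : Div S.W} (hD : 0 ≤ D) (hC : D C = 0)
    {Q Q' : Type} [AddCommGroup Q] [AddCommGroup Q'] (φ : Q →+ Q') (c : Pt S.W → Q) :
    φ (∑ᶠ x, mult x (Finsupp.single C 1) D • c x) =
      ∑ᶠ x, mult x (Finsupp.single C 1) D • φ (c x) := by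
  rw [φ.map_finsum (supp_fin hA hD hC fun x e => by rw [e, zero_smul])]
  simp only [map_nsmul]

theorem ratOK_map (hA : S.All) {Q Q' : Type} [AddCommGroup Q] [AddCommGroup Q'] (φ : Q →+ Q')
    {c : Pt S.W → Q} (hc : RatOK c) : RatOK fun x => φ (c x) := by
  intro C D D' f h1 h2 h3 h4 h5 h6
  rw [← map_sum hA h1 h3, ← map_sum hA h2 h4, hc C D D' f h1 h2 h3 h4 h5 h6]

theorem ratOK_pi (hA : S.All) {ι : Type} {Q : ι → Type} [∀ i, AddCommGroup (Q i)]
    {c : ∀ i, Pt S.W → Q i} (hc : ∀ i, RatOK (c i)) : RatOK fun x i => c i x := by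
  intro C D D' f h1 h2 h3 h4 h5 h6
  funext i
  exact (map_sum hA h1 h3 (Pi.evalAddMonoidHom Q i) fun x i => c i x).trans
    ((hc i C D D' f h1 h2 h3 h4 h5 h6).trans
      (map_sum hA h2 h4 (Pi.evalAddMonoidHom Q i) fun x i => c i x).symm)

theorem sum_sub (hA : S.All) {C : Crv S.W} {D : Div S.W} (hD : 0 ≤ D) (hC : D C = 0)
    {Q : Type} [AddCommGroup Q] (c : Pt S.W → Q) (q : Q) :
    ∑ᶠ x, mult x (Finsupp.single C 1) D • (c x - q) =
      ∑ᶠ x, mult x (Finsupp.single C 1) D • c x - inter D (Finsupp.single C 1) • q := by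
  rw [inter_comm, inter_eq hA.inte (Finsupp.single_nonneg.2 zero_le_one) hD (disj hC),
    finsum_smul' (supp_fin hA hD hC fun x e => by rw [e, Nat.cast_zero]),
    ← finsum_sub_distrib (supp_fin hA hD hC fun x e => by rw [e, zero_smul])
      (supp_fin hA hD hC fun x e => by rw [e, Nat.cast_zero, zero_smul])]
  simp only [natCast_zsmul, smul_sub]

theorem ratOK_sub (hA : S.All) {Q : Type} [AddCommGroup Q] {c : Pt S.W → Q} (hc : RatOK c)
    (q : Q) : RatOK fun x => c x - q := by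
  intro C D D' f h1 h2 h3 h4 h5 h6
  have e : D = D' + div S.W f := by rw [h6]; abel
  rw [sum_sub hA h1 h3, sum_sub hA h2 h4, hc C D D' f h1 h2 h3 h4 h5 h6, e,
    inter_lin hA.toRR _ _ h5]

/-- The difference of two points is torsion in the universal sense. -/
theorem torsion (hA : S.All) (h : ∀ c : Pt S.W → ℂ, RatOK c → ∀ p q, c p = c q) (p q : Pt S.W) :
    ∃ n : ℕ, n ≠ 0 ∧ ∀ (Q : Type) [AddCommGroup Q] (c : Pt S.W → Q), RatOK c →
      n • (c p - c q) = 0 := by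
  by_contra hc
  have h1 : ∀ n : ℕ, ∃ (Q : Type) (_ : AddCommGroup Q) (c : Pt S.W → Q), RatOK c ∧
      (n + 1) • (c p - c q) ≠ 0 := fun n => by
    by_contra h2
    refine hc ⟨n + 1, n.succ_ne_zero, fun Q _ c h3 => ?_⟩
    by_contra h4
    exact h2 ⟨Q, inferInstance, c, h3, h4⟩
  choose Q inst c h2 h3 using h1
  have h4 := ratOK_pi hA h2
  set v : ∀ n, Q n := (fun i => c i p) - fun i => c i q with hv
  have h5 : Function.Injective (zmultiplesHom _ v) := by
    rw [injective_iff_map_eq_zero]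
    intro k hk
    rw [zmultiplesHom_apply] at hk
    by_contra h0
    obtain ⟨n, hn⟩ := Nat.exists_eq_succ_of_ne_zero (Int.natAbs_ne_zero.2 h0)
    have h6 : k.natAbs • v = 0 := natAbs_nsmul_eq_zero.2 hk
    rw [hn] at h6
    exact h3 n (congrFun h6 n)
  obtain ⟨φ, hφ⟩ := (Module.Baer.of_divisible ℂ).extension_property_addMonoidHom _ h5
    (Int.castAddHom ℂ)
  have h7 := DFunLike.congr_fun hφ 1
  have h8 := h _ (ratOK_map hA φ h4) p q
  rw [AddMonoidHom.comp_apply, zmultiplesHom_apply, one_smul, hv, map_sub] at h7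
  rw [sub_eq_zero.2 h8] at h7
  simp at h7

theorem idl_eq (hL : S.Loc) {x : Pt S.W} {Z : Div S.W} {a : x.ring} (ha : (a : K) ≠ 0)
    (h : ∀ C, x.On C → C.ord a = Z C) : idl x Z = Ideal.span {a} := by
  have hs : GenAt x (-Z) a := ⟨ha, fun C hC => by rw [h C hC, Finsupp.neg_apply, add_neg_cancel]⟩
  ext f
  rw [mem_idl, ← Mu.div_mem_ring hL hs, Ideal.mem_span_singleton']
  constructor
  · intro h
    exact ⟨⟨_, h⟩, Subtype.ext (div_mul_cancel₀ _ ha)⟩
  · rintro ⟨c, rfl⟩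
    have : ((c * a : x.ring) : K) / a = c := mul_div_cancel_right₀ _ ha
    rw [this]
    exact c.2

theorem hyp_zero (hL : S.Loc) {C : Crv S.W} {w : K} (hw : w ∈ S.W) (h : C.In w) :
    (S.H + div S.W w) C = 0 := by
  rw [Finsupp.add_apply, div_apply hL.toLoc2, hL.hyp_in C w hw h, neg_add_cancel]

theorem div_van (hL : S.Loc) {x : Pt S.W} {a : K} (h0 : a ≠ 0) (h : x.Van a) :
    ∃ C, x.On C ∧ div S.W a C ≠ 0 := by
  by_contra hc
  push Not at hc
  refine h.2.resolve_left h0 ((hL.normal x _).1 (Or.inr fun C hC => ?_))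
  have h3 := hc C hC
  rw [div_apply hL.toLoc2] at h3
  unfold Crv.ord at *
  rw [Pl.ord_inv, h3]
  simp

/-- A curve which is smooth at `x` and avoids countably many curves. -/
theorem exists_crv (hA : S.All) (x : Pt S.W) {w : K} (hw : w ∈ S.W) (hx : x.In w)
    {B : Set (Crv S.W)} (hB : B.Countable) :
    ∃ C, C ∉ B ∧ x.On C ∧ ∃ l ∈ van x, ∃ π t : x.ring, (t : K) = l / w ∧
      maximalIdeal x.ring = Ideal.span {π, t} ∧ C.ord π = 1 ∧
      (∀ C', x.On C' → C' ≠ C → C'.ord π = 0) ∧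
      ∀ a : x.ring, π ∣ a ↔ ((a : K) = 0 ∨ 0 < C.ord a) := by
  have := hA.reg x
  have := hA.ufd x
  obtain ⟨l₁, -, l₂, h2, s, t, -, ht, hm⟩ := hA.gens x w hw hx
  have h3 : ∀ c : ℂ, maximalIdeal x.ring = Ideal.span {algebraMap ℂ x.ring c * t + 1 * s, t} :=
    fun c => by
      rw [Set.pair_comm] at hm ⊢
      exact R2.swap hm rfl ((Ideal.ne_top_iff_one _).1 (maximalIdeal.isMaximal _).ne_top)
  choose C h4 h5 h6 h7 using fun c : ℂ => hA.crv_of_irr x _
    (R2.prime_of (R2.left_mem (h3 c)) (R2.notMem_sq (hA.dim x) (h3 c)))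
  have h8 : Function.Injective C := by
    intro c c' e
    by_contra hne
    have h9 : algebraMap ℂ x.ring c * t + 1 * s ∣ algebraMap ℂ x.ring c' * t + 1 * s :=
      (h7 c _).2 (Or.inr (by rw [e, h5 c']; exact zero_lt_one))
    have h10 := dvd_sub (dvd_refl _) h9
    rw [add_sub_add_right_eq_sub, ← sub_mul, ← map_sub] at h10
    exact R2.not_dvd (hA.dim x) (h3 c)
      ((IsUnit.dvd_mul_left ((IsUnit.mk0 _ (sub_ne_zero.2 hne)).map _)).1 h10)
  obtain ⟨c, hc⟩ := exists_notMem (hB.preimage h8)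
  exact ⟨C c, hc, h4 c, l₂, h2, _, t, ht, h3 c, h5 c, h6 c, h7 c⟩

/-- Moving a point to points outside a thin set. -/
theorem move (hA : S.All) (x : Pt S.W) {B : Set (Crv S.W)} (hB : B.Countable)
    {N : Set (Pt S.W)} (hN : ∀ C, C ∉ B → {p | p.On C ∧ p ∈ N}.Countable)
    {Q : Type} [AddCommGroup Q] {c : Pt S.W → Q} (hc : RatOK c) (h0 : ∀ p, p ∉ N → c p = 0) :
    c x = 0 := by
  have := hA.reg x
  have hL := hA.toLoc
  have hW : S.W.FG := (Submodule.fg_iff_finiteDimensional _).2 S.model.fin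
  obtain ⟨w, hw, hx⟩ := x.exists_in
  obtain ⟨C, hCB, hC, l₂, h2, π, t, ht, hm, h3, h4, h5⟩ := exists_crv hA x hw hx hB
  have hNC := hN C hCB
  let V₀ : Submodule ℂ K := (((Ideal.span {π} ⊔ maximalIdeal x.ring ^ 2).restrictScalars ℂ).map
    x.ring.val.toLinearMap).comap (LinearMap.mulRight ℂ w⁻¹)
  have hV : ∀ (l : K) (g : x.ring), (g : K) = l / w →
      (l ∈ V₀ ↔ g ∈ Ideal.span {π} ⊔ maximalIdeal x.ring ^ 2) := fun l g e => by
    constructor
    · rintro ⟨g', h6, h7⟩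
      have h8 : g' = g := Subtype.ext (h7.trans (by rw [e, div_eq_mul_inv]; rfl))
      exact h8 ▸ h6
    · intro h6
      exact ⟨g, h6, e.trans (div_eq_mul_inv _ _)⟩
  have hvan : (van x).FG := by
    have := S.model.fin
    have := Submodule.finiteDimensional_of_le (show van x ≤ S.W from fun _ h => h.1)
    exact (Submodule.fg_iff_finiteDimensional _).2 this
  obtain ⟨l, hl, h6⟩ := avoid_sub (van x) hvan
    (insert V₀ (van '' ({p | p.On C ∧ p ∈ N} \ {x}))) (((hNC.mono Set.diff_subset).image _).insert _)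
    (by
      rintro _ (rfl | ⟨p, hp, rfl⟩) hle
      · refine R2.not_le_span (hA.dim x) (R2.left_mem hm) (R2.nak (hm.le.trans ?_))
        rw [Ideal.span_le, Set.insert_subset_iff, Set.singleton_subset_iff]
        exact ⟨Ideal.mem_sup_left (Ideal.mem_span_singleton_self π), (hV l₂ t ht).1 (hle h2)⟩
      · obtain ⟨l, h6, h7⟩ := hA.sep x p fun e => hp.2 e.symm
        exact (mem_van.1 (hle h6)).2 h7)
  obtain ⟨w', hw', h7⟩ := avoid_sub S.W hW (van '' insert x {p | p.On C ∧ p ∈ N})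
    ((hNC.insert x).image _) (by
      rintro _ ⟨p, -, rfl⟩ hle
      obtain ⟨l, h6, h7⟩ := p.exists_in
      exact (mem_van.1 (hle h6)).2 h7)
  have h8 : ∀ p ∈ insert x {p | p.On C ∧ p ∈ N}, p.In w' := fun p hp => by
    by_contra h9
    exact h7 _ ⟨p, hp, rfl⟩ (mem_van.2 ⟨hw', h9⟩)
  have h9 : ∀ p, p.On C → p ∈ N → p ≠ x → p.In l := fun p a b e => by
    by_contra h9
    exact h6 _ (Or.inr ⟨p, ⟨⟨a, b⟩, e⟩, rfl⟩) (mem_van.2 ⟨hl.1, h9⟩)
  have hxw := h8 x (Or.inl rfl)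
  obtain ⟨g, hg⟩ : ∃ g : x.ring, (g : K) = l / w := ⟨⟨_, hx.2 l hl.1⟩, rfl⟩
  have hg1 : g ∈ maximalIdeal x.ring := (x.mem_max g).2 (hg ▸ hl.2 w hw hx)
  have hg2 : g ∉ Ideal.span {π} ⊔ maximalIdeal x.ring ^ 2 := fun h =>
    h6 _ (Or.inl rfl) ((hV l g hg).2 h)
  have hm' : maximalIdeal x.ring = Ideal.span {π, g} := by
    obtain ⟨a, b, e⟩ := Ideal.mem_span_pair.1 (hm ▸ hg1)
    refine R2.swap hm e.symm fun hb => hg2 ?_
    rw [← e]
    exact Submodule.add_mem_sup (Ideal.mul_mem_left _ _ (Ideal.mem_span_singleton_self π))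
      (R2.mul_mem_sq hb (R2.right_mem hm))
  have hnd := mt (h5 g).2 (R2.not_dvd (hA.dim x) hm')
  push Not at hnd
  have hl0 : l ≠ 0 := by
    rintro rfl
    exact hnd.1 (by rw [hg, zero_div])
  have hord : ∀ C', x.On C' → C'.ord g = (S.H + div S.W l) C' := fun C' h => by
    rw [Finsupp.add_apply, div_apply hL.toLoc2, hL.hyp_in C' w hw (h.crv_in hx), hg]
    unfold Crv.ord
    rw [Pl.ord_div _ hl0 hx.1]
    ring
  have hD : (S.H + div S.W l) C = 0 := by
    rw [← hord C hC]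
    exact le_antisymm hnd.2 (Pl.ord_nonneg_of_mem _ (hC _ g.2))
  have hD' : (S.H + div S.W w') C = 0 := hyp_zero hL hw' (hC.crv_in hxw)
  have e1 := eff_of_mem hL.toLoc2 (mem_H0_H hL.toLoc2 hl.1) hl0
  have e2 := eff_of_mem hL.toLoc2 (mem_H0_H hL.toLoc2 hw') hxw.1
  have hπ : (π : K) ≠ 0 := fun e => by
    rw [e] at h3
    simp [Crv.ord] at h3
  have hmult : mult x (Finsupp.single C 1) (S.H + div S.W l) = 1 := by
    have a1 : idl x (Finsupp.single C 1) = Ideal.span {π} := idl_eq hL hπ fun C' h => by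
      by_cases e : C' = C
      · rw [e, h3, Finsupp.single_eq_same]
      · rw [h4 C' h e, Finsupp.single_eq_of_ne e]
    have a2 := hA.jet_dim x 1
    rw [pow_one] at a2
    rw [mult, a1, idl_eq hL hnd.1 hord, ← Ideal.span_insert, ← hm']
    omega
  have key := hc C _ _ (l / w') e1 e2 hD hD' (div_ne_zero hl0 hxw.1) (by
    ext C'
    simp only [Finsupp.sub_apply, Finsupp.add_apply, div_apply hL.toLoc2]
    unfold Crv.ord
    rw [Pl.ord_div _ hl0 hxw.1]
    ring)
  rw [finsum_eq_single _ x, hmult, one_smul, finsum_eq_zero_of_forall_eq_zero] at key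
  · exact key
  · intro p
    by_cases e : mult p (Finsupp.single C 1) (S.H + div S.W w') = 0
    · rw [e, zero_smul]
    obtain ⟨a, C', b, d⟩ := mult_ne hA e2 hD' e
    rw [h0 p fun h => d (hyp_zero hL hw' (b.crv_in (h8 p (Or.inr ⟨a, h⟩)))), smul_zero]
  · intro p hp
    by_cases e : mult p (Finsupp.single C 1) (S.H + div S.W l) = 0
    · rw [e, zero_smul]
    obtain ⟨a, C', b, d⟩ := mult_ne hA e1 hD e
    rw [h0 p fun h => d (hyp_zero hL hl.1 (b.crv_in (h9 p a h hp))), smul_zero]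

end Ub

theorem unif (h : UNIFA) : UNIF := by
  intro K _ _ S hA h1 Q _ c hc
  have hL := hA.toLoc
  obtain ⟨y⟩ := hA.pt_ne
  obtain ⟨A, hA1, hA2, hA3⟩ := h K S hL y
  let N : Set (Pt S.W) := {z | ¬ (z.In (S.x 0) ∧ ∀ a ∈ A, ¬ z.Van a)}
  obtain ⟨n, hn, h2⟩ : ∃ n : ℕ, n ≠ 0 ∧ ∀ z, z ∉ N → n • (c z - c y) = 0 := by
    by_cases e : ∃ z, z ∉ N
    · obtain ⟨z, hz⟩ := e
      obtain ⟨n, hn, h2⟩ := Ub.torsion hA h1 z y
      have hz' := not_not.1 hz
      exact ⟨n, hn, fun z' h3 => hA3 z z' hz'.1 (not_not.1 h3).1 hz'.2 (not_not.1 h3).2 n h2 Q c hc⟩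
    · exact ⟨1, one_ne_zero, fun z hz => (e ⟨z, hz⟩).elim⟩
  have h3 : ∀ x, n • (c x - c y) = 0 := fun x => by
    refine Ub.move hA x
      (B := ((S.H + div S.W (S.x 0)).support : Set (Crv S.W)) ∪ ⋃ a ∈ A, (div S.W a).support)
      ((Finset.countable_toSet _).union (hA1.biUnion fun a _ => Finset.countable_toSet _))
      (N := N) (fun C hC => ?_)
      (Ub.ratOK_map hA (nsmulAddMonoidHom n) (Ub.ratOK_sub hA hc (c y))) h2
    have h4 : (S.H + div S.W (S.x 0)) C = 0 :=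
      Finsupp.notMem_support_iff.1 fun e => hC (Or.inl e)
    have h5 : ∀ a ∈ A, div S.W a C = 0 := fun a ha =>
      Finsupp.notMem_support_iff.1 fun e => hC (Or.inr (Set.mem_biUnion ha e))
    refine ((Ub.meet_fin hL.toLoc1 h4).countable.union
      (hA1.biUnion fun a ha => (Ub.meet_fin hL.toLoc1 (h5 a ha)).countable)).mono ?_
    rintro p ⟨h6, h7⟩
    by_cases e : p.In (S.x 0)
    · obtain ⟨a, ha, h8⟩ : ∃ a ∈ A, p.Van a := by
        by_contra h8
        exact h7 ⟨e, fun a ha h9 => h8 ⟨a, ha, h9⟩⟩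
      exact Or.inr (Set.mem_biUnion ha ⟨h6, Ub.div_van hL (hA2 a ha).1 h8⟩)
    · exact Or.inl ⟨h6, hyp_van hL.toLoc2 (mem_van.2 ⟨S.x_mem 0, e⟩) (S.x_ne 0)⟩
  refine ⟨n, hn, fun p q => ?_⟩
  rw [show c p - c q = (c p - c y) - (c q - c y) by abel, smul_sub, h3, h3, sub_zero]

end Vale.Agent.P297Z.Sf
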