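import Vale.Agent.P297Z.Surf.AllOf
import Vale.Agent.P297Z.Surf.NumI
import Vale.Agent.P297Z.Surf.BR2
import Vale.Agent.P297Z.Surf.BR3
import Vale.Agent.P297Z.Surf.Rat
import Vale.Agent.P297Z.Surf.UnifB
import Vale.Agent.P297.H2.Integral
import Vale.Agent.P297Z.Surf.All

/-! From the first stage to the statement on schemes. -/

set_option linter.all false

namespace Vale.Agent.P297Z.Sf

open Vale.Agent.P297 (ClosedPt ZeroCycle Rat RatEquiv)
open Vale.Agent.P299

theorem Dict.isSec {X : S.PVar} {A : S.Div X} {W : Submodule ℂ (S.K X)} {e c}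
    (h : Dict X A W e c) {B : S.Div X} {f : S.K X} (hf : f ≠ 0) :
    S.IsSec B f ↔ ∀ C : Crv W, 0 ≤ C.ord f + B (e C) := by
  constructor
  · intro hs C
    have h1 := hs (e C).1 (e C).2 hf
    rwa [S.coef, dif_pos (e C).2, ← h.ord C f hf] at h1
  · intro hs x hx _
    have h1 := hs (e.symm ⟨x, hx⟩)
    rw [h.ord _ f hf, e.apply_symm_apply] at h1
    rwa [S.coef, dif_pos hx]

theorem good_of_dict (X : S.PVar) (A κ : S.Div X) (T : Surf (S.K X)) (e c)
    (h2 : S.dim X = 2) (hD : Dict X A T.W e c) (hκ : S.IsCanonical κ) (hp : ¬ S.HasSec κ)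
    (hq : IrregularityZero X) : T.Good := by
  have h := T.all
  obtain ⟨hH, g, hg, hK⟩ := br2 X _ T e c h2 hD h.toLoc h.toCan κ hκ
  have hc := br3 X _ T e c h2 hD h.toLoc hq
  have hpg : H0 T.kap = ⊥ := by
    rw [eq_bot_iff]
    intro f hf
    by_contra h0
    refine hp ⟨f / g, div_ne_zero h0 hg, (hD.isSec (div_ne_zero h0 hg)).2 fun C => ?_⟩
    have h1 := hf.resolve_left h0 C trivial
    have h3 := Pl.ord_div C.pl h0 hg
    rw [hK]
    unfold Crv.ord at *
    omega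
  refine ⟨?_, hpg⟩
  have h1 := (h.cech 0).1 hc
  rw [h1, h0_zero h.toLoc.toLoc2, sub_zero, h0_bot hpg, add_zero]

/-- The statement on schemes follows from the first stage. -/
theorem bloch_of (hB : BR1) (h : STAGE1U) : BlochAll := by
  intro X κ h2 hκ hp hq
  obtain ⟨A, hA⟩ := X.ample
  obtain ⟨n, W, e, c, hn, hW, hD⟩ := hB X.toPVar A h2 hA
  obtain ⟨T, rfl⟩ := Sf.nn _ W hW
  have hG := good_of_dict X.toPVar _ κ T e c h2 hD hκ hp hq
  obtain ⟨T', π, hG', hK, hπ, hd⟩ := T.blow hG (inter T.kap T.kap + 12).toNat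
  have hR := rat X.toPVar T' (c ∘ π) T'.all.toLoc T'.all.multPos
    (fun y f hf => (hd y).1 ((hD.pt _ f).2 hf))
    (fun y f hf => (hd y).2 f ⟨(hD.pt _ f).2 hf.1, hf.2.imp id fun a b => a ((hD.pt _ _).1 b)⟩)
  obtain ⟨m, hm, h1⟩ := h _ T' T'.all hG' (by omega) _ _ hR
  refine @Vale.Agent.P297.H2.ratEquiv_of_nsmul X.X X.int X.str X.proper m hm fun u v => ?_
  obtain ⟨p, rfl⟩ := (hD.surj.comp hπ) u
  obtain ⟨q, rfl⟩ := (hD.surj.comp hπ) v
  have h3 := h1 p q
  rw [← map_sub, ← map_nsmul, QuotientAddGroup.mk'_apply, QuotientAddGroup.eq_zero_iff] at h3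
  rwa [natCast_zsmul]

theorem bloch_of_stage1 (hB : BR1) (hU : UNIFA) (h : STAGE1) : BlochAll :=
  bloch_of hB (stage1U_of h (unif hU))

end Vale.Agent.P297Z.Sf
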