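import Vale.Agent.P297Z.Surf.Loc1b
import Mathlib.RingTheory.Etale.Field
import Mathlib.RingTheory.Etale.Kaehler
import Mathlib.RingTheory.Kaehler.Polynomial
import Mathlib.RingTheory.Valuation.LocalSubring

/-! Algebraic lemmas for the comparison of a scheme and of a model. -/

set_option linter.all false

open IsLocalRing

namespace Vale.Agent.P297Z.Sf.BR1x

variable {K : Type} [Field K] [Algebra ℂ K]

/-- The number of the independent vector fields is the transcendence degree. -/
theorem finrank_der {n : ℕ} (g : MvPolynomial (Fin n) ℂ →ₐ[ℂ] K) (hinj : Function.Injective g)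
    (halg : ∀ z : K, ∃ P : Polynomial (MvPolynomial (Fin n) ℂ), P ≠ 0 ∧
      Polynomial.eval₂ g.toRingHom z P = 0) :
    Module.finrank K (Derivation ℂ K K) = n ∧ Algebra.trdeg ℂ K = n := by
  let R := MvPolynomial (Fin n) ℂ
  let _ : Algebra R K := g.toRingHom.toAlgebra
  have hT : IsScalarTower ℂ R K := IsScalarTower.of_algebraMap_eq fun c => (g.commutes c).symm
  have hF : FaithfulSMul R K := (faithfulSMul_iff_algebraMap_injective _ _).2 hinj
  have hA : Algebra.IsAlgebraic R K := ⟨halg⟩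
  let F := FractionRing R
  let _ : Algebra F K := FractionRing.liftAlgebra R K
  have hT2 : IsScalarTower R F K := FractionRing.isScalarTower_liftAlgebra R K
  have hA2 : Algebra.IsAlgebraic F K := Algebra.IsAlgebraic.extendScalars (R := R)
    (IsFractionRing.injective R F)
  have e1 : Algebra.FormallyEtale R F := Algebra.FormallyEtale.of_isLocalization (nonZeroDivisors R)
  have e2 : Algebra.FormallyEtale F K := Algebra.FormallyEtale.of_isSeparable F K
  have e3 : Algebra.FormallyEtale R K := Algebra.FormallyEtale.comp R F K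
  constructor
  · have h1 := (KaehlerDifferential.tensorKaehlerEquivOfFormallyEtale ℂ R K).finrank_eq
    have h2 := Module.finrank_eq_card_basis
      ((KaehlerDifferential.mvPolynomialBasis ℂ (Fin n)).baseChange K)
    rw [← (KaehlerDifferential.linearMapEquivDerivation ℂ K (M := K)).finrank_eq]
    refine (Subspace.dual_finrank_eq (K := K) (V := Ω[K⁄ℂ])).trans ?_
    rw [← h1]
    simpa using h2
  · have h1 := trdeg_add_eq ℂ R (A := K)
    rw [trdeg_eq_zero (R := R) (A := K), add_zero, MvPolynomial.trdeg_of_isDomain] at h1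
    rw [← h1]
    simp

theorem trdeg_eq (A : Subalgebra ℂ K) [Algebra.FiniteType ℂ A] [IsFractionRing A K]
    (h : Module.finrank K (Derivation ℂ K K) = 2) : Algebra.trdeg ℂ K = 2 := by
  obtain ⟨n, g, hinj, hint⟩ := exists_integral_inj_algHom_of_fg ℂ A
  have key := finrank_der (K := K) (A.val.comp g) (Subtype.val_injective.comp hinj) (by
    let _ : Algebra (MvPolynomial (Fin n) ℂ) A := g.toRingHom.toAlgebra
    let _ : Algebra (MvPolynomial (Fin n) ℂ) K := (A.val.comp g).toRingHom.toAlgebra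
    have hT : IsScalarTower (MvPolynomial (Fin n) ℂ) A K :=
      IsScalarTower.of_algebraMap_eq fun _ => rfl
    have hI : Algebra.IsIntegral (MvPolynomial (Fin n) ℂ) A := ⟨hint⟩
    have h1 : Algebra.IsAlgebraic A K := IsLocalization.isAlgebraic K (nonZeroDivisors A)
    have h2 : Algebra.IsAlgebraic (MvPolynomial (Fin n) ℂ) K :=
      Algebra.IsAlgebraic.trans (MvPolynomial (Fin n) ℂ) A K
    exact h2.1)
  rw [h] at key
  rw [key.2, ← key.1]
  rfl

/-- An algebra is the intersection of its localisations. -/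
theorem mem_of_forall_loc {A : Subalgebra ℂ K} {f : K}
    (h : ∀ (p : Ideal A) (hp : p.IsPrime), f ∈ loc A p hp) : f ∈ A := by
  let I : Ideal A :=
    { carrier := {b | f * b ∈ A}
      zero_mem' := by simp
      add_mem' := fun {a b} ha hb => by
        change f * ((a : K) + b) ∈ A
        rw [mul_add]
        exact add_mem ha hb
      smul_mem' := fun c a ha => by
        change f * ((c : K) * a) ∈ A
        rw [mul_left_comm]
        exact mul_mem c.2 ha }
  by_cases hI : I = ⊤
  · have h1 : (1 : A) ∈ I := hI ▸ Submodule.mem_top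
    have h2 : f * ((1 : A) : K) ∈ A := h1
    simpa using h2
  · obtain ⟨m, hm, hle⟩ := I.exists_le_maximal hI
    obtain ⟨a, b, hb, e⟩ := h m hm.isPrime
    exact absurd (hle (show f * b ∈ A from e ▸ a.2)) hb

/-- A valuation ring above a prime ideal. -/
theorem exists_valuation {A : Subalgebra ℂ K} (p : Ideal A) (hp : p ≠ ⊤) :
    ∃ V : ValuationSubring K, (∀ a ∈ A, a ∈ V) ∧ ∀ a ∈ p, (a : K) = 0 ∨ (a : K)⁻¹ ∉ V := by
  obtain ⟨V, h1, h2⟩ := Ideal.image_subset_nonunits_valuationSubring (A := A.toSubring) p hp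
  refine ⟨V, fun a ha => h1 ha, fun a ha => ?_⟩
  have h3 : (a : K) ∈ V.nonunits := h2 ⟨a, ha, rfl⟩
  rw [← inv_inv (a : K), V.inv_mem_nonunits_iff] at h3
  simpa using h3

/-- Two normalised orders with the same ring agree. -/
theorem ord_unique (o o' : K → ℤ) (hm : ∀ x y, x ≠ 0 → y ≠ 0 → o (x * y) = o x + o y)
    (hm' : ∀ x y, x ≠ 0 → y ≠ 0 → o' (x * y) = o' x + o' y)
    (h : ∀ x, x ≠ 0 → (0 ≤ o x ↔ 0 ≤ o' x)) (h1 : ∃ x, x ≠ 0 ∧ o x = 1)
    (h1' : ∃ x, x ≠ 0 ∧ o' x = 1) (f : K) (hf : f ≠ 0) : o f = o' f := by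
  have inv : ∀ q : K → ℤ, (∀ x y, x ≠ 0 → y ≠ 0 → q (x * y) = q x + q y) →
      ∀ x, x ≠ 0 → q x⁻¹ = - q x := by
    intro q hq x hx
    have a1 := hq 1 1 one_ne_zero one_ne_zero
    have a2 := hq x x⁻¹ hx (inv_ne_zero hx)
    rw [mul_one] at a1
    rw [mul_inv_cancel₀ hx] at a2
    omega
  have pw : ∀ q : K → ℤ, (∀ x y, x ≠ 0 → y ≠ 0 → q (x * y) = q x + q y) →
      ∀ x, x ≠ 0 → ∀ n : ℤ, q (x ^ n) = n * q x := by
    intro q hq x hx n
    have key : ∀ m : ℕ, q (x ^ m) = m * q x := by
      intro m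
      induction m with
      | zero =>
        have a1 := hq 1 1 one_ne_zero one_ne_zero
        rw [mul_one] at a1
        rw [pow_zero]
        omega
      | succ m ih =>
        rw [pow_succ, hq _ _ (pow_ne_zero m hx) hx, ih]
        push_cast
        ring
    obtain ⟨m, rfl | rfl⟩ := Int.eq_nat_or_neg n
    · rw [zpow_natCast, key]
    · rw [zpow_neg, zpow_natCast, inv q hq _ (pow_ne_zero m hx), key]
      ring
  obtain ⟨p, hp, hp1⟩ := h1
  obtain ⟨q, hq, hq1⟩ := h1'
  have key : ∀ g, g ≠ 0 → o' g = o g * o' p := by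
    intro g hg
    have hz : p ^ (- o g) ≠ 0 := zpow_ne_zero _ hp
    have hu := mul_ne_zero hg hz
    have a1 := hm _ _ hg hz
    have a2 := hm' _ _ hg hz
    rw [pw o hm p hp, hp1] at a1
    rw [pw o' hm' p hp] at a2
    have a3 := (h _ hu).1 (by omega)
    have a4 := (h _ (inv_ne_zero hu)).1 (by rw [inv o hm _ hu]; omega)
    rw [inv o' hm' _ hu] at a4
    linarith
  have a1 := key q hq
  have a2 := (h p hp).1 (by omega)
  rw [hq1] at a1
  have a3 : o' p = 1 := Int.eq_one_of_mul_eq_one_left a2 a1.symm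
  rw [key f hf, a3, mul_one]

end Vale.Agent.P297Z.Sf.BR1x
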