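import Vale.Agent.P297Z.Surf.BR1a
import Vale.Agent.P297Z.Surf.BR3
import Vale.Agent.P299.R.Smooth
import Mathlib.AlgebraicGeometry.ValuativeCriterion

/-! The local rings of a smooth proper variety, inside its function field. -/

set_option linter.all false

open CategoryTheory TopologicalSpace Opposite AlgebraicGeometry Order IsLocalRing

namespace Vale.Agent.P297Z.Sf.BR1x

open Vale.Agent.P297 (ClosedPt)
open Vale.Agent.P299

variable {X : S.PVar}

/-- The embedding of a stalk in the function field. -/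
noncomputable def tk (y : X.X) : X.X.presheaf.stalk y →+* S.K X := G.toK y

theorem tk_injective (y : X.X) : Function.Injective (tk y) := G.toK_injective y

variable (X) in
/-- The local ring at a point. -/
noncomputable def OX (y : X.X) : Subalgebra ℂ (S.K X) :=
  { (tk y).range with algebraMap_mem' := fun c => reg_cst c y }

theorem mem_OX {y : X.X} {f : S.K X} : f ∈ OX X y ↔ S.Reg f y := Iff.rfl

theorem mem_OX' {y : X.X} {f : S.K X} : f ∈ OX X y ↔ ∃ a, tk y a = f := Iff.rfl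

/-- The stalk is isomorphic to its image. -/
noncomputable def stalkEquiv (y : X.X) : X.X.presheaf.stalk y ≃+* OX X y :=
  RingEquiv.ofBijective ((tk y).codRestrict (OX X y) fun a => ⟨a, rfl⟩)
    ⟨fun a b h => tk_injective y (congrArg Subtype.val h),
      fun ⟨_, a, ha⟩ => ⟨a, Subtype.ext ha⟩⟩

theorem coe_stalkEquiv (y : X.X) (a : X.X.presheaf.stalk y) :
    ((stalkEquiv y a : OX X y) : S.K X) = tk y a := rfl

instance (y : X.X) : IsLocalRing (OX X y) := (stalkEquiv y).isLocalRing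

theorem isUnit_iff (y : X.X) (a : X.X.presheaf.stalk y) :
    IsUnit a ↔ tk y a ≠ 0 ∧ (tk y a)⁻¹ ∈ OX X y := by
  rw [← MulEquiv.isUnit_map (f := stalkEquiv y), isUnit_iff_inv]
  rfl

theorem OX_dim (y : X.X) : ringKrullDim (OX X y) = coheight y := by
  rw [← ringKrullDim_eq_of_ringEquiv (stalkEquiv y), ringKrullDim_stalk_eq_coheight]

theorem OX_mono {y z : X.X} (h : y ⤳ z) : OX X z ≤ OX X y := fun _ hf => reg_of_spe h hf

theorem OX_regular (y : X.X) : IsRegularLocalRing (OX X y) := by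
  obtain ⟨_, ⟨U, hU, rfl⟩, hxU, -⟩ :=
    X.X.isBasis_affineOpens.exists_subset_of_mem_open (Set.mem_univ y) isOpen_univ
  have hT : IsAffineOpen (⊤ : Q.SpecC.Opens) := isAffineOpen_top _
  let g : X.X ⟶ Q.SpecC := X.str
  have : Smooth g := X.smooth
  have e : U ≤ g ⁻¹ᵁ (⊤ : Q.SpecC.Opens) := le_top
  have hs := g.smooth_appLE hT hU e
  have : Nonempty U := ⟨⟨y, hxU⟩⟩
  algebraize [(g.appLE ⊤ U e).hom]
  let eR : ℂ ≃+* Γ(Q.SpecC, ⊤) :=
    (Scheme.ΓSpecIso (CommRingCat.of ℂ)).symm.commRingCatIsoToRingEquiv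
  have : IsRegularRing Γ(Q.SpecC, ⊤) := IsRegularRing.of_ringEquiv eR
  let _ := TopCat.Presheaf.algebra_section_stalk X.X.presheaf (U := U) ⟨y, hxU⟩
  have := hU.isLocalization_stalk ⟨y, hxU⟩
  have h1 : IsRegularRing (X.X.presheaf.stalk y) :=
    R.isRegularRing_of_smooth_of_atPrime Γ(Q.SpecC, ⊤) Γ(X.X, U) (X.X.presheaf.stalk y)
      (hU.primeIdealOf ⟨y, hxU⟩).asIdeal
  have h2 : IsRegularRing (OX X y) := IsRegularRing.of_ringEquiv (stalkEquiv y)
  exact IsRegularLocalRing.of_isRegularRing_of_isLocalRing _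

theorem stalk_dvr (y : X.X) (hy : coheight y = 1) :
    IsDiscreteValuationRing (X.X.presheaf.stalk y) := by
  let _ : X.X.Over Q.SpecC := ⟨X.str⟩
  have : Smooth (X.X ↘ Q.SpecC) := X.smooth
  exact Q.dvr_of_normal (Q.isIntegrallyClosed_stalk_of_smooth X.X) y hy

theorem OX_dvr (y : X.X) (hy : coheight y = 1) : IsDiscreteValuationRing (OX X y) :=
  haveI := stalk_dvr y hy
  IsDiscreteValuationRing.RingEquivClass.isDiscreteValuationRing (stalkEquiv y)

/-- The valuative criterion of properness. -/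
theorem exists_center (V : ValuationSubring (S.K X)) (hV : ∀ c : ℂ, algebraMap ℂ (S.K X) c ∈ V) :
    ∃ x : X.X, ∀ f ∈ OX X x, f ∈ V := by
  let g : X.X ⟶ Q.SpecC := X.str
  have : IsProper g := X.proper
  have hex : ValuativeCriterion.Existence g := by
    have h1 : UniversallyClosed g := inferInstance
    rw [UniversallyClosed.eq_valuativeCriterion] at h1
    exact h1.1
  let cV : ℂ →+* V := (algebraMap ℂ (S.K X)).codRestrict V.toSubring hV
  let j : CommRingCat.of V ⟶ CommRingCat.of (S.K X) := CommRingCat.ofHom (algebraMap V (S.K X))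
  let i₁ : Spec (CommRingCat.of (S.K X)) ⟶ X.X := X.X.fromSpecStalk (genericPoint X.X)
  let i₂ : Spec (CommRingCat.of V) ⟶ Q.SpecC := Spec.map (CommRingCat.ofHom cV)
  have hj : CommRingCat.ofHom cV ≫ j = CommRingCat.ofHom (algebraMap ℂ (S.K X)) := by
    ext c
    rfl
  have hsq : i₁ ≫ g = Spec.map j ≫ i₂ := by
    rw [← Spec.map_comp, hj]
    apply ext_of_isAffine
    rw [Scheme.Hom.comp_appTop]
    have h1 : i₁.appTop = X.X.presheaf.germ ⊤ (genericPoint X.X) trivial ≫
        (Scheme.ΓSpecIso (X.X.presheaf.stalk (genericPoint X.X))).inv := by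
      have h2 := Scheme.fromSpecStalk_appTop (X := X.X) (x := genericPoint X.X)
      refine h2.trans ?_
      congr 1
    have h5 : (Spec.map (CommRingCat.ofHom (algebraMap ℂ (S.K X)))).appTop =
        (Scheme.ΓSpecIso (CommRingCat.of ℂ)).hom ≫ CommRingCat.ofHom (algebraMap ℂ (S.K X)) ≫
          (Scheme.ΓSpecIso (CommRingCat.of (S.K X))).inv := by
      rw [← Scheme.ΓSpecIso_naturality_assoc, Iso.hom_inv_id, Category.comp_id]
    rw [h5, h1]
    have h6 : (Scheme.ΓSpecIso (CommRingCat.of ℂ)).hom ≫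
        CommRingCat.ofHom (algebraMap ℂ (S.K X)) =
        g.appTop ≫ X.X.presheaf.germ ⊤ (genericPoint X.X) trivial := by
      refine (Iso.eq_inv_comp _).1 ?_
      ext c
      rfl
    exact (Category.assoc _ _ _).symm.trans ((congrArg
      (· ≫ (Scheme.ΓSpecIso (CommRingCat.of (S.K X))).inv) h6.symm).trans (Category.assoc _ _ _))
  let T : ValuativeCommSq g :=
    { R := V
      K := S.K X
      i₁ := i₁
      i₂ := i₂
      commSq := ⟨hsq⟩ }
  have hl : ∃ l : Spec (CommRingCat.of V) ⟶ X.X, Spec.map j ≫ l = i₁ := by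
    obtain ⟨⟨⟨l, hl1, -⟩⟩⟩ := hex T
    exact ⟨l, hl1⟩
  obtain ⟨l, hl1⟩ := hl
  have h1 : Spec.map (Scheme.stalkClosedPointTo l) ≫
      X.X.fromSpecStalk (l (IsLocalRing.closedPoint V)) = l :=
    Scheme.Spec_stalkClosedPointTo_fromSpecStalk l
  have h2 : Spec.map (X.X.presheaf.stalkSpecializes ((genericPoint_spec X.X).specializes
      (Set.mem_univ (l (IsLocalRing.closedPoint V))))) ≫
      X.X.fromSpecStalk (l (IsLocalRing.closedPoint V)) = i₁ :=
    Scheme.SpecMap_stalkSpecializes_fromSpecStalk _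
  rw [← h2] at hl1
  have h3 : Spec.map (Scheme.stalkClosedPointTo l ≫ j) ≫
      X.X.fromSpecStalk (l (IsLocalRing.closedPoint V)) =
      Spec.map (X.X.presheaf.stalkSpecializes ((genericPoint_spec X.X).specializes
      (Set.mem_univ (l (IsLocalRing.closedPoint V))))) ≫
      X.X.fromSpecStalk (l (IsLocalRing.closedPoint V)) := by
    rw [Spec.map_comp, Category.assoc, h1]
    exact hl1
  have h4 := Spec.map_injective ((cancel_mono _).1 h3)
  refine ⟨l (IsLocalRing.closedPoint V), ?_⟩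
  rintro _ ⟨a, rfl⟩
  have h5 := congrArg (fun f => f.hom a) h4
  change (algebraMap V (S.K X) ((Scheme.stalkClosedPointTo l).hom a)) = tk _ a at h5
  rw [← h5]
  exact ((Scheme.stalkClosedPointTo l).hom a).2

/-- `B` is the coordinate ring of the affine open set `U`. -/
structure Aff (X : S.PVar) (U : Set X.X) (B : Subalgebra ℂ (S.K X)) : Prop where
  ft : Algebra.FiniteType ℂ B
  frac : IsFractionRing B (S.K X)
  spe : ∀ y z : X.X, y ⤳ z → z ∈ U → y ∈ U
  pt : ∀ y ∈ U, ∃ (p : Ideal B) (hp : p.IsPrime), OX X y = loc B p hp ∧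
    (IsClosed {y} → p.IsMaximal)
  surj : ∀ (p : Ideal B) (hp : p.IsPrime), ∃ y ∈ U, OX X y = loc B p hp
  inj : ∀ y ∈ U, ∀ z ∈ U, OX X y = OX X z → y = z

theorem exists_aff (U : X.X.Opens) (hU : IsAffineOpen U) [Nonempty U] :
    ∃ B, Aff X U B := by
  let φ : Γ(X.X, U) →+* S.K X := (X.X.germToFunctionField U).hom
  have hφ : Function.Injective φ := X.X.germToFunctionField_injective U
  let g : X.X ⟶ Q.SpecC := X.str
  have : Smooth g := X.smooth
  have e : U ≤ g ⁻¹ᵁ (⊤ : Q.SpecC.Opens) := le_top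
  let cst : ℂ →+* Γ(X.X, U) := (g.appLE ⊤ U e).hom.comp
    (Scheme.ΓSpecIso (CommRingCat.of ℂ)).symm.commRingCatIsoToRingEquiv.toRingHom
  have hcst : ∀ c, φ (cst c) = algebraMap ℂ (S.K X) c := by
    intro c
    have h : genericPoint X.X ∈ U :=
      ((genericPoint_spec X.X).mem_open_set_iff U.isOpen).mpr (by simpa using ‹Nonempty U›)
    have h1 := X.X.presheaf.germ_res (homOfLE (le_top : U ≤ ⊤)) (genericPoint X.X) h
    exact congrArg (fun ψ => ψ.hom ((S.num ≫ S.top X.str).hom c)) h1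
  have hft : cst.FiniteType :=
    (g.finiteType_appLE (isAffineOpen_top _) hU e).comp
      (RingHom.FiniteType.of_surjective _ (RingEquiv.surjective _))
  let B : Subalgebra ℂ (S.K X) := { φ.range with algebraMap_mem' := fun c => ⟨cst c, hcst c⟩ }
  let ε : Γ(X.X, U) ≃+* B := RingEquiv.ofBijective (φ.codRestrict B fun a => ⟨a, rfl⟩)
    ⟨fun a b h => hφ (congrArg Subtype.val h), fun ⟨_, a, ha⟩ => ⟨a, Subtype.ext ha⟩⟩
  have hε : ∀ a, ((ε a : B) : S.K X) = φ a := fun _ => rfl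
  have hε' : ∀ b : B, φ (ε.symm b) = b := fun b => by rw [← hε, ε.apply_symm_apply]
  have hgerm : ∀ (y : X.X) (hy : y ∈ U) (a : Γ(X.X, U)),
      tk y (X.X.presheaf.germ U y hy a) = φ a := fun y hy a =>
    Scheme.algebraMap_germ_eq_germToFunctionField X.X hy a
  have key : ∀ (y : X.X) (hy : y ∈ U), OX X y =
      loc B ((hU.primeIdealOf ⟨y, hy⟩).asIdeal.comap ε.symm) (Ideal.comap_isPrime _ _) := by
    intro y hy
    let _ := TopCat.Presheaf.algebra_section_stalk X.X.presheaf (U := U) ⟨y, hy⟩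
    have hloc := hU.isLocalization_stalk ⟨y, hy⟩
    refine le_antisymm ?_ (loc_le _ ?_ ?_)
    · rintro _ ⟨t, rfl⟩
      obtain ⟨⟨a, b⟩, hab⟩ := IsLocalization.surj (hU.primeIdealOf ⟨y, hy⟩).asIdeal.primeCompl t
      refine ⟨ε a, ε b, fun hb => b.2 ?_, ?_⟩
      · rw [Ideal.mem_comap] at hb
        simpa using hb
      · rw [hε, hε, ← hgerm y hy, ← hgerm y hy, ← map_mul]
        exact congrArg (tk y) hab
    · rintro _ ⟨a, rfl⟩
      exact ⟨_, hgerm y hy a⟩
    · intro b hb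
      have h1 := IsLocalization.map_units (X.X.presheaf.stalk y)
        (⟨ε.symm b, hb⟩ : (hU.primeIdealOf ⟨y, hy⟩).asIdeal.primeCompl)
      have h2 := ((isUnit_iff y _).1 h1).2
      have h3 : tk y (X.X.presheaf.germ U y hy (ε.symm b)) = b := (hgerm y hy _).trans (hε' b)
      rw [← h3]
      exact h2
  refine ⟨B, ?_, ?_, fun y z h hz => h.mem_open U.isOpen hz, fun y hy => ⟨_, _, key y hy, ?_⟩,
    fun p hp => ?_, fun y hy z hz h => ?_⟩
  · let _ : Algebra ℂ Γ(X.X, U) := cst.toAlgebra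
    have h1 : Algebra.FiniteType ℂ Γ(X.X, U) := hft
    let ε' : Γ(X.X, U) ≃ₐ[ℂ] B := { ε with commutes' := fun c => Subtype.ext (hcst c) }
    exact h1.equiv ε'
  · have hfr := functionField_isFractionRing_of_isAffineOpen X.X U hU
    refine IsFractionRing.of_field _ _ fun z => ?_
    obtain ⟨a, b, -, h⟩ := IsFractionRing.div_surjective (A := Γ(X.X, U))
      (K := X.X.functionField) z
    exact ⟨ε a, ε b, h.symm⟩
  · intro hc
    have := hU.primeIdealOf_isMaximal_of_isClosed ⟨y, hy⟩ hc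
    exact Ideal.comap_isMaximal_of_equiv ε.symm
  · let q : PrimeSpectrum Γ(X.X, U) := ⟨p.comap ε, Ideal.comap_isPrime _ _⟩
    have hy : hU.fromSpec q ∈ U := by
      have h1 : hU.fromSpec q ∈ Set.range hU.fromSpec := ⟨q, rfl⟩
      rwa [hU.range_fromSpec] at h1
    have h2 : hU.primeIdealOf ⟨_, hy⟩ = q :=
      hU.fromSpec.isOpenEmbedding.injective (hU.fromSpec_primeIdealOf ⟨_, hy⟩)
    refine ⟨_, hy, (key _ hy).trans (loc_congr _ _ ?_)⟩
    rw [h2]
    ext b
    change ε (ε.symm b) ∈ p ↔ b ∈ p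
    rw [ε.apply_symm_apply]
  · rw [key y hy, key z hz] at h
    have h1 := le_antisymm (le_of_loc_le _ _ h.ge) (le_of_loc_le _ _ h.le)
    have h2 : hU.primeIdealOf ⟨y, hy⟩ = hU.primeIdealOf ⟨z, hz⟩ :=
      PrimeSpectrum.ext (Ideal.comap_injective_of_surjective _ ε.symm.surjective h1)
    exact (hU.fromSpec_primeIdealOf ⟨y, hy⟩).symm.trans
      ((congrArg hU.fromSpec h2).trans (hU.fromSpec_primeIdealOf ⟨z, hz⟩))

end Vale.Agent.P297Z.Sf.BR1x
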