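import Vale.Agent.P297Z.Surf.BR1b

/-! A very ample linear system. -/

set_option linter.all false

open CategoryTheory TopologicalSpace Opposite AlgebraicGeometry Order IsLocalRing Filter

namespace Vale.Agent.P297Z.Sf.BR1x

open Vale.Agent.P297 (ClosedPt)
open Vale.Agent.P299

variable {X : S.PVar}

theorem sord_mul {f g : S.K X} (hf : f ≠ 0) (hg : g ≠ 0) (y : S.Pt X.X) :
    S.ord (f * g) y = S.ord f y + S.ord g y := Scheme.ord_mul (X := X.X) hf hg

theorem sord_one (y : S.Pt X.X) : S.ord (1 : S.K X) y = 0 := by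
  have := sord_mul (X := X) one_ne_zero one_ne_zero y
  rw [mul_one] at this
  omega

theorem sord_pow {f : S.K X} (hf : f ≠ 0) (n : ℕ) (y : S.Pt X.X) :
    S.ord (f ^ n) y = n * S.ord f y := by
  induction n with
  | zero => simp [sord_one]
  | succ n ih =>
    rw [pow_succ, sord_mul (pow_ne_zero n hf) hf, ih]
    push_cast
    ring

theorem sord_div {f g : S.K X} (hf : f ≠ 0) (hg : g ≠ 0) (y : S.Pt X.X) :
    S.ord (f / g) y = S.ord f y - S.ord g y := by
  have := sord_mul (div_ne_zero hf hg) hg y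
  rw [div_mul_cancel₀ _ hg] at this
  omega

theorem sord_nonneg {f : S.K X} {y : X.X} (h : f ∈ OX X y) : 0 ≤ S.ord f y := by
  obtain ⟨a, rfl⟩ := h
  exact G.ord_toK_nonneg a

theorem mem_of_sord {f : S.K X} {y : X.X} (hy : coheight y = 1) (hf : f ≠ 0)
    (h : 0 ≤ S.ord f y) : f ∈ OX X y :=
  G.exists_of_ord_nonneg (X := X.X) stalk_dvr hy hf h

theorem exists_sord_one {y : X.X} (hy : coheight y = 1) : ∃ f : S.K X, f ≠ 0 ∧ S.ord f y = 1 := by
  obtain ⟨t, h0, ht⟩ := G.exists_uniformizer (X := X.X) stalk_dvr hy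
  exact ⟨tk y t, G.toK_ne_zero h0, ht⟩

theorem coef_nsmul (n : ℕ) (D : S.Div X) (y : S.Pt X.X) : S.coef (n • D) y = n * S.coef D y := by
  unfold S.coef
  split_ifs <;> simp

/-- The global sections. -/
noncomputable def secSub (D : S.Div X) : Submodule ℂ (S.K X) where
  carrier := {f | S.IsSec D f}
  zero_mem' := fun _ _ h => absurd rfl h
  add_mem' := fun {f g} hf hg x hx hfg => by
    by_cases hf0 : f = 0
    · subst hf0
      rw [zero_add] at hfg ⊢
      exact hg x hx hfg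
    by_cases hg0 : g = 0
    · subst hg0
      rw [add_zero] at hfg ⊢
      exact hf x hx hfg
    have := stalk_dvr (X := X) x hx
    have h1 : min (S.ord f x) (S.ord g x) ≤ S.ord (f + g) x := Scheme.ord_add (X := X.X) hfg
    have h2 := hf x hx hf0
    have h3 := hg x hx hg0
    rcases min_le_iff.1 h1 with h | h <;> omega
  smul_mem' := fun c f hf x hx hcf => by
    rw [Algebra.smul_def] at hcf ⊢
    rw [sord_mul (left_ne_zero_of_mul hcf) (right_ne_zero_of_mul hcf)]
    have h1 := sord_nonneg ((OX X x).algebraMap_mem c)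
    have h2 := hf x hx (right_ne_zero_of_mul hcf)
    omega

theorem div_mem {D : S.Div X} {w t : S.K X} {y : X.X} (hw : S.IsSec D w) (ht : S.GenAt D t y) :
    w / t ∈ OX X y := by
  refine reg_of_ord _ y ?_
  by_cases h0 : w = 0
  · exact Or.inl (by rw [h0, zero_div])
  refine Or.inr fun z hz hzy => ?_
  have h1 := hw z hz h0
  have h2 := ht.2 z hz hzy
  have h3 := sord_div h0 ht.1 z
  omega

theorem genAt_of_mem {D : S.Div X} {w t : S.K X} {y : X.X} (hw : S.IsSec D w) (h0 : w ≠ 0)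
    (ht : S.GenAt D t y) (h : t / w ∈ OX X y) : S.GenAt D w y := by
  refine ⟨h0, fun z hz hzy => ?_⟩
  have h1 := hw z hz h0
  have h2 := ht.2 z hz hzy
  have h3 := sord_nonneg (OX_mono hzy h)
  rw [sord_div ht.1 h0] at h3
  omega

theorem genAt_pow {D : S.Div X} {s : S.K X} {m : ℕ} (hm : 0 < m) {y : X.X} :
    S.GenAt (m • D) (s ^ m) y ↔ S.GenAt D s y := by
  by_cases hs : s = 0
  · exact ⟨fun h => absurd (by rw [hs, zero_pow hm.ne']) h.1, fun h => absurd hs h.1⟩
  refine and_congr ⟨fun _ => hs, fun _ => pow_ne_zero m hs⟩ (forall₃_congr fun z _ _ => ?_)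
  rw [sord_pow hs, coef_nsmul, ← mul_add, mul_eq_zero]
  exact or_iff_right (by exact_mod_cast hm.ne')

theorem isSec_pow {D : S.Div X} {s : S.K X} (hs : S.IsSec D s) (h0 : s ≠ 0) (m : ℕ) :
    S.IsSec (m • D) (s ^ m) := by
  intro z hz _
  have h1 := hs z hz h0
  rw [sord_pow h0, coef_nsmul, ← mul_add]
  positivity

theorem compact (X : S.PVar) : CompactSpace X.X := by
  have : CompactSpace S.SpecC := inferInstanceAs (CompactSpace (Spec (CommRingCat.of ℂ)))
  exact QuasiCompact.compactSpace_of_compactSpace X.str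

theorem eventually_sec {D : S.Div X} {s a : S.K X} (hs : S.IsSec D s) (h0 : s ≠ 0)
    (ha : ∀ y : X.X, S.GenAt D s y → a ∈ OX X y) :
    ∀ᶠ k : ℕ in atTop, S.IsSec (k • D) (a * s ^ k) := by
  by_cases ha0 : a = 0
  · exact Eventually.of_forall fun k z _ h => absurd (by rw [ha0, zero_mul]) h
  have := compact X
  have : IsNoetherian X.X := {}
  have hfin : {z : X.X | S.ord a z ≠ 0}.Finite := G.finite_ord_ne_zero (X := X.X) a ha0
  obtain ⟨b, hb⟩ := (hfin.image fun z => (S.ord a z).natAbs).bddAbove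
  filter_upwards [eventually_ge_atTop b] with k hk z hz _
  rw [sord_mul ha0 (pow_ne_zero k h0), sord_pow h0, coef_nsmul, add_assoc, ← mul_add]
  have h1 := hs z hz h0
  by_cases hg : S.ord s z + S.coef D z = 0
  · have h2 := sord_nonneg (ha z ⟨h0, fun y hy hyz => by rw [eq_of_spe hyz hy hz]; exact hg⟩)
    rw [hg, mul_zero, add_zero]
    exact h2
  · have h2 : (k : ℤ) * 1 ≤ k * (S.ord s z + S.coef D z) :=
      mul_le_mul_of_nonneg_left (by omega) (by positivity)
    by_cases h3 : S.ord a z = 0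
    · omega
    · have h4 : (S.ord a z).natAbs ≤ b := hb ⟨z, h3, rfl⟩
      omega

/-- `W` is a very ample linear system of sections of `O(D)`. -/
structure Sys (X : S.PVar) (D : S.Div X) (W : Submodule ℂ (S.K X)) : Prop where
  fin : FiniteDimensional ℂ W
  sec : ∀ w ∈ W, S.IsSec D w
  cov : ∀ y : X.X, ∃ t ∈ W, S.GenAt D t y ∧ Aff X {z | S.GenAt D t z} (chart W t)

theorem exists_sys {A : S.Div X} (hA : S.IsAmple A) :
    ∃ (n : ℕ) (W : Submodule ℂ (S.K X)), 0 < n ∧ Sys X (n • A) W := by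
  classical
  have := compact X
  choose m s U hm hs hU hx hgen using hA
  obtain ⟨T, hT⟩ := (isCompact_univ (X := X.X)).elim_finite_subcover
    (fun x : X.X => (U x : Set X.X)) (fun x => (U x).isOpen)
    (fun x _ => Set.mem_iUnion.2 ⟨x, hx x⟩)
  have hB : ∀ x : X.X, ∃ B, Aff X (U x) B := fun x =>
    haveI : Nonempty (U x) := ⟨⟨x, hx x⟩⟩
    exists_aff (U x) (hU x)
  choose B hB using hB
  have hG : ∀ x : X.X, ∃ G : Finset (S.K X), Algebra.adjoin ℂ (G : Set (S.K X)) = B x := fun x =>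
    (Subalgebra.fg_iff_finiteType _).2 (hB x).ft
  choose G hG using hG
  let n₀ : ℕ := ∏ x ∈ T, m x
  have hn₀ : 0 < n₀ := Finset.prod_pos fun x _ => hm x
  have hs0 : ∀ x, s x ≠ 0 := fun x => ((hgen x x).1 (hx x)).1
  have hr : ∀ x ∈ T, ∃ s' : S.K X, s' ≠ 0 ∧ S.IsSec (n₀ • A) s' ∧
      ∀ y : X.X, y ∈ U x ↔ S.GenAt (n₀ • A) s' y := by
    intro x hxT
    obtain ⟨r, hr⟩ : m x ∣ n₀ := Finset.dvd_prod_of_mem m hxT
    have hr0 : 0 < r := Nat.pos_of_mul_pos_left (hr ▸ hn₀)
    have e : n₀ • A = r • m x • A := by rw [hr, mul_comm, mul_smul]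
    refine ⟨s x ^ r, pow_ne_zero r (hs0 x), e ▸ isSec_pow (hs x) (hs0 x) r, fun y => ?_⟩
    rw [e, genAt_pow hr0]
    exact hgen x y
  choose! s' hs'0 hs' hgen' using hr
  have hle : ∀ x, ∀ y ∈ U x, B x ≤ OX X y := by
    intro x y hy
    obtain ⟨p, hp, e, -⟩ := (hB x).pt y hy
    rw [e]
    exact le_loc _ _ _
  have hev : ∀ᶠ k : ℕ in atTop, ∀ x ∈ T, ∀ a ∈ insert 1 (G x),
      S.IsSec (k • n₀ • A) (a * s' x ^ k) := by
    refine (eventually_all_finset T).2 fun x hxT => (eventually_all_finset _).2 fun a ha => ?_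
    refine eventually_sec (hs' x hxT) (hs'0 x hxT) fun y hy => hle x y ((hgen' x hxT y).2 hy) ?_
    rcases Finset.mem_insert.1 ha with rfl | ha
    · exact one_mem _
    · rw [← hG x]
      exact Algebra.subset_adjoin ha
  obtain ⟨k, hk, hk0⟩ := (hev.and (eventually_gt_atTop 0)).exists
  let F : Finset (S.K X) := T.biUnion fun x => (insert 1 (G x)).image fun a => a * s' x ^ k
  let W : Submodule ℂ (S.K X) := Submodule.span ℂ (F : Set (S.K X))
  have hW : ∀ x ∈ T, ∀ a ∈ insert 1 (G x), a * s' x ^ k ∈ W := fun x hxT a ha =>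
    Submodule.subset_span (Finset.mem_biUnion.2 ⟨x, hxT, Finset.mem_image_of_mem _ ha⟩)
  have hsec : W ≤ secSub (k • n₀ • A) := by
    refine Submodule.span_le.2 fun f hf => ?_
    obtain ⟨x, hxT, hf⟩ := Finset.mem_biUnion.1 hf
    obtain ⟨a, ha, rfl⟩ := Finset.mem_image.1 hf
    exact hk x hxT a ha
  refine ⟨k * n₀, W, Nat.mul_pos hk0 hn₀, ?_⟩
  rw [mul_smul]
  refine ⟨FiniteDimensional.span_finset ℂ F, hsec, fun y => ?_⟩
  obtain ⟨x, hxT, hy⟩ := Set.mem_iUnion₂.1 (hT (Set.mem_univ y))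
  have hg : ∀ z : X.X, z ∈ U x ↔ S.GenAt (k • n₀ • A) (s' x ^ k) z := fun z =>
    (hgen' x hxT z).trans (genAt_pow hk0).symm
  have h0 : s' x ^ k ≠ 0 := pow_ne_zero k (hs'0 x hxT)
  refine ⟨s' x ^ k, by simpa using hW x hxT 1 (Finset.mem_insert_self _ _), (hg y).1 hy, ?_⟩
  have e1 : {z : X.X | S.GenAt (k • n₀ • A) (s' x ^ k) z} = U x := Set.ext fun z => (hg z).symm
  have e2 : chart W (s' x ^ k) = B x := by
    refine le_antisymm (chart_le fun w hw => mem_of_forall_loc fun p hp => ?_) ?_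
    · obtain ⟨z, hz, e⟩ := (hB x).surj p hp
      rw [← e]
      exact div_mem (hsec hw) ((hg z).1 hz)
    · rw [← hG x]
      refine Algebra.adjoin_le fun a ha => ?_
      have h1 := div_mem_chart (w := s' x ^ k) (hW x hxT a (Finset.mem_insert_of_mem ha))
      rwa [mul_div_cancel_right₀ _ h0] at h1
  rw [e1, e2]
  exact hB x

end Vale.Agent.P297Z.Sf.BR1x
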