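import Vale.Agent.P297Z.Surf.Defs

/-! Elementary facts which need no hypothesis on the model. -/

set_option linter.all false

open IsLocalRing

namespace Vale.Agent.P297Z.Sf

open Vale.Agent.P297 (Place)

variable {K : Type} [Field K] [Algebra ℂ K] {W : Submodule ℂ K}

theorem mem_loc {A : Subalgebra ℂ K} {p : Ideal A} {hp : p.IsPrime} {f : K} :
    f ∈ loc A p hp ↔ ∃ a b : A, b ∉ p ∧ f * b = a := Iff.rfl

theorem le_loc (A : Subalgebra ℂ K) (p : Ideal A) (hp : p.IsPrime) : A ≤ loc A p hp :=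
  fun f hf => ⟨⟨f, hf⟩, 1, (Ideal.ne_top_iff_one p).1 hp.ne_top, by simp⟩

theorem ne_zero_of_notMem {A : Subalgebra ℂ K} {p : Ideal A} {b : A} (hb : b ∉ p) :
    (b : K) ≠ 0 := fun h => hb (by rw [show b = 0 from Subtype.ext h]; exact p.zero_mem)

theorem inv_mem_loc {A : Subalgebra ℂ K} {p : Ideal A} (hp : p.IsPrime) {b : A} (hb : b ∉ p) :
    (b : K)⁻¹ ∈ loc A p hp :=
  ⟨1, b, hb, by rw [inv_mul_cancel₀ (ne_zero_of_notMem hb)]; rfl⟩

theorem inv_mem_loc_iff {A : Subalgebra ℂ K} {p : Ideal A} (hp : p.IsPrime) {b : A}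
    (h0 : (b : K) ≠ 0) : (b : K)⁻¹ ∈ loc A p hp ↔ b ∉ p := by
  refine ⟨?_, inv_mem_loc hp⟩
  rintro ⟨a, c, hc, h⟩ hb
  apply hc
  have : c = b * a := by
    apply Subtype.ext
    push_cast
    rw [← h, mul_inv_cancel_left₀ h0]
  rw [this]
  exact p.mul_mem_right _ hb

/-- The inclusion of `A` in its localisation. -/
noncomputable instance locAlgebra (A : Subalgebra ℂ K) (p : Ideal A) (hp : p.IsPrime) :
    Algebra A (loc A p hp) := (Subalgebra.inclusion (le_loc A p hp)).toRingHom.toAlgebra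

theorem coe_locAlgebraMap (A : Subalgebra ℂ K) (p : Ideal A) (hp : p.IsPrime) (a : A) :
    ((algebraMap A (loc A p hp) a : loc A p hp) : K) = a := rfl

instance loc_isLocalization (A : Subalgebra ℂ K) (p : Ideal A) (hp : p.IsPrime) :
    IsLocalization.AtPrime (loc A p hp) p := by
  refine (isLocalization_iff _ _).2 ⟨?_, ?_, ?_⟩
  · rintro ⟨b, hb⟩
    exact IsUnit.of_mul_eq_one ⟨_, inv_mem_loc hp hb⟩
      (Subtype.ext (mul_inv_cancel₀ (ne_zero_of_notMem (b := b) hb)))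
  · rintro ⟨f, a, b, hb, h⟩
    exact ⟨⟨a, ⟨b, hb⟩⟩, Subtype.ext h⟩
  · intro a b h
    refine ⟨1, ?_⟩
    have : (a : K) = b := congrArg (fun z : loc A p hp => (z : K)) h
    rw [show a = b from Subtype.ext this]

instance loc_isLocalRing (A : Subalgebra ℂ K) (p : Ideal A) (hp : p.IsPrime) :
    IsLocalRing (loc A p hp) := IsLocalization.AtPrime.isLocalRing _ p

instance Pt.isLocalRing (x : Pt W) : IsLocalRing x.ring := by
  obtain ⟨w, -, -, m, hm, h⟩ := x.prop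
  rw [h]
  infer_instance

theorem isUnit_iff_inv {A : Subalgebra ℂ K} (a : A) :
    IsUnit a ↔ (a : K) ≠ 0 ∧ (a : K)⁻¹ ∈ A := by
  constructor
  · rintro ⟨u, rfl⟩
    have h1 : ((u : A) : K) * ((u⁻¹ : Aˣ) : A) = 1 := by
      rw [← MulMemClass.coe_mul, u.mul_inv]; rfl
    refine ⟨left_ne_zero_of_mul_eq_one h1, ?_⟩
    rw [← eq_inv_of_mul_eq_one_right h1]
    exact ((u⁻¹ : Aˣ) : A).2
  · rintro ⟨h0, h1⟩
    exact IsUnit.of_mul_eq_one ⟨_, h1⟩ (Subtype.ext (mul_inv_cancel₀ h0))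

theorem Pt.mem_max (x : Pt W) (a : x.ring) : a ∈ maximalIdeal x.ring ↔ x.Van a := by
  rw [mem_maximalIdeal, mem_nonunits_iff, isUnit_iff_inv, Pt.Van]
  have := a.2
  tauto

theorem Pt.van_iff (x : Pt W) {f : K} :
    x.Van f ↔ ∃ h : f ∈ x.ring, (⟨f, h⟩ : x.ring) ∈ maximalIdeal x.ring :=
  ⟨fun h => ⟨h.1, (x.mem_max ⟨f, h.1⟩).2 h⟩, fun ⟨h, h'⟩ => (x.mem_max ⟨f, h⟩).1 h'⟩

theorem Pt.van_zero (x : Pt W) : x.Van 0 := ⟨zero_mem _, Or.inl rfl⟩

theorem Pt.not_van_one (x : Pt W) : ¬ x.Van 1 := by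
  rintro ⟨-, h | h⟩
  · exact one_ne_zero h
  · exact h (by rw [inv_one]; exact one_mem _)

theorem Pt.Van.add {x : Pt W} {f g : K} (hf : x.Van f) (hg : x.Van g) : x.Van (f + g) := by
  obtain ⟨h1, h2⟩ := x.van_iff.1 hf
  obtain ⟨h3, h4⟩ := x.van_iff.1 hg
  exact x.van_iff.2 ⟨add_mem h1 h3, add_mem h2 h4⟩

theorem Pt.Van.mul_left {x : Pt W} {f g : K} (hf : f ∈ x.ring) (hg : x.Van g) :
    x.Van (f * g) := by
  obtain ⟨h3, h4⟩ := x.van_iff.1 hg
  exact x.van_iff.2 ⟨mul_mem hf h3, Ideal.mul_mem_left _ (⟨f, hf⟩ : x.ring) h4⟩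

theorem Pt.Van.mul_right {x : Pt W} {f g : K} (hf : x.Van f) (hg : g ∈ x.ring) :
    x.Van (f * g) := by
  rw [mul_comm]; exact hf.mul_left hg

theorem Pt.Van.neg {x : Pt W} {f : K} (hf : x.Van f) : x.Van (-f) := by
  simpa using hf.mul_left (neg_mem (one_mem x.ring))

theorem Pt.Van.sub {x : Pt W} {f g : K} (hf : x.Van f) (hg : x.Van g) : x.Van (f - g) := by
  rw [sub_eq_add_neg]; exact hf.add hg.neg

theorem Pt.Van.smul {x : Pt W} {f : K} (c : ℂ) (hf : x.Van f) : x.Van (c • f) := by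
  rw [Algebra.smul_def]; exact hf.mul_left (x.ring.algebraMap_mem c)

theorem Pt.van_or {x : Pt W} {f g : K} (hf : f ∈ x.ring) (hg : g ∈ x.ring)
    (h : x.Van (f * g)) : x.Van f ∨ x.Van g := by
  obtain ⟨h1, h2⟩ := x.van_iff.1 h
  have h3 : (⟨f, hf⟩ : x.ring) * ⟨g, hg⟩ ∈ maximalIdeal x.ring := h2
  rcases (maximalIdeal.isMaximal x.ring).isPrime.mem_or_mem h3 with h4 | h4
  · exact Or.inl (x.van_iff.2 ⟨hf, h4⟩)
  · exact Or.inr (x.van_iff.2 ⟨hg, h4⟩)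

theorem Pt.inv_mem {x : Pt W} {f : K} (hf : f ∈ x.ring) (h : ¬ x.Van f) :
    f ≠ 0 ∧ f⁻¹ ∈ x.ring := by
  unfold Pt.Van at h
  tauto

theorem Pt.van_const {x : Pt W} {c : ℂ} (h : x.Van (algebraMap ℂ K c)) : c = 0 := by
  rcases h.2 with h1 | h1
  · simpa using h1
  · exact absurd (by rw [← map_inv₀]; exact x.ring.algebraMap_mem _) h1

theorem div_mem_chart {w a : K} (ha : a ∈ W) : a / w ∈ chart W w :=
  Algebra.subset_adjoin ⟨a, ha, rfl⟩

theorem chart_le {w : K} {B : Subalgebra ℂ K} (h : ∀ a ∈ W, a / w ∈ B) : chart W w ≤ B :=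
  Algebra.adjoin_le (by rintro _ ⟨a, ha, rfl⟩; exact h a ha)

theorem Pt.In.chart_le {x : Pt W} {w : K} (h : x.In w) : chart W w ≤ x.ring := Sf.chart_le h.2

/-- The valuation ring of a curve as a subalgebra. -/
def Crv.alg (C : Crv W) : Subalgebra ℂ K :=
  { C.pl.ring.toSubring with algebraMap_mem' := C.const_mem }

theorem Crv.mem_alg {C : Crv W} {f : K} : f ∈ C.alg ↔ f ∈ C.pl.ring := Iff.rfl

theorem Crv.In.chart_mem {C : Crv W} {w : K} (h : C.In w) {f : K} (hf : f ∈ chart W w) :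
    f ∈ C.pl.ring := Sf.chart_le (B := C.alg) h.2 hf

theorem Pt.exists_in (x : Pt W) : ∃ w ∈ W, x.In w := by
  obtain ⟨w, hw, h0, m, hm, h⟩ := x.prop
  exact ⟨w, hw, h0, fun a ha => h ▸ le_loc _ _ _ (div_mem_chart ha)⟩

theorem Crv.exists_in (C : Crv W) : ∃ w ∈ W, C.In w := by
  obtain ⟨w, hw, h0, p, hp, -, h⟩ := C.prop
  exact ⟨w, hw, h0, fun a ha => (h _).2 (le_loc _ _ _ (div_mem_chart ha))⟩

theorem Pt.On.crv_in {x : Pt W} {C : Crv W} (h : x.On C) {w : K} (hw : x.In w) : C.In w :=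
  ⟨hw.1, fun a ha => h _ (hw.2 a ha)⟩

theorem Pt.in_iff {x : Pt W} {w₀ w : K} (h₀ : x.In w₀) (hw₀ : w₀ ∈ W) (hw : w ∈ W) :
    x.In w ↔ ¬ x.Van (w / w₀) := by
  constructor
  · rintro ⟨h1, h2⟩ ⟨-, h | h⟩
    · exact div_ne_zero h1 h₀.1 h
    · exact h (by rw [inv_div]; exact h2 _ hw₀)
  · intro h
    obtain ⟨h1, h2⟩ := Pt.inv_mem (h₀.2 w hw) h
    have h3 : w ≠ 0 := by rintro rfl; simp at h1
    refine ⟨h3, fun a ha => ?_⟩
    have : a / w = a / w₀ * (w / w₀)⁻¹ := by field_simp [h₀.1]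
    rw [this]
    exact mul_mem (h₀.2 a ha) h2

theorem Crv.in_iff {C : Crv W} {w₀ w : K} (h₀ : C.In w₀) (hw₀ : w₀ ∈ W) (hw : w ∈ W)
    (h0 : w ≠ 0) : C.In w ↔ C.ord w = C.ord w₀ := by
  have h1 := Pl.ord_nonneg_of_mem _ (h₀.2 w hw)
  rw [Pl.ord_div _ h0 h₀.1] at h1
  constructor
  · intro h
    have h2 := Pl.ord_nonneg_of_mem _ (h.2 w₀ hw₀)
    rw [Pl.ord_div _ h₀.1 h0] at h2
    unfold Crv.ord
    omega
  · intro h
    refine ⟨h0, fun a ha => ?_⟩
    by_cases ha0 : a = 0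
    · simp [ha0]
    have h2 := Pl.ord_nonneg_of_mem _ (h₀.2 a ha)
    rw [Pl.ord_div _ ha0 h₀.1] at h2
    rw [← Pl.ord_nonneg_iff _ (div_ne_zero ha0 h0), Pl.ord_div _ ha0 h0]
    unfold Crv.ord at h
    omega

theorem mul_mem_secOn {P : Crv W → Prop} {D D' : Div W} {f g : K} (hf : f ∈ secOn P D)
    (hg : g ∈ secOn P D') : f * g ∈ secOn P (D + D') := by
  by_cases h0 : f = 0
  · exact Or.inl (by simp [h0])
  by_cases h1 : g = 0
  · exact Or.inl (by simp [h1])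
  refine Or.inr fun C hC => ?_
  have a1 := hf.resolve_left h0 C hC
  have a2 := hg.resolve_left h1 C hC
  unfold Crv.ord at *
  rw [Pl.ord_mul _ h0 h1, Finsupp.add_apply]
  omega

theorem secOn_mono {P P' : Crv W → Prop} {D D' : Div W} (h : ∀ C, P' C → P C ∧ D C ≤ D' C) :
    secOn P D ≤ secOn P' D' := by
  intro f hf
  refine hf.imp_right fun h1 C hC => ?_
  have a1 := h1 C (h C hC).1
  have a2 := (h C hC).2
  omega

theorem mul_mem_M {D D' : Div W} {m m' : ℤ} {f g : K} (hf : f ∈ M D m) (hg : g ∈ M D' m') :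
    f * g ∈ M (D + D') (m + m') := by
  have h := mul_mem_secOn hf hg
  have e : D + m • hyp W + (D' + m' • hyp W) = D + D' + (m + m') • hyp W := by
    rw [add_smul]; abel
  rwa [e] at h

theorem mem_idl {x : Pt W} {D : Div W} {f : x.ring} : f ∈ idl x D ↔ (f : K) ∈ stalk x (-D) :=
  Iff.rfl

theorem mult_comm (x : Pt W) (D D' : Div W) : mult x D D' = mult x D' D := by
  unfold mult; rw [sup_comm]

theorem inter_comm (D D' : Div W) : inter D D' = inter D' D := by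
  unfold inter; rw [add_comm D D']; ring

/-- The linear forms that vanish at the point `x`. -/
def van (x : Pt W) : Submodule ℂ K where
  carrier := {w | w ∈ W ∧ ∀ w₀ ∈ W, x.In w₀ → x.Van (w / w₀)}
  zero_mem' := ⟨W.zero_mem, fun _ _ _ => by simpa using x.van_zero⟩
  add_mem' := fun h1 h2 => ⟨W.add_mem h1.1 h2.1, fun w₀ h h' => by
    rw [add_div]; exact (h1.2 w₀ h h').add (h2.2 w₀ h h')⟩
  smul_mem' := fun c w h1 => ⟨W.smul_mem c h1.1, fun w₀ h h' => by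
    rw [smul_div_assoc]; exact (h1.2 w₀ h h').smul c⟩

theorem mem_van {x : Pt W} {w : K} : w ∈ van x ↔ w ∈ W ∧ ¬ x.In w := by
  refine and_congr_right fun hw => ⟨fun h h1 => ?_, fun h w₀ h1 h2 => ?_⟩
  · have := h w hw h1
    rw [div_self h1.1] at this
    exact x.not_van_one this
  · by_contra hc
    exact h ((Pt.in_iff h2 h1 hw).2 hc)

/-- The linear system that defines the blowing up of the point `x`. -/
noncomputable def bl (x : Pt W) : Submodule ℂ K := van x * W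

end Vale.Agent.P297Z.Sf
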