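import Vale.Agent.P297Z.Surf.Sk
import Mathlib.RingTheory.RegularLocalRing.Defs

/-! The affine blowing up algebra of a regular local ring of dimension two. -/

set_option linter.all false

open IsLocalRing Polynomial

namespace Vale.Agent.P297Z.Sf.Bl1

variable {K : Type} [Field K] [Algebra ℂ K]

theorem mem_max {R : Subalgebra ℂ K} [IsLocalRing R] (f : R) :
    f ∈ maximalIdeal R ↔ ((f : K) = 0 ∨ (f : K)⁻¹ ∉ R) := by
  rw [mem_maximalIdeal, mem_nonunits_iff, isUnit_iff_inv]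
  tauto

/-- The affine blowing up algebra. -/
def ba (O : Subalgebra ℂ K) [IsLocalRing O] (s : O) (hs : s ∈ maximalIdeal O) : Subalgebra ℂ K where
  carrier := {f | ∃ n : ℕ, ∃ g ∈ maximalIdeal O ^ n, f * (s : K) ^ n = (g : O)}
  mul_mem' := by
    rintro f g ⟨n, a, ha, h⟩ ⟨k, b, hb, h'⟩
    refine ⟨n + k, a * b, by rw [pow_add]; exact Ideal.mul_mem_mul ha hb, ?_⟩
    push_cast
    rw [← h, ← h']; ring
  add_mem' := by
    rintro f g ⟨n, a, ha, h⟩ ⟨k, b, hb, h'⟩
    refine ⟨n + k, a * s ^ k + s ^ n * b, by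
      rw [pow_add]
      exact add_mem (Ideal.mul_mem_mul ha (Ideal.pow_mem_pow hs k))
        (Ideal.mul_mem_mul (Ideal.pow_mem_pow hs n) hb), ?_⟩
    push_cast
    rw [← h, ← h']; ring
  algebraMap_mem' c := ⟨0, algebraMap ℂ O c, by simp, by simp⟩

variable {O : Subalgebra ℂ K} [IsLocalRing O] {s t : O} {hs : s ∈ maximalIdeal O}

theorem le_ba : O ≤ ba O s hs := fun f hf => ⟨0, ⟨f, hf⟩, by simp, by simp⟩

theorem div_mem_ba (h0 : (s : K) ≠ 0) {g : O} (hg : g ∈ maximalIdeal O) :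
    (g : K) / s ∈ ba O s hs := ⟨1, g, by simpa using hg, by simp [h0]⟩

theorem ba_le (h0 : (s : K) ≠ 0) {E : Subalgebra ℂ K} (h1 : O ≤ E)
    (h2 : ∀ g ∈ maximalIdeal O, (g : K) / s ∈ E) : ba O s hs ≤ E := by
  have key : ∀ n : ℕ, ∀ g ∈ maximalIdeal O ^ n, (g : K) / (s : K) ^ n ∈ E := by
    intro n
    induction n with
    | zero => intro g _; simpa using h1 g.2
    | succ n ih =>
      intro g hg
      rw [pow_succ] at hg
      refine Submodule.mul_induction_on hg (fun a ha b hb => ?_) fun a b ha hb => ?_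
      · have := mul_mem (ih a ha) (h2 b hb)
        rwa [div_mul_div_comm, ← pow_succ] at this
      · push_cast
        rw [add_div]
        exact add_mem ha hb
  rintro f ⟨n, g, hg, h⟩
  rw [← eq_div_iff (pow_ne_zero _ h0)] at h
  exact h ▸ key n g hg

theorem div_mem_of_span (hm : maximalIdeal O = Ideal.span {s, t}) (h0 : (s : K) ≠ 0)
    {E : Subalgebra ℂ K} (h1 : O ≤ E) (h2 : (t : K) / s ∈ E) :
    ∀ g ∈ maximalIdeal O, (g : K) / s ∈ E := by
  intro g hg
  rw [hm, Ideal.mem_span_pair] at hg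
  obtain ⟨a, b, rfl⟩ := hg
  have : ((a * s + b * t : O) : K) / s = a + b * (t / s) := by
    push_cast
    field_simp
  rw [this]
  exact add_mem (h1 a.2) (mul_mem (h1 b.2) h2)

theorem aeval_mem {E : Subalgebra ℂ K} {τ : K} (h : τ ∈ E) (P : ℂ[X]) : aeval τ P ∈ E :=
  Algebra.adjoin_le (Set.singleton_subset_iff.2 h) (Polynomial.aeval_mem_adjoin_singleton ℂ τ)

/-- The elements of the algebra are polynomials in `t / s` modulo `s`. -/
theorem exists_poly (hm : maximalIdeal O = Ideal.span {s, t}) (h0 : (s : K) ≠ 0)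
    (val : ∀ f : O, ∃ c : ℂ, f - algebraMap ℂ O c ∈ maximalIdeal O) {f : K}
    (hf : f ∈ ba O s hs) : ∃ P : ℂ[X], ∃ c ∈ ba O s hs, f = aeval ((t : K) / s) P + s * c := by
  have hτ : (t : K) / s ∈ ba O s hs :=
    div_mem_ba h0 (hm ▸ Ideal.subset_span (by simp))
  have hs' : (s : K) ∈ ba O s hs := le_ba s.2
  let D : Subalgebra ℂ K :=
    { carrier := {f | ∃ P : ℂ[X], ∃ c ∈ ba O s hs, f = aeval ((t : K) / s) P + s * c}
      mul_mem' := by
        rintro _ _ ⟨P, c, hc, rfl⟩ ⟨Q, d, hd, rfl⟩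
        refine ⟨P * Q, aeval ((t : K) / s) P * d + c * aeval ((t : K) / s) Q + s * c * d,
          add_mem (add_mem (mul_mem (aeval_mem hτ P) hd) (mul_mem hc (aeval_mem hτ Q)))
            (mul_mem (mul_mem hs' hc) hd), ?_⟩
        rw [map_mul]; ring
      add_mem' := by
        rintro _ _ ⟨P, c, hc, rfl⟩ ⟨Q, d, hd, rfl⟩
        refine ⟨P + Q, c + d, add_mem hc hd, ?_⟩
        rw [map_add]; ring
      algebraMap_mem' := fun c => ⟨C c, 0, zero_mem _, by simp⟩ }
  have h1 : O ≤ D := fun g hg => by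
    obtain ⟨c, hc⟩ := val ⟨g, hg⟩
    refine ⟨C c, _, div_mem_ba h0 hc, ?_⟩
    rw [aeval_C, mul_div_cancel₀ _ h0]
    simp
  exact ba_le h0 h1 (div_mem_of_span hm h0 h1 ⟨X, 0, zero_mem _, by simp⟩) hf

/-- The class of `t / s` modulo `s` is transcendental. -/
theorem poly_eq_zero (h0 : (s : K) ≠ 0)
    (lead : ∀ (n : ℕ) (c : ℕ → ℂ), ∑ i ∈ Finset.range (n + 1), c i • (s ^ i * t ^ (n - i)) ∈
      maximalIdeal O ^ (n + 1) → ∀ i, i ≤ n → c i = 0) {P : ℂ[X]} {c : K} (hc : c ∈ ba O s hs)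
    (h : aeval ((t : K) / s) P = s * c) : P = 0 := by
  obtain ⟨n, g, hg, h1⟩ := hc
  set N := n + P.natDegree with hN
  have h2 : ∑ i ∈ Finset.range (N + 1), P.coeff (N - i) • (s ^ i * t ^ (N - i)) =
      s * (g * s ^ P.natDegree) := by
    apply Subtype.ext
    have h3 := Finset.sum_range_reflect
      (fun j => P.coeff j • ((t : K) / s) ^ j * (s : K) ^ N) (N + 1)
    rw [← Finset.sum_mul, ← Finset.sum_mul, ← aeval_eq_sum_range' (by omega), h] at h3
    push_cast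
    rw [← h1, show (s : K) * (c * s ^ n * s ^ P.natDegree) = s * c * s ^ N by rw [hN]; ring, ← h3,
      Finset.sum_mul]
    refine Finset.sum_congr rfl fun i hi => ?_
    obtain ⟨k, hk⟩ := Nat.exists_eq_add_of_le (Nat.lt_succ_iff.1 (Finset.mem_range.1 hi))
    rw [hk, Nat.add_sub_cancel, Nat.add_sub_cancel_left, smul_mul_assoc, pow_add, div_pow]
    congr 1
    field_simp
  have h4 := lead N (fun i => P.coeff (N - i)) (by
    rw [h2, pow_succ', hN, pow_add]
    exact Ideal.mul_mem_mul hs (Ideal.mul_mem_mul hg (Ideal.pow_mem_pow hs _)))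
  have h5 := h4 n (by omega)
  rwa [hN, Nat.add_sub_cancel_left, coeff_natDegree, leadingCoeff_eq_zero] at h5

/-- The local rings of the blowing up over the point are regular. -/
theorem reg_blow {R : Subalgebra ℂ K} [IsLocalRing R] [IsNoetherianRing R]
    (hm : maximalIdeal O = Ideal.span {s, t}) (h0 : (s : K) ≠ 0)
    (val : ∀ f : O, ∃ c : ℂ, f - algebraMap ℂ O c ∈ maximalIdeal O)
    (lead : ∀ (n : ℕ) (c : ℕ → ℂ), ∑ i ∈ Finset.range (n + 1), c i • (s ^ i * t ^ (n - i)) ∈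
      maximalIdeal O ^ (n + 1) → ∀ i, i ≤ n → c i = 0) (hle : ba O s hs ≤ R)
    (hsR : (s : K)⁻¹ ∉ R)
    (hfr : ∀ f ∈ R, ∃ a ∈ ba O s hs, ∃ b ∈ ba O s hs, b ≠ 0 ∧ b⁻¹ ∈ R ∧ f * b = a) :
    IsRegularLocalRing R := by
  have hτ : (t : K) / s ∈ ba O s hs := div_mem_ba h0 (hm ▸ Ideal.subset_span (by simp))
  have hs' : (s : K) ∈ ba O s hs := le_ba s.2
  set τ := (t : K) / s with hτd
  let σ : R := ⟨s, hle hs'⟩
  have hσ : σ ∈ maximalIdeal R := (mem_max σ).2 (Or.inr hsR)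
  let ev : ℂ[X] →ₐ[ℂ] R := aeval ⟨τ, hle hτ⟩
  have hev : ∀ P, (ev P : K) = aeval τ P := fun P =>
    (Polynomial.aeval_algHom_apply R.val (⟨τ, hle hτ⟩ : R) P).symm
  let Rep : R → ℂ[X] → Prop := fun f P => ∃ c ∈ ba O s hs, ∃ b ∈ ba O s hs, b ≠ 0 ∧ b⁻¹ ∈ R ∧
    f * b = aeval τ P + s * c
  have r1 : ∀ f, ∃ P, Rep f P := fun f => by
    obtain ⟨a, ha, b, hb, h1, h2, h3⟩ := hfr f f.2
    obtain ⟨P, c, hc, rfl⟩ := exists_poly hm h0 val ha
    exact ⟨P, c, hc, b, hb, h1, h2, h3⟩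
  have r2 : ∀ f P, Rep f P → ∃ u c : R, IsUnit u ∧ f * u = ev P + σ * c := by
    rintro f P ⟨c, hc, b, hb, h1, h2, h3⟩
    exact ⟨⟨b, hle hb⟩, ⟨c, hle hc⟩, (isUnit_iff_inv _).2 ⟨h1, h2⟩,
      Subtype.ext (by push_cast; rw [hev]; exact h3)⟩
  have r3 : ∀ f g P Q, Rep f P → Rep g Q → Rep (f * g) (P * Q) := by
    rintro f g P Q ⟨c, hc, b, hb, h1, h2, h3⟩ ⟨d, hd, e, he, k1, k2, k3⟩
    refine ⟨aeval τ P * d + c * aeval τ Q + s * c * d,
      add_mem (add_mem (mul_mem (aeval_mem hτ P) hd) (mul_mem hc (aeval_mem hτ Q)))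
        (mul_mem (mul_mem hs' hc) hd), b * e, mul_mem hb he, mul_ne_zero h1 k1,
      by rw [mul_inv]; exact mul_mem h2 k2, ?_⟩
    push_cast
    rw [map_mul]
    linear_combination (g * e) * h3 + (aeval τ P + s * c) * k3
  have r4 : ∀ f P, Rep f P → (f ∈ Ideal.span {σ} ↔ P = 0) := by
    intro f P h
    constructor
    · intro hf
      obtain ⟨f', rfl⟩ := Ideal.mem_span_singleton'.1 hf
      obtain ⟨c, hc, b, hb, h1, h2, h3⟩ := h
      obtain ⟨a, ha, e, he, k1, k2, k3⟩ := hfr f' f'.2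
      obtain ⟨U, d, hd, hU⟩ := exists_poly hm h0 val he
      have h4 : P * U = 0 := by
        refine poly_eq_zero (hs := hs) h0 lead (c := a * b - c * e - aeval τ P * d)
          (sub_mem (sub_mem (mul_mem ha hb) (mul_mem hc he)) (mul_mem (aeval_mem hτ P) hd)) ?_
        have h5 : (f' : K) * s * b = aeval τ P + s * c := h3
        rw [map_mul]
        linear_combination (-e) * h5 + (s * b) * k3 - aeval τ P * hU
      refine (mul_eq_zero.1 h4).resolve_right fun h5 => hsR ?_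
      rw [h5, map_zero, zero_add] at hU
      have : (s : K)⁻¹ = e⁻¹ * d := by
        rw [hU] at k1 ⊢
        field_simp [right_ne_zero_of_mul k1]
      rw [this]
      exact mul_mem k2 (hle hd)
    · rintro rfl
      obtain ⟨u, c, hu, h1⟩ := r2 f 0 h
      rw [map_zero, zero_add] at h1
      exact (Ideal.mul_unit_mem_iff_mem _ hu).1 (h1 ▸ Ideal.mul_mem_right _ _
        (Ideal.mem_span_singleton_self σ))
  have hp : (Ideal.span {σ}).IsPrime := by
    refine ⟨fun h => (maximalIdeal.isMaximal R).ne_top (top_le_iff.1 (h ▸ ?_)), fun {f g} h => ?_⟩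
    · exact (Ideal.span_singleton_le_iff_mem _).2 hσ
    · obtain ⟨P, hP⟩ := r1 f
      obtain ⟨Q, hQ⟩ := r1 g
      rw [r4 _ _ hP, r4 _ _ hQ, ← mul_eq_zero, ← r4 _ _ (r3 _ _ _ _ hP hQ)]
      exact h
  obtain ⟨h, hh⟩ := (IsPrincipalIdealRing.principal ((maximalIdeal R).comap ev)).principal
  have hmax : maximalIdeal R = Ideal.span {σ, ev h} := by
    refine le_antisymm (fun f hf => ?_) (Ideal.span_le.2 ?_)
    · obtain ⟨P, hP⟩ := r1 f
      obtain ⟨u, c, hu, h1⟩ := r2 f P hP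
      have h2 : P ∈ (maximalIdeal R).comap ev := by
        rw [Ideal.mem_comap, eq_sub_of_add_eq h1.symm]
        exact sub_mem (Ideal.mul_mem_right _ _ hf) (Ideal.mul_mem_right _ _ hσ)
      rw [hh] at h2
      obtain ⟨Q, rfl⟩ := Ideal.mem_span_singleton'.1 h2
      refine (Ideal.mul_unit_mem_iff_mem _ hu).1 (Ideal.mem_span_pair.2 ⟨c, ev Q, ?_⟩)
      rw [h1, map_mul]; ring
    · rintro _ (rfl | rfl)
      · exact hσ
      · exact Ideal.mem_comap.1 (hh ▸ Ideal.mem_span_singleton_self h)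
  have h1 : (1 : ℕ∞) ≤ (Ideal.span {σ}).height := by
    refine le_trans le_add_self (Ideal.height_add_one_le_of_lt_of_isPrime (I := ⊥) ?_)
    exact bot_lt_iff_ne_bot.2 fun h => h0 (congrArg Subtype.val (Ideal.span_singleton_eq_bot.1 h))
  refine IsRegularLocalRing.of_spanFinrank_maximalIdeal_le R ?_
  rw [← maximalIdeal_height_eq_ringKrullDim]
  have hle' : Ideal.span {σ} ≤ maximalIdeal R := (Ideal.span_singleton_le_iff_mem _).2 hσ
  rcases hle'.eq_or_lt with e | e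
  · have h2 := Submodule.spanFinrank_span_le_ncard_of_finite (R := R) (Set.finite_singleton σ)
    rw [Set.ncard_singleton] at h2
    rw [← e]
    exact_mod_cast le_trans (by exact_mod_cast h2) h1
  · have h2 := Submodule.spanFinrank_span_le_ncard_of_finite (R := R)
      ((Set.finite_singleton (ev h)).insert σ)
    have h3 : ({σ, ev h} : Set R).ncard ≤ 2 := (Set.ncard_insert_le _ _).trans (by simp)
    have h4 := Ideal.height_add_one_le_of_lt_of_isPrime e
    have h5 : ((maximalIdeal R).spanFinrank : ℕ∞) ≤ 1 + 1 := by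
      rw [hmax]
      exact_mod_cast h2.trans h3
    exact_mod_cast h5.trans ((add_le_add_left h1 1).trans h4)

end Vale.Agent.P297Z.Sf.Bl1
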