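import Vale.Agent.P297Z.Surf.Sk
import Mathlib.RingTheory.Jacobson.Ring
import Mathlib.FieldTheory.IsAlgClosed.Basic
import Mathlib.Analysis.Complex.Polynomial.Basic
import Mathlib.RingTheory.Finiteness.Subalgebra

/-! Centres of local subalgebras, and the charts of the blowing up of a point. -/

set_option linter.all false

open IsLocalRing

namespace Vale.Agent.P297Z.Sf.Bl

open Vale.Agent.P297 (Place)

variable {K : Type} [Field K] [Algebra ℂ K] {W : Submodule ℂ K}

/-- `f` is a non-unit of `R`. -/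
def Vn (R : Subalgebra ℂ K) (f : K) : Prop := f ∈ R ∧ (f = 0 ∨ f⁻¹ ∉ R)

theorem inv_mem {R : Subalgebra ℂ K} {f : K} (hf : f ∈ R) (h : ¬ Vn R f) : f ≠ 0 ∧ f⁻¹ ∈ R := by
  unfold Vn at h
  tauto

theorem not_vn_one (R : Subalgebra ℂ K) : ¬ Vn R 1 := by
  rintro ⟨-, h | h⟩
  · exact one_ne_zero h
  · exact h (by rw [inv_one]; exact one_mem _)

theorem vn_zero (R : Subalgebra ℂ K) : Vn R 0 := ⟨zero_mem _, Or.inl rfl⟩

section Local

variable {R : Subalgebra ℂ K} [IsLocalRing R]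

theorem mem_max (a : R) : a ∈ maximalIdeal R ↔ Vn R a := by
  rw [mem_maximalIdeal, mem_nonunits_iff, isUnit_iff_inv, Vn]
  have := a.2
  tauto

theorem Vn.add {f g : K} (hf : Vn R f) (hg : Vn R g) : Vn R (f + g) :=
  (mem_max (⟨f, hf.1⟩ + ⟨g, hg.1⟩)).1 (add_mem ((mem_max ⟨f, hf.1⟩).2 hf) ((mem_max ⟨g, hg.1⟩).2 hg))

theorem Vn.mul_left {f g : K} (hf : f ∈ R) (hg : Vn R g) : Vn R (f * g) :=
  (mem_max (⟨f, hf⟩ * ⟨g, hg.1⟩)).1 (Ideal.mul_mem_left _ _ ((mem_max ⟨g, hg.1⟩).2 hg))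

theorem Vn.mul_right {f g : K} (hf : Vn R f) (hg : g ∈ R) : Vn R (f * g) := by
  rw [mul_comm]; exact hf.mul_left hg

theorem Vn.neg {f : K} (hf : Vn R f) : Vn R (-f) := by
  simpa using hf.mul_left (neg_mem (one_mem R))

/-- The centre of the local ring `R` on `A`. -/
def cen (A R : Subalgebra ℂ K) [IsLocalRing R] (h : A ≤ R) : Ideal A :=
  (maximalIdeal R).comap (Subalgebra.inclusion h)

theorem mem_cen {A : Subalgebra ℂ K} (h : A ≤ R) (a : A) : a ∈ cen A R h ↔ Vn R a :=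
  mem_max (Subalgebra.inclusion h a)

theorem cen_prime {A : Subalgebra ℂ K} (h : A ≤ R) : (cen A R h).IsPrime :=
  Ideal.comap_isPrime _ _

/-- The elements which are congruent to a constant. -/
def cst (R : Subalgebra ℂ K) [IsLocalRing R] : Subalgebra ℂ K where
  carrier := {f | ∃ c : ℂ, Vn R (f - algebraMap ℂ K c)}
  mul_mem' := by
    rintro f g ⟨c, hc⟩ ⟨d, hd⟩
    refine ⟨c * d, ?_⟩
    have h1 : g ∈ R := by simpa using add_mem hd.1 (R.algebraMap_mem d)
    have h2 := (hc.mul_right h1).add (hd.mul_left (R.algebraMap_mem c))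
    have h3 : f * g - algebraMap ℂ K (c * d) =
        (f - algebraMap ℂ K c) * g + algebraMap ℂ K c * (g - algebraMap ℂ K d) := by
      rw [map_mul]; ring
    rwa [h3]
  add_mem' := by
    rintro f g ⟨c, hc⟩ ⟨d, hd⟩
    refine ⟨c + d, ?_⟩
    have h3 : f + g - algebraMap ℂ K (c + d) =
        (f - algebraMap ℂ K c) + (g - algebraMap ℂ K d) := by
      rw [map_add]; ring
    rw [h3]
    exact hc.add hd
  algebraMap_mem' c := ⟨c, by rw [sub_self]; exact vn_zero R⟩

theorem mem_cst {f : K} : f ∈ cst R ↔ ∃ c : ℂ, Vn R (f - algebraMap ℂ K c) := Iff.rfl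

theorem cst_le : cst R ≤ R := by
  rintro f ⟨c, hc⟩
  simpa using add_mem hc.1 (R.algebraMap_mem c)

theorem inv_mem_cst {f : K} (hf : f ∈ cst R) (h0 : f ≠ 0) (h : f⁻¹ ∈ R) : f⁻¹ ∈ cst R := by
  obtain ⟨c, hc⟩ := hf
  have hc0 : c ≠ 0 := by
    rintro rfl
    rw [map_zero, sub_zero] at hc
    exact hc.2.elim h0 fun h1 => h1 h
  have hc1 : algebraMap ℂ K c ≠ 0 := by simpa using hc0
  refine ⟨c⁻¹, ?_⟩
  have h3 : f⁻¹ - algebraMap ℂ K c⁻¹ = -(f⁻¹ * algebraMap ℂ K c⁻¹ * (f - algebraMap ℂ K c)) := by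
    rw [map_inv₀]; field_simp; ring
  rw [h3]
  exact (hc.mul_left (mul_mem h (R.algebraMap_mem _))).neg

/-- A localisation at a prime which is the centre of `R` is dominated by `R`. -/
theorem loc_le {A : Subalgebra ℂ K} {p : Ideal A} (hp : p.IsPrime) (h : A ≤ R)
    (hc : ∀ a : A, Vn R a → a ∈ p) : loc A p hp ≤ R := by
  rintro f ⟨a, b, hb, hab⟩
  obtain ⟨h1, h2⟩ := inv_mem (h b.2) fun h3 => hb (hc b h3)
  have : f = a * (b : K)⁻¹ := by rw [← hab, mul_inv_cancel_right₀ h1]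
  rw [this]
  exact mul_mem (h a.2) h2

theorem vn_of_loc {A : Subalgebra ℂ K} {p : Ideal A} (hp : p.IsPrime) (h : A ≤ R)
    (hc : ∀ a : A, a ∈ p ↔ Vn R a) {f : K} (hf : Vn (loc A p hp) f) : Vn R f := by
  obtain ⟨⟨a, b, hb, hab⟩, h0⟩ := hf
  obtain ⟨h1, h2⟩ := inv_mem (h b.2) fun h3 => hb ((hc b).2 h3)
  have e : f = a * (b : K)⁻¹ := by rw [← hab, mul_inv_cancel_right₀ h1]
  by_cases ha : a ∈ p
  · rw [e]
    exact ((hc a).1 ha).mul_right h2
  · have h3 := ne_zero_of_notMem ha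
    rcases h0 with h0 | h0
    · rw [h0]; exact vn_zero R
    · refine absurd ⟨b, a, ha, ?_⟩ h0
      rw [e]; field_simp

theorem aeval_unit {τ : K} (hτ : τ ∈ R) (h : τ ∉ cst R) (P : Polynomial ℂ) (hP : P ≠ 0) :
    Polynomial.aeval τ P ≠ 0 ∧ (Polynomial.aeval τ P)⁻¹ ∈ R := by
  have h1 := (IsAlgClosed.splits P).eq_prod_roots
  rw [h1, map_mul, Polynomial.aeval_C, map_multiset_prod]
  have h2 : ((P.roots.map (Polynomial.X - Polynomial.C ·)).map (Polynomial.aeval τ)).prod ≠ 0 ∧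
      ((P.roots.map (Polynomial.X - Polynomial.C ·)).map (Polynomial.aeval τ)).prod⁻¹ ∈ R := by
    refine Multiset.prod_induction (fun f : K => f ≠ 0 ∧ f⁻¹ ∈ R) _ (fun a b ha hb => ?_)
      ⟨one_ne_zero, by rw [inv_one]; exact one_mem _⟩ fun a ha => ?_
    · exact ⟨mul_ne_zero ha.1 hb.1, by rw [mul_inv]; exact mul_mem ha.2 hb.2⟩
    · rw [Multiset.map_map] at ha
      obtain ⟨c, -, rfl⟩ := Multiset.mem_map.1 ha
      simp only [Function.comp, map_sub, Polynomial.aeval_X, Polynomial.aeval_C]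
      exact inv_mem (sub_mem hτ (R.algebraMap_mem c)) fun h3 => h ⟨c, h3⟩
  refine ⟨mul_ne_zero (by simpa using hP) h2.1, ?_⟩
  rw [mul_inv, ← map_inv₀]
  exact mul_mem (R.algebraMap_mem _) h2.2

end Local

theorem vn_loc_iff {A : Subalgebra ℂ K} {p : Ideal A} (hp : p.IsPrime) (a : A) :
    a ∈ p ↔ Vn (loc A p hp) a := by
  by_cases h0 : (a : K) = 0
  · rw [show a = 0 from Subtype.ext h0]
    exact iff_of_true p.zero_mem (vn_zero _)
  · rw [Vn, inv_mem_loc_iff hp h0]
    have := le_loc A p hp a.2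
    tauto

theorem isMaximal_of_const {A : Subalgebra ℂ K} {p : Ideal A} (hp : p ≠ ⊤)
    (h : ∀ a : A, ∃ c : ℂ, a - algebraMap ℂ A c ∈ p) : p.IsMaximal := by
  rw [Ideal.isMaximal_iff]
  refine ⟨(Ideal.ne_top_iff_one p).1 hp, fun J a hJ ha haJ => ?_⟩
  obtain ⟨c, hc⟩ := h a
  have h1 : algebraMap ℂ A c ∈ J := by simpa using J.sub_mem haJ (hJ hc)
  have h2 : c ≠ 0 := by
    rintro rfl
    exact ha (by simpa using hc)
  have h3 := J.mul_mem_left (algebraMap ℂ A c⁻¹) h1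
  rwa [← map_mul, inv_mul_cancel₀ h2, map_one] at h3

theorem const_of_isMaximal {A : Type} [CommRing A] [Algebra ℂ A] [Algebra.FiniteType ℂ A]
    (m : Ideal A) (hm : m.IsMaximal) (a : A) : ∃ c : ℂ, a - algebraMap ℂ A c ∈ m := by
  letI := Ideal.Quotient.field m
  have := finite_of_finite_type_of_isJacobsonRing ℂ (A ⧸ m)
  obtain ⟨c, hc⟩ := (IsAlgClosed.algebraMap_bijective_of_isIntegral (k := ℂ) (K := A ⧸ m)).2
    (Ideal.Quotient.mk m a)
  exact ⟨c, Ideal.Quotient.eq.1 hc.symm⟩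

theorem chart_ft (hW : FiniteDimensional ℂ W) (w : K) : Algebra.FiniteType ℂ (chart W w) := by
  classical
  obtain ⟨s, hs⟩ : W.FG := Module.Finite.iff_fg.1 hW
  rw [← Subalgebra.fg_iff_finiteType]
  refine ⟨s.image fun a => a / w, le_antisymm (Algebra.adjoin_le ?_) (chart_le fun a ha => ?_)⟩
  · intro f hf
    obtain ⟨a, ha, rfl⟩ := Finset.mem_image.1 hf
    exact div_mem_chart (hs ▸ Submodule.subset_span ha)
  · rw [← hs] at ha
    induction ha using Submodule.span_induction with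
    | mem a ha => exact Algebra.subset_adjoin (Finset.mem_coe.2 (Finset.mem_image_of_mem _ ha))
    | zero => rw [zero_div]; exact zero_mem _
    | add a b _ _ ha hb => rw [add_div]; exact add_mem ha hb
    | smul c a _ ha => rw [smul_div_assoc]; exact Subalgebra.smul_mem _ ha c

/-- The residue field of a point is the field of constants. -/
theorem pt_le_cst (hW : FiniteDimensional ℂ W) (y : Pt W) : y.ring ≤ cst y.ring := by
  obtain ⟨R, w, -, -, m, hm, rfl⟩ := y
  have := chart_ft hW w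
  have h1 : chart W w ≤ cst (loc (chart W w) m hm.isPrime) := fun a ha => by
    obtain ⟨c, hc⟩ := const_of_isMaximal m hm ⟨a, ha⟩
    exact ⟨c, (vn_loc_iff hm.isPrime _).1 hc⟩
  rintro f ⟨a, b, hb, hab⟩
  have h2 := ne_zero_of_notMem hb
  have : f = a * (b : K)⁻¹ := by rw [← hab, mul_inv_cancel_right₀ h2]
  rw [this]
  exact mul_mem (h1 a.2) (inv_mem_cst (h1 b.2) h2 (inv_mem_loc hm.isPrime hb))

instance algLocal (C : Crv W) : IsLocalRing C.alg := inferInstanceAs (IsLocalRing C.pl.ring)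

/-- The residue field of a curve is larger than the field of constants. -/
theorem not_cst (C : Crv W) {w : K} (hw : w ∈ W) (h0 : w ≠ 0) : ¬ chart W w ≤ cst C.alg := by
  intro h
  obtain ⟨w', hw', h0', p, hp, hn, hC⟩ := C.prop
  have e : C.alg = loc (chart W w') p hp := SetLike.ext hC
  have h1 : (w' / w)⁻¹ ∈ cst C.alg := by
    refine inv_mem_cst (h (div_mem_chart hw')) (div_ne_zero h0' h0) ?_
    rw [inv_div, e]
    exact le_loc _ _ _ (div_mem_chart hw)
  have h2 : chart W w' ≤ cst C.alg := chart_le fun a ha => by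
    have : a / w' = a / w * (w' / w)⁻¹ := by field_simp
    rw [this]
    exact mul_mem (h (div_mem_chart ha)) h1
  refine hn (isMaximal_of_const hp.ne_top fun a => ?_)
  obtain ⟨c, hc⟩ := h2 a.2
  refine ⟨c, (vn_loc_iff hp _).2 ?_⟩
  rw [← e]
  exact hc

/-! ### The charts of the blowing up -/

variable {x : Pt W}

theorem mul_mem_bl {l w : K} (hl : l ∈ van x) (hw : w ∈ W) : l * w ∈ bl x :=
  Submodule.mul_mem_mul hl hw

theorem chart_bl_le {w' : K} {B : Subalgebra ℂ K} (h : ∀ l ∈ van x, ∀ w ∈ W, l * w / w' ∈ B) :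
    chart (bl x) w' ≤ B := by
  refine chart_le fun a ha => ?_
  refine Submodule.mul_induction_on ha h fun a b ha hb => ?_
  rw [add_div]; exact add_mem ha hb

theorem chart_le_bl {l w : K} (hl : l ∈ van x) (h0 : l ≠ 0) : chart W w ≤ chart (bl x) (l * w) :=
  chart_le fun a ha => by
    rw [← mul_div_mul_left a w h0]
    exact div_mem_chart (mul_mem_bl hl ha)

theorem chart_bl_sq {l : K} (hl : l ∈ van x) (h0 : l ≠ 0) : chart (bl x) (l * l) = chart W l := by
  refine le_antisymm (chart_bl_le fun l' hl' w hw => ?_) (chart_le_bl hl h0)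
  rw [mul_div_mul_comm]
  exact mul_mem (div_mem_chart hl'.1) (div_mem_chart hw)

theorem exists_chart {R : Subalgebra ℂ K} [IsLocalRing R] {w' : K} (hw' : w' ∈ bl x)
    (h0 : w' ≠ 0) (h : chart (bl x) w' ≤ R) : ∃ w ∈ W, w ≠ 0 ∧ chart W w ≤ R := by
  by_contra hc
  have h1 : Vn R (w' / w') := by
    refine Submodule.mul_induction_on (C := fun a => Vn R (a / w')) hw' (fun l hl w hw => ?_)
      fun a b ha hb => ?_
    · by_contra h2
      obtain ⟨h3, h4⟩ := inv_mem (h (div_mem_chart (mul_mem_bl hl hw))) h2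
      have h5 : l * w ≠ 0 := (div_ne_zero_iff.1 h3).1
      have h6 := left_ne_zero_of_mul h5
      have h7 := right_ne_zero_of_mul h5
      refine hc ⟨w, hw, h7, chart_le fun a ha => ?_⟩
      have : a / w = l * a / w' * (l * w / w')⁻¹ := by field_simp
      rw [this]
      exact mul_mem (h (div_mem_chart (mul_mem_bl hl ha))) h4
    · rw [add_div]; exact ha.add hb
  rw [div_self h0] at h1
  exact not_vn_one R h1

theorem fin_bl (hW : FiniteDimensional ℂ W) (x : Pt W) : FiniteDimensional ℂ (bl x) := by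
  have h1 : FiniteDimensional ℂ (van x) :=
    Submodule.finiteDimensional_of_le (S₂ := W) fun _ h => h.1
  exact Module.Finite.iff_fg.2 ((Module.Finite.iff_fg.1 h1).mul (Module.Finite.iff_fg.1 hW))

end Vale.Agent.P297Z.Sf.Bl
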