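import Vale.Agent.P297Z.Surf.Bl2A
import Mathlib.RingTheory.Filtration

/-! The order valuation of a local ring whose associated graded ring is a domain. -/

set_option linter.all false

open IsLocalRing

namespace Vale.Agent.P297Z.Sf.Bl

open Vale.Agent.P297 (Place)

variable {K : Type} [Field K] [Algebra ℂ K] {O : Subalgebra ℂ K} [IsLocalRing O]

/-- The order function of `O` is a valuation. -/
structure Ov (O : Subalgebra ℂ K) [IsLocalRing O] : Prop where
  valu : ∀ (a b : O) (i j : ℕ), a ∉ maximalIdeal O ^ (i + 1) →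
    b ∉ maximalIdeal O ^ (j + 1) → a * b ∉ maximalIdeal O ^ (i + j + 1)
  noeth : IsNoetherianRing O
  frac : IsFractionRing O K

theorem pow_mono {a : O} {i j : ℕ} (h : i ≤ j) (ha : a ∈ maximalIdeal O ^ j) :
    a ∈ maximalIdeal O ^ i := Ideal.pow_le_pow_right h ha

theorem mul_mem_pow {a b : O} {i j : ℕ} (ha : a ∈ maximalIdeal O ^ i)
    (hb : b ∈ maximalIdeal O ^ j) : a * b ∈ maximalIdeal O ^ (i + j) := by
  rw [pow_add]; exact Ideal.mul_mem_mul ha hb

theorem ne_zero_of_not {a : O} {i : ℕ} (ha : a ∉ maximalIdeal O ^ i) : (a : K) ≠ 0 :=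
  ne_zero_of_notMem ha

theorem one_not : (1 : O) ∉ maximalIdeal O ^ (0 + 1) := by
  rw [zero_add, pow_one]
  exact (Ideal.ne_top_iff_one _).1 (maximalIdeal.isMaximal O).ne_top

theorem mem_zero (a : O) : a ∈ maximalIdeal O ^ 0 := by simp

namespace Ov

variable (h : Ov O)
include h

theorem exists_ord {a : O} (ha : a ≠ 0) :
    ∃ n : ℕ, a ∈ maximalIdeal O ^ n ∧ a ∉ maximalIdeal O ^ (n + 1) := by
  have := h.noeth
  by_contra hc
  apply ha
  have h1 : ∀ n : ℕ, a ∈ maximalIdeal O ^ n := fun n => by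
    induction n with
    | zero => exact mem_zero a
    | succ n ih =>
      by_contra h2
      exact hc ⟨n, ih, h2⟩
  have h2 := Ideal.iInf_pow_eq_bot_of_isLocalRing (maximalIdeal O) (maximalIdeal.isMaximal O).ne_top
  rw [← Ideal.mem_bot, ← h2]
  exact Ideal.mem_iInf.2 h1

theorem pow_not {s : O} (hs : s ∉ maximalIdeal O ^ 2) (n : ℕ) :
    s ^ n ∉ maximalIdeal O ^ (n + 1) := by
  induction n with
  | zero => rw [pow_zero]; exact one_not
  | succ n ih =>
    rw [pow_succ s]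
    exact h.valu _ _ n 1 ih hs

/-- The valuation ring of the order function. -/
def vr : ValuationSubring K where
  carrier := {f | ∃ (a b : O) (n : ℕ), a ∈ maximalIdeal O ^ n ∧ b ∈ maximalIdeal O ^ n ∧
    b ∉ maximalIdeal O ^ (n + 1) ∧ f * b = a}
  mul_mem' := by
    rintro f g ⟨a, b, n, h1, h2, h3, h4⟩ ⟨a', b', n', h1', h2', h3', h4'⟩
    refine ⟨a * a', b * b', n + n', mul_mem_pow h1 h1', mul_mem_pow h2 h2',
      h.valu _ _ _ _ h3 h3', ?_⟩
    push_cast
    rw [← h4, ← h4']; ring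
  one_mem' := ⟨1, 1, 0, mem_zero _, mem_zero _, one_not, by simp⟩
  add_mem' := by
    rintro f g ⟨a, b, n, h1, h2, h3, h4⟩ ⟨a', b', n', h1', h2', h3', h4'⟩
    refine ⟨a * b' + b * a', b * b', n + n', add_mem (mul_mem_pow h1 h2') (mul_mem_pow h2 h1'),
      mul_mem_pow h2 h2', h.valu _ _ _ _ h3 h3', ?_⟩
    push_cast
    rw [← h4, ← h4']; ring
  zero_mem' := ⟨0, 1, 0, mem_zero _, mem_zero _, one_not, by simp⟩
  neg_mem' := by
    rintro f ⟨a, b, n, h1, h2, h3, h4⟩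
    refine ⟨-a, b, n, neg_mem h1, h2, h3, ?_⟩
    push_cast
    rw [← h4]; ring
  mem_or_inv_mem' := by
    intro f
    have := h.frac
    obtain ⟨a, b, hb, rfl⟩ := IsFractionRing.div_surjective (A := O) f
    have hb0 : b ≠ 0 := nonZeroDivisors.ne_zero hb
    obtain ⟨j, h1, h2⟩ := h.exists_ord hb0
    have hb1 := ne_zero_of_not h2
    by_cases ha : a ∈ maximalIdeal O ^ j
    · exact Or.inl ⟨a, b, j, ha, h1, h2, div_mul_cancel₀ _ hb1⟩
    · have ha1 := ne_zero_of_not ha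
      obtain ⟨i, h3, h4⟩ := h.exists_ord (a := a) fun h5 => ha1 (by rw [h5]; rfl)
      have hij : i ≤ j := by
        by_contra h5
        exact ha (pow_mono (not_le.1 h5).le h3)
      refine Or.inr ⟨b, a, i, pow_mono hij h1, h3, h4, ?_⟩
      rw [inv_div]
      exact div_mul_cancel₀ _ ha1

theorem mem_vr {f : K} : f ∈ h.vr ↔ ∃ (a b : O) (n : ℕ), a ∈ maximalIdeal O ^ n ∧
    b ∈ maximalIdeal O ^ n ∧ b ∉ maximalIdeal O ^ (n + 1) ∧ f * b = a := Iff.rfl

theorem le_vr {f : K} (hf : f ∈ O) : f ∈ h.vr :=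
  ⟨⟨f, hf⟩, 1, 0, mem_zero _, mem_zero _, one_not, by simp⟩

theorem div_mem_iff {a b : O} {n : ℕ} (h1 : b ∈ maximalIdeal O ^ n)
    (h2 : b ∉ maximalIdeal O ^ (n + 1)) : (a : K) / b ∈ h.vr ↔ a ∈ maximalIdeal O ^ n := by
  have hb := ne_zero_of_not h2
  refine ⟨?_, fun ha => ⟨a, b, n, ha, h1, h2, div_mul_cancel₀ _ hb⟩⟩
  rintro ⟨a', b', n', h3, -, h4, h5⟩
  by_contra ha
  obtain rfl | ⟨k, rfl⟩ := n.eq_zero_or_eq_succ_pred.imp_right fun e => (⟨_, e⟩ : ∃ k, n = k + 1)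
  · exact ha (mem_zero a)
  refine h.valu a b' k n' ha h4 ?_
  have e : a * b' = a' * b := by
    apply Subtype.ext
    push_cast
    rw [← h5]; field_simp
  rw [e, show k + n' + 1 = n' + (k + 1) by ring]
  exact mul_mem_pow h3 h1

/-- every element of the valuation ring is a unit times a power of a parameter -/
theorem exists_pow {s : O} (hs1 : s ∈ maximalIdeal O) (hs : s ∉ maximalIdeal O ^ 2) {f : K}
    (hf : f ∈ h.vr) (h0 : f ≠ 0) :
    ∃ n : ℕ, f / (s : K) ^ n ∈ h.vr ∧ (s : K) ^ n / f ∈ h.vr := by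
  obtain ⟨a, b, n, h1, h2, h3, h4⟩ := hf
  have hb := ne_zero_of_not h3
  have hs0 := ne_zero_of_not hs
  have ha : (a : K) ≠ 0 := h4 ▸ mul_ne_zero h0 hb
  obtain ⟨i, h5, h6⟩ := h.exists_ord (a := a) fun h5 => ha (by rw [h5]; rfl)
  obtain ⟨k, rfl⟩ : ∃ k, i = n + k := Nat.exists_eq_add_of_le (by
    by_contra h7
    exact h6 (pow_mono (not_le.1 h7) h1))
  have h7 : b * s ^ k ∈ maximalIdeal O ^ (n + k) := mul_mem_pow h2 (Ideal.pow_mem_pow hs1 k)
  have h8 := h.valu _ _ _ _ h3 (h.pow_not hs k)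
  refine ⟨k, ⟨a, b * s ^ k, n + k, h5, h7, h8, ?_⟩, ⟨b * s ^ k, a, n + k, h7, h5, h6, ?_⟩⟩
  · push_cast
    rw [← h4]; field_simp
  · push_cast
    rw [← h4]; field_simp

theorem inv_not {s : O} (hs1 : s ∈ maximalIdeal O) (h0 : (s : K) ≠ 0) : (s : K)⁻¹ ∉ h.vr := by
  obtain ⟨i, h5, h6⟩ := h.exists_ord (a := s) fun h5 => h0 (by rw [h5]; rfl)
  intro h1
  have h2 : ((1 : O) : K) / s ∈ h.vr := by simpa using h1
  rw [h.div_mem_iff h5 h6] at h2
  refine one_not (pow_mono ?_ h2)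
  by_contra h3
  obtain rfl : i = 0 := by omega
  exact h6 (by simpa using hs1)

theorem dvr {s : O} (hs1 : s ∈ maximalIdeal O) (hs : s ∉ maximalIdeal O ^ 2) :
    IsDiscreteValuationRing h.vr := by
  have hs0 := ne_zero_of_not hs
  have hn := h.inv_not hs1 hs0
  have hu : ∀ f : h.vr, (f : K) ≠ 0 → (f : K)⁻¹ ∈ h.vr → IsUnit f := fun f h1 h2 =>
    IsUnit.of_mul_eq_one ⟨_, h2⟩ (Subtype.ext (mul_inv_cancel₀ h1))
  have hd : ∀ f : h.vr, (f : K) ≠ 0 → ¬ IsUnit f → (f : K) / s ∈ h.vr := fun f h1 h2 => by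
    obtain ⟨n, h3, h4⟩ := h.exists_pow hs1 hs f.2 h1
    cases n with
    | zero => exact absurd (hu f h1 (by simpa using h4)) h2
    | succ n =>
      have : (f : K) / s = f / (s : K) ^ (n + 1) * (s : K) ^ n := by field_simp; ring
      rw [this]
      exact mul_mem h3 (pow_mem (h.le_vr s.2) n)
  refine IsDiscreteValuationRing.ofHasUnitMulPowIrreducibleFactorization
    ⟨⟨s, h.le_vr s.2⟩, ⟨?_, fun f g hfg => ?_⟩, fun {f} hf => ?_⟩
  · rintro ⟨u, hu⟩
    have h1 : (s : K) * ((u⁻¹ : (h.vr)ˣ) : h.vr) = 1 := by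
      have := congrArg (fun z : h.vr => (z : K)) u.mul_inv
      rwa [hu] at this
    exact hn (eq_inv_of_mul_eq_one_right h1 ▸ ((u⁻¹ : (h.vr)ˣ) : h.vr).2)
  · have h1 : (s : K) = f * g := congrArg (fun z : h.vr => (z : K)) hfg
    by_contra hc
    rw [not_or] at hc
    have h2 := hd f (left_ne_zero_of_mul (h1 ▸ hs0)) hc.1
    have h3 := hd g (right_ne_zero_of_mul (h1 ▸ hs0)) hc.2
    have h4 := mul_mem h2 h3
    rw [div_mul_div_comm, ← h1, div_mul_cancel_left₀ hs0] at h4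
    exact hn h4
  · have h1 : (f : K) ≠ 0 := fun h1 => hf (Subtype.ext h1)
    obtain ⟨n, h3, h4⟩ := h.exists_pow hs1 hs f.2 h1
    obtain ⟨u, hu⟩ := hu ⟨_, h3⟩ (div_ne_zero h1 (pow_ne_zero _ hs0)) (by rwa [inv_div])
    refine ⟨n, u, Subtype.ext ?_⟩
    rw [hu]
    change (s : K) ^ n * (f / (s : K) ^ n) = f
    field_simp

theorem ord_pow_unit {P : Place K} (hP : P.ring = h.vr) {s f : K} {n : ℕ} (h0 : f ≠ 0) (hs : s ≠ 0)
    (h1 : f / s ^ n ∈ h.vr) (h2 : s ^ n / f ∈ h.vr) : P.ord f = n * P.ord s := by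
  have h3 := Pl.ord_unit P (x := f / s ^ n) (hP ▸ h1) (by rw [inv_div, hP]; exact h2)
  rw [Pl.ord_div P h0 (pow_ne_zero _ hs), Pl.ord_pow] at h3
  omega

theorem ord_param {P : Place K} (hP : P.ring = h.vr) {s : O} (hs1 : s ∈ maximalIdeal O)
    (hs : s ∉ maximalIdeal O ^ 2) : P.ord s = 1 := by
  obtain ⟨π, h0, h1⟩ := Pl.exists_ord_eq_one P
  have h2 : π ∈ h.vr := hP ▸ (Pl.ord_nonneg_iff P h0).1 (by omega)
  obtain ⟨n, h3, h4⟩ := h.exists_pow hs1 hs h2 h0
  have h5 := h.ord_pow_unit hP h0 (ne_zero_of_not hs) h3 h4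
  rw [h1] at h5
  exact Int.eq_one_of_mul_eq_one_left (Pl.ord_nonneg_of_mem P (hP ▸ h.le_vr s.2)) h5.symm

theorem le_ord_iff {P : Place K} (hP : P.ring = h.vr) {s : O} (hs1 : s ∈ maximalIdeal O)
    (hs : s ∉ maximalIdeal O ^ 2) (g : O) (n : ℕ) (hg : g ≠ 0) :
    (n : ℤ) ≤ P.ord g ↔ g ∈ maximalIdeal O ^ n := by
  have hs0 := ne_zero_of_not hs
  have hg0 : (g : K) ≠ 0 := fun h1 => hg (Subtype.ext h1)
  rw [← h.div_mem_iff (Ideal.pow_mem_pow hs1 n) (h.pow_not hs n), ← hP]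
  push_cast
  rw [← Pl.ord_nonneg_iff P (div_ne_zero hg0 (pow_ne_zero _ hs0)),
    Pl.ord_div P hg0 (pow_ne_zero _ hs0), Pl.ord_pow, h.ord_param hP hs1 hs]
  omega

end Ov

/-! ### Expansion in two parameters -/

theorem div_pow_mem {R : Subalgebra ℂ K} (hR : O ≤ R) {s t : O}
    (hm : maximalIdeal O = Ideal.span {s, t}) (hs : (s : K) ≠ 0) (ht : (t : K) / s ∈ R) (n : ℕ) :
    ∀ a ∈ maximalIdeal O ^ n, (a : K) / (s : K) ^ n ∈ R := by
  induction n with
  | zero => intro a _; simpa using hR a.2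
  | succ n ih =>
    intro a ha
    rw [pow_succ] at ha
    refine Submodule.mul_induction_on ha (fun a ha b hb => ?_) fun a b ha hb => ?_
    · rw [hm] at hb
      obtain ⟨u, v, rfl⟩ := Ideal.mem_span_pair.1 hb
      have : ((a * (u * s + v * t) : O) : K) / (s : K) ^ (n + 1) =
          a / (s : K) ^ n * (u + v * (t / s)) := by
        push_cast; field_simp; ring
      rw [this]
      exact mul_mem (ih a ha) (add_mem (hR u.2) (mul_mem (hR v.2) ht))
    · push_cast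
      rw [add_div]; exact add_mem ha hb

theorem expand (hval : O ≤ cst O) {s t : O} (hm : maximalIdeal O = Ideal.span {s, t})
    (hs : (s : K) ≠ 0) (n : ℕ) : ∀ b ∈ maximalIdeal O ^ n, ∃ (P : Polynomial ℂ) (β : O),
      (β : K) = (s : K) ^ n * Polynomial.aeval ((t : K) / s) P ∧ β ∈ maximalIdeal O ^ n ∧
        b - β ∈ maximalIdeal O ^ (n + 1) := by
  have hv : ∀ u : O, ∃ c : ℂ, u - algebraMap ℂ O c ∈ maximalIdeal O := fun u => by
    obtain ⟨c, hc⟩ := hval u.2
    exact ⟨c, (mem_max _).2 hc⟩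
  have hs1 : s ∈ maximalIdeal O := hm ▸ Ideal.subset_span (by simp)
  have ht1 : t ∈ maximalIdeal O := hm ▸ Ideal.subset_span (by simp)
  induction n with
  | zero =>
    intro b _
    obtain ⟨c, hc⟩ := hv b
    exact ⟨Polynomial.C c, algebraMap ℂ O c, by simp, mem_zero _, by simpa using hc⟩
  | succ n ih =>
    intro b hb
    rw [pow_succ] at hb
    refine Submodule.mul_induction_on hb (fun a ha b hb => ?_) ?_
    · obtain ⟨P, β, h1, h2, h3⟩ := ih a ha
      obtain ⟨u, v, huv⟩ := Ideal.mem_span_pair.1 (hm ▸ hb)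
      obtain ⟨c, hc⟩ := hv u
      obtain ⟨d, hd⟩ := hv v
      refine ⟨P * (Polynomial.C c + Polynomial.C d * Polynomial.X),
        β * (algebraMap ℂ O c * s + algebraMap ℂ O d * t), ?_, ?_, ?_⟩
      · push_cast
        rw [h1]
        simp only [map_mul, map_add, Polynomial.aeval_C, Polynomial.aeval_X,
          Subalgebra.coe_algebraMap, SubalgebraClass.coe_algebraMap]
        field_simp
        ring
      · rw [pow_succ]
        exact Ideal.mul_mem_mul h2
          (add_mem (Ideal.mul_mem_left _ _ hs1) (Ideal.mul_mem_left _ _ ht1))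
      · have e : a * b - β * (algebraMap ℂ O c * s + algebraMap ℂ O d * t) =
            (a - β) * b + β * ((u - algebraMap ℂ O c) * s + (v - algebraMap ℂ O d) * t) := by
          rw [← huv]; ring
        rw [e]
        refine add_mem (by rw [pow_succ]; exact Ideal.mul_mem_mul h3 hb) ?_
        rw [add_assoc]
        refine mul_mem_pow h2 ?_
        rw [pow_succ, pow_one]
        exact add_mem (Ideal.mul_mem_mul hc hs1) (Ideal.mul_mem_mul hd ht1)
    · rintro a b ⟨P, β, h1, h2, h3⟩ ⟨P', β', h1', h2', h3'⟩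
      refine ⟨P + P', β + β', ?_, add_mem h2 h2', ?_⟩
      · push_cast
        rw [h1, h1', map_add, mul_add]
      · rw [add_sub_add_comm]
        exact add_mem h3 h3'

/-- A local ring which dominates `O` and in which `t / s` has a transcendental residue contains the
valuation ring of the order function. -/
theorem Ov.vr_le (h : Ov O) (hval : O ≤ cst O) {R : Subalgebra ℂ K} [IsLocalRing R] (hR : O ≤ R)
    {s t : O} (hm : maximalIdeal O = Ideal.span {s, t}) (hs : (s : K) ≠ 0) (hs' : Vn R s)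
    (ht : (t : K) / s ∈ R) (ht' : (t : K) / s ∉ cst R) {f : K} (hf : f ∈ h.vr) : f ∈ R := by
  obtain ⟨a, b, n, h1, h2, h3, h4⟩ := hf
  obtain ⟨P, β, h5, -, h6⟩ := expand hval hm hs n b h2
  have hP : P ≠ 0 := by
    rintro rfl
    have : β = 0 := Subtype.ext (by simpa using h5)
    exact h3 (by simpa [this] using h6)
  obtain ⟨h7, h8⟩ := aeval_unit ht ht' P hP
  have h9 := hs'.mul_left (div_pow_mem hR hm hs ht _ _ h6)
  have h10 : ¬ Vn R ((b : K) / (s : K) ^ n) := fun h11 => by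
    have h12 := h11.add h9.neg
    have e : (b : K) / (s : K) ^ n + -(((b - β : O) : K) / (s : K) ^ (n + 1) * s) =
        Polynomial.aeval ((t : K) / s) P := by
      push_cast
      rw [h5]; field_simp; ring
    rw [e] at h12
    exact h12.2.elim h7 fun h13 => h13 h8
  obtain ⟨h11, h12⟩ := inv_mem (div_pow_mem hR hm hs ht _ _ h2) h10
  have hb := ne_zero_of_not h3
  have e : f = a / (s : K) ^ n * ((b : K) / (s : K) ^ n)⁻¹ := by
    rw [← h4]; field_simp
  rw [e]
  exact mul_mem (div_pow_mem hR hm hs ht _ _ h1) h12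

end Vale.Agent.P297Z.Sf.Bl
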