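import Vale.Agent.P297Z.Surf.Bl4a

/-! The Euler characteristic on the blowing up of a point. -/

set_option linter.all false

open IsLocalRing Polynomial

namespace Vale.Agent.P297Z.Sf

open Vale.Agent.P297 (Place)

variable {K : Type} [Field K] [Algebra ℂ K]

namespace Bl4

/-- A sequence with zero third difference that vanishes for large indices is zero. -/
theorem zero_of_third (F : ℤ → ℤ) (h3 : ∀ m, F (m + 3) - 3 * F (m + 2) + 3 * F (m + 1) - F m = 0)
    (m₁ : ℤ) (h : ∀ m, m₁ ≤ m → F m = 0) (m : ℤ) : F m = 0 := by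
  have key : ∀ n : ℕ, ∀ m, m₁ - n ≤ m → F m = 0 := by
    intro n
    induction n with
    | zero => simpa using h
    | succ n ih =>
      intro m hm
      push_cast at hm
      have a1 := ih (m + 1) (by omega)
      have a2 := ih (m + 2) (by omega)
      have a3 := ih (m + 3) (by omega)
      have a4 := h3 m
      omega
  exact key (m₁ - m).toNat m (by omega)

theorem third_shift {W : Submodule ℂ K} {H : Div W}
    (h : ∀ D : Div W, chi (D + 3 • H) - 3 * chi (D + 2 • H) + 3 * chi (D + H) - chi D = 0)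
    (D : Div W) (m : ℤ) : chi (D + (m + 3) • H) - 3 * chi (D + (m + 2) • H) +
      3 * chi (D + (m + 1) • H) - chi (D + m • H) = 0 := by
  have h1 := h (D + m • H)
  have e3 : D + m • H + 3 • H = D + (m + 3) • H := by
    ext C; simp; ring
  have e2 : D + m • H + 2 • H = D + (m + 2) • H := by
    ext C; simp; ring
  have e1 : D + m • H + H = D + (m + 1) • H := by
    ext C; simp; ring
  rwa [e3, e2, e1] at h1

theorem core (S : Surf K) (hA : S.All) {x : Pt S.W} {E : Crv (bl x)}
    {ι : Crv S.W → Crv (bl x)} (hB : BlData x E ι)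
    (hin : ∀ (C : Crv (bl x)), ∀ w ∈ bl x, C.In w → hyp (bl x) C = - C.ord w)
    (hlarge : ∀ D : Div (bl x), ∃ m₀ : ℤ, ∀ m, m₀ ≤ m →
      h0 (D + m • hyp (bl x)) = chi (D + m • hyp (bl x)))
    (hthird : ∀ D : Div (bl x), chi (D + 3 • hyp (bl x)) - 3 * chi (D + 2 • hyp (bl x)) +
      3 * chi (D + hyp (bl x)) - chi D = 0)
    (D' : Div (bl x)) (D : Div S.W) (s : K) (hD : ∀ C, D' (ι C) = D C) (hs : GenAt x D s) :
    2 * chi D' = 2 * chi D - (D' E + E.ord s) * (D' E + E.ord s - 1) := by
  have hL : S.Loc := hA.toLoc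
  have hR : S.Reg2 := hA.toReg2
  obtain ⟨w, hw, hx⟩ := x.exists_in
  obtain ⟨m₀, hm₀⟩ := jets S hL hR hs hw hx
  obtain ⟨m₁, hm₁⟩ := hlarge D'
  obtain ⟨m₂, hm₂⟩ := hA.large D
  set b := D' E + E.ord s with hb
  have key := zero_of_third (fun m => 2 * chi (D' + m • hyp (bl x)) -
    (2 * chi (D + (2 * m) • S.H) - (b - m) * (b - m - 1))) ?_
    (|m₀| + |m₁| + |m₂| + |b|) ?_ 0
  · simp only [zero_smul, add_zero, mul_zero, sub_zero] at key
    linarith
  · intro m
    have a0 := third_shift hthird D' m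
    have a1 := third_shift hA.third D (2 * m)
    have a2 := third_shift hA.third D (2 * m + 1)
    have a3 := third_shift hA.third D (2 * m + 2)
    have a4 := third_shift hA.third D (2 * m + 3)
    simp only [mul_add, add_assoc] at a1 a2 a3 a4 ⊢
    norm_num at a1 a2 a3 a4 ⊢
    linarith
  · intro m hm
    have b0 := le_abs_self m₀
    have b1 := le_abs_self m₁
    have b2 := le_abs_self m₂
    have b3 := le_abs_self b
    have c0 := abs_nonneg m₀
    have c1 := abs_nonneg m₁
    have c2 := abs_nonneg m₂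
    have c3 := abs_nonneg b
    have c4 := neg_abs_le b
    obtain ⟨n, hn⟩ : ∃ n : ℕ, (n : ℤ) = m - b := ⟨(m - b).toNat, by omega⟩
    have hs' : GenAt x (D + (2 * m) • S.H) (s * w ^ (2 * m)) :=
      gen_mul hs (gen_zpow (gen_hyp S hL hw hx) (2 * m))
    have h1 := h0_bl S hL hR hB (D' := D' + m • hyp (bl x)) (D := D + (2 * m) • S.H)
      (fun C => ?_) hs' n ?_ ((hA.fg D).1 (2 * m)) (hm₀ (2 * m) (by omega) n (by omega))
    · rw [hm₁ m (by omega), hm₂ (2 * m) (by omega), hn] at h1
      linarith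
    · simp only [Finsupp.add_apply, Finsupp.smul_apply, smul_eq_mul]
      rw [hD, hyp_iota S hL hB hin]
      ring
    · simp only [Finsupp.add_apply, Finsupp.smul_apply, smul_eq_mul]
      rw [hyp_exc S hR hB hin hw hx, hn, hb]
      unfold Crv.ord
      rw [Pl.ord_mul _ hs.1 (zpow_ne_zero _ hx.1), Pl.ord_zpow]
      ring

end Bl4

theorem bl4 : BL4 := by
  intro K _ _ S hA x S' h hA' E ι hB D' D s hD hs
  obtain ⟨W', h1, y, h2, h3, h4, h5⟩ := S'
  dsimp only at h
  subst h
  exact Bl4.core S hA hB hA'.hyp_in hA'.large hA'.third D' D s hD hs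

end Vale.Agent.P297Z.Sf
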