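import Vale.Agent.P297Z.Surf.Loc1b

/-! The block on points, curves and charts. -/

set_option linter.all false

open IsLocalRing Polynomial

namespace Vale.Agent.P297Z.Sf

open Vale.Agent.P297 (Place)

variable {K : Type} [Field K] [Algebra ℂ K] {W : Submodule ℂ K}

/-- The point defined by a maximal ideal of a chart. -/
def Pt.ofMax {w : K} (hw : w ∈ W) (h0 : w ≠ 0) (m : Ideal (chart W w)) (hm : m.IsMaximal) :
    Pt W := ⟨loc _ m hm.isPrime, w, hw, h0, m, hm, rfl⟩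

theorem Pt.ofMax_in {w : K} (hw : w ∈ W) (h0 : w ≠ 0) (m : Ideal (chart W w))
    (hm : m.IsMaximal) : (Pt.ofMax hw h0 m hm).In w :=
  ⟨h0, fun a ha => le_loc _ m hm.isPrime (div_mem_chart ha)⟩

theorem Pt.ctr_ofMax {w : K} (hw : w ∈ W) (h0 : w ≠ 0) (m : Ideal (chart W w))
    (hm : m.IsMaximal) : ctr (Pt.ofMax_in hw h0 m hm).chart_le = m :=
  ctr_loc _ m hm.isPrime

theorem root_mem_of_aeval {A : Type*} [CommRing A] [Algebra ℂ A] {p : Ideal A} (hp : p.IsPrime)
    (a : A) {P : ℂ[X]} (hP : P ≠ 0) (h : aeval a P ∈ p) :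
    ∃ c : ℂ, a - algebraMap ℂ A c ∈ p := by
  letI : IsDomain (A ⧸ p) := Ideal.Quotient.isDomain p
  have h1 : IsAlgebraic ℂ (Ideal.Quotient.mkₐ ℂ p a) :=
    ⟨P, hP, by rw [aeval_algHom_apply]; exact Ideal.Quotient.eq_zero_iff_mem.2 h⟩
  have h2 := h1.isIntegral
  obtain ⟨c, hc⟩ := minpoly.mem_range_of_degree_eq_one ℂ _
    (IsAlgClosed.degree_eq_one_of_irreducible ℂ (minpoly.irreducible h2))
  refine ⟨c, Ideal.Quotient.eq_zero_iff_mem.1 ?_⟩
  rw [map_sub, sub_eq_zero]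
  exact hc.symm

theorem val_of_chart {w : K} {p : Ideal (chart W w)}
    (h : ∀ a (ha : a ∈ W), ∃ c : ℂ, (⟨a / w, div_mem_chart ha⟩ : chart W w) -
      algebraMap ℂ _ c ∈ p) (a : chart W w) : ∃ c : ℂ, a - algebraMap ℂ _ c ∈ p := by
  refine val_of_gen (s := Subtype.val ⁻¹' ((fun a => a / w) '' (W : Set K))) ?_ a ?_
  · rintro ⟨_, h1⟩ ⟨b, hb, rfl⟩
    exact h b hb
  · exact (Algebra.adjoin_adjoin_coe_preimage (R := ℂ)
      (s := (fun a => a / w) '' (W : Set K))).ge trivial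

namespace Surf

variable (S : Surf K)

theorem fin_meet (C C' : Crv S.W) (hne : C ≠ C') : {x : Pt S.W | x.On C ∧ x.On C'}.Finite := by
  have key : ∀ w ∈ S.W, {x : Pt S.W | x.In w ∧ x.On C ∧ x.On C'}.Finite := by
    intro w hw
    by_cases hC : C.In w ∧ C'.In w
    swap
    · convert Set.finite_empty
      exact Set.eq_empty_of_forall_notMem fun x hx =>
        hC ⟨hx.2.1.crv_in hx.1, hx.2.2.crv_in hx.1⟩
    obtain ⟨h, h'⟩ := hC
    have := S.ft w
    have hN : IsNoetherianRing (chart S.W w) := Algebra.FiniteType.isNoetherianRing ℂ _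
    have hfin := Ideal.finite_minimalPrimes_of_isNoetherianRing _
      (ctr (S.crv_le h) ⊔ ctr (S.crv_le h'))
    let g : {x : Pt S.W | x.In w ∧ x.On C ∧ x.On C'} →
        (ctr (S.crv_le h) ⊔ ctr (S.crv_le h')).minimalPrimes := fun x =>
      ⟨ctr x.2.1.chart_le, ⟨ctr_isPrime _, sup_le ((S.on_iff_le hw x.2.1 h).1 x.2.2.1)
        ((S.on_iff_le hw x.2.1 h').1 x.2.2.2)⟩, fun q hq hle => by
          by_contra hc
          have hlt : q < ctr x.2.1.chart_le := lt_of_le_of_ne hle (by rintro rfl; exact hc le_rfl)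
          have h2 := S.height_max hw h.1 _ (S.pt_max x.1 x.2.1)
          have e1 := lt_two_eq (ctr_isPrime _) hq.1 (ctr_isPrime _) h2 (S.crv_ne_bot C hw h)
            (le_sup_left.trans hq.2) hlt
          have e2 := lt_two_eq (ctr_isPrime _) hq.1 (ctr_isPrime _) h2 (S.crv_ne_bot C' hw h')
            (le_sup_right.trans hq.2) hlt
          exact hne (S.crv_eq_of_ctr hw h h' (e2.trans e1.symm).le)⟩
    have : Finite (ctr (S.crv_le h) ⊔ ctr (S.crv_le h')).minimalPrimes := hfin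
    exact Finite.of_injective g fun x y hxy =>
      Subtype.ext (S.pt_eq_of_ctr hw x.2.1 y.2.1 (congrArg Subtype.val hxy))
  refine (Set.finite_iUnion fun i => key _ (S.x_mem i)).subset fun x hx => ?_
  obtain ⟨i, hi⟩ := S.pt_cover x
  exact Set.mem_iUnion.2 ⟨i, hi, hx⟩

theorem inf_pt (C : Crv S.W) (w : K) (hw : w ∈ S.W) (h : C.In w) :
    {x : Pt S.W | x.On C ∧ x.In w}.Infinite := by
  classical
  intro hfin
  have := S.ft w
  have hJ : IsJacobsonRing (chart S.W w) := isJacobsonRing_of_finiteType (A := ℂ)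
  have hp := ctr_isPrime (S.crv_le h)
  have h1 : (ctr (S.crv_le h)).jacobson = ctr (S.crv_le h) := hJ.out hp.isRadical
  haveI : Fintype {x : Pt S.W | x.On C ∧ x.In w} := hfin.fintype
  let g : {x : Pt S.W | x.On C ∧ x.In w} → Ideal (chart S.W w) := fun x => ctr x.2.2.chart_le
  have h2 : Finset.univ.inf g ≤ ctr (S.crv_le h) := by
    rw [← h1]
    refine le_sInf fun m hm => ?_
    have hin := Pt.ofMax_in hw h.1 m hm.2
    have e := Pt.ctr_ofMax hw h.1 m hm.2
    have hon : (Pt.ofMax hw h.1 m hm.2).On C := (S.on_iff_le hw hin h).2 (hm.1.trans e.ge)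
    exact (Finset.inf_le (Finset.mem_univ (⟨_, hon, hin⟩ :
      {x : Pt S.W | x.On C ∧ x.In w}))).trans e.le
  obtain ⟨x, -, hx⟩ := (hp.inf_le').1 h2
  apply S.crv_not_max C hw h
  rw [← (S.pt_max x.1 x.2.2).eq_of_le hp.ne_top hx]
  exact S.pt_max x.1 x.2.2

theorem res (C : Crv S.W) (w : K) (hw : w ∈ S.W) (h : C.In w) : ∃ a ∈ S.W, ∀ P : ℂ[X], P ≠ 0 →
    aeval (a / w) P ≠ 0 ∧ C.ord (aeval (a / w) P) = 0 := by
  by_contra hc
  apply S.crv_not_max C hw h
  refine isMaximal_of_val (ctr_isPrime _).ne_top (val_of_chart fun a ha => ?_)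
  by_contra h1
  refine hc ⟨a, ha, fun P hP => ?_⟩
  have h2 : aeval (⟨a / w, div_mem_chart ha⟩ : chart S.W w) P ∉ ctr (S.crv_le h) := fun h3 =>
    h1 (root_mem_of_aeval (ctr_isPrime _) _ hP h3)
  have h4 : ((aeval (⟨a / w, div_mem_chart ha⟩ : chart S.W w) P : chart S.W w) : K) =
      aeval (a / w) P := (aeval_algHom_apply (chart S.W w).val _ P).symm
  rw [C.mem_ctr, not_or, h4] at h2
  have h5 := Pl.ord_nonneg_of_mem C.pl
    (h.chart_mem (aeval (⟨a / w, div_mem_chart ha⟩ : chart S.W w) P).2)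
  rw [h4] at h5
  exact ⟨h2.1, le_antisymm (not_lt.1 h2.2) h5⟩

theorem two (l₀ : K) (h₀ : l₀ ∈ S.X) (l₁ : K) (h₁ : l₁ ∈ S.X)
    (hl : LinearIndependent ℂ ![l₀, l₁]) (C : Crv S.W) : C.In l₀ ∨ C.In l₁ := by
  by_contra hc
  rw [not_or] at hc
  obtain ⟨i, hi⟩ := S.crv_cover C
  have hw := S.x_mem i
  set p := ctr (S.crv_le hi) with hp
  have hpp : p.IsPrime := ctr_isPrime _
  have hfin : FiniteDimensional ℂ S.X := FiniteDimensional.span_of_finite ℂ (Set.finite_range _)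
  let ψ : S.X →ₗ[ℂ] chart S.W (S.x i) :=
    { toFun := fun l => ⟨l / S.x i, div_mem_chart (S.X_le l.2)⟩
      map_add' := fun a b => Subtype.ext (add_div _ _ _)
      map_smul' := fun c a => Subtype.ext (smul_div_assoc _ _ _) }
  let φ : S.X →ₗ[ℂ] (chart S.W (S.x i) ⧸ p) := (Ideal.Quotient.mkₐ ℂ p).toLinearMap ∘ₗ ψ
  have hker : ∀ l (h : l ∈ S.X), l ≠ 0 → ¬ C.In l → (⟨l, h⟩ : S.X) ∈ LinearMap.ker φ := by
    intro l h h0 hn
    refine Ideal.Quotient.eq_zero_iff_mem.2 ((C.mem_ctr _ _).2 (Or.inr ?_))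
    change 0 < C.pl.ord (l / S.x i)
    have a1 := Pl.ord_nonneg_of_mem _ (hi.2 l (S.X_le h))
    rw [Crv.in_iff hi hw (S.X_le h) h0] at hn
    rw [Pl.ord_div _ h0 hi.1] at a1 ⊢
    unfold Crv.ord at hn
    omega
  have h2 : 2 ≤ Module.finrank ℂ (LinearMap.ker φ) := by
    let v : Fin 2 → LinearMap.ker φ :=
      ![⟨⟨l₀, h₀⟩, hker l₀ h₀ (hl.ne_zero 0) hc.1⟩, ⟨⟨l₁, h₁⟩, hker l₁ h₁ (hl.ne_zero 1) hc.2⟩]
    have hv : LinearIndependent ℂ v := by
      refine LinearIndependent.of_comp (S.X.subtype ∘ₗ (LinearMap.ker φ).subtype) ?_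
      convert hl using 1
      ext j
      fin_cases j <;> rfl
    simpa using hv.fintype_card_le_finrank
  have h3 : Module.finrank ℂ S.X ≤ 3 := by
    exact (finrank_range_le_card (R := ℂ) S.x).trans (by simp)
  have h4 := φ.finrank_range_add_finrank_ker
  have h5 : (1 : chart S.W (S.x i) ⧸ p) ∈ LinearMap.range φ :=
    ⟨⟨S.x i, S.x_mem_X i⟩, by
      change Ideal.Quotient.mk p _ = Ideal.Quotient.mk p 1
      congr 1
      exact Subtype.ext (div_self hi.1)⟩
  letI : IsDomain (chart S.W (S.x i) ⧸ p) := Ideal.Quotient.isDomain p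
  have h6 : Submodule.span ℂ {(1 : chart S.W (S.x i) ⧸ p)} = LinearMap.range φ := by
    refine Submodule.eq_of_le_of_finrank_le ((Submodule.span_singleton_le_iff_mem _ _).2 h5) ?_
    rw [finrank_span_singleton one_ne_zero]
    omega
  have hle : S.pl i ≤ chart S.W (S.x i) :=
    Algebra.adjoin_le (by rintro _ ⟨j, rfl⟩; exact div_mem_chart (S.x_mem j))
  have h7 : (p.comap (Subalgebra.inclusion hle)).IsMaximal := by
    refine isMaximal_of_val (Ideal.comap_isPrime _ p).ne_top fun a => ?_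
    refine val_of_gen (s := Subtype.val ⁻¹' (Set.range fun j => S.x j / S.x i)) ?_ a
      ((Algebra.adjoin_adjoin_coe_preimage (R := ℂ)
        (s := Set.range fun j => S.x j / S.x i)).ge trivial)
    rintro ⟨_, hb⟩ ⟨j, rfl⟩
    have h8 : φ ⟨S.x j, S.x_mem_X j⟩ ∈ Submodule.span ℂ {(1 : chart S.W (S.x i) ⧸ p)} :=
      h6.ge ⟨_, rfl⟩
    obtain ⟨c, hc⟩ := Submodule.mem_span_singleton.1 h8
    refine ⟨c, Ideal.mem_comap.2 (Ideal.Quotient.eq_zero_iff_mem.1 ?_)⟩
    rw [map_sub, map_sub, AlgHom.commutes, sub_eq_zero]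
    refine Eq.trans hc.symm ?_
    rw [← Algebra.algebraMap_eq_smul_one]
    rfl
  apply S.crv_not_max C hw hi
  refine Ideal.isMaximal_of_isIntegral_of_isMaximal_comap'
    (Subalgebra.inclusion hle).toRingHom (fun a => ?_) p h7
  obtain ⟨P, hP, e⟩ := S.int i a a.2
  refine ⟨P, hP, Subtype.ext ?_⟩
  exact (hom_eval₂ P (Subalgebra.inclusion hle).toRingHom
    (chart S.W (S.x i)).val.toRingHom a).trans e

theorem pt_ne : Nonempty (Pt S.W) := by
  obtain ⟨m, hm⟩ := Ideal.exists_maximal (chart S.W (S.x 0))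
  exact ⟨Pt.ofMax (S.x_mem 0) (S.x_ne 0) m hm⟩

end Surf

theorem loc1 : LOC1 := fun K _ _ S =>
  { ft := S.ft
    int := S.int
    findim := S.findim
    center := S.center
    pt_chart := S.pt_chart
    pt_cover := S.pt_cover
    pt_ext := S.pt_ext
    val := S.val
    reg := S.reg
    dim := S.dim
    ufd := S.ufd
    frac := S.frac
    crv_chart := S.crv_chart
    crv_cover := S.crv_cover
    crv_of_prime := S.crv_of_prime
    crv_of_irr := S.crv_of_irr
    irr_of_crv := S.irr_of_crv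
    on_iff := S.on_iff
    fin_meet := S.fin_meet
    inf_pt := S.inf_pt
    res := S.res
    two := S.two
    pt_ne := S.pt_ne }

end Vale.Agent.P297Z.Sf
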