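import Vale.Agent.P297Z.Surf.Chart
import Mathlib.RingTheory.KrullDimension.Polynomial
import Mathlib.RingTheory.Ideal.KrullsHeightTheorem
import Mathlib.RingTheory.AlgebraicIndependent.TranscendenceBasis

/-! Dimension of the charts; integrality over the charts of the plane. -/

set_option linter.all false

open IsLocalRing

namespace Vale.Agent.P297Z.Sf

theorem height_mvPolynomial (k : Type*) [Field k] (n : ℕ) :
    ∀ P : Ideal (MvPolynomial (Fin n) k), P.IsMaximal → P.height = n := by
  induction n with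
  | zero =>
    intro P hP
    have e : MvPolynomial (Fin 0) k ≃+* k := (MvPolynomial.isEmptyAlgEquiv k (Fin 0)).toRingEquiv
    have h1 : P = ⊥ := by
      have h2 : IsField (MvPolynomial (Fin 0) k) := e.toMulEquiv.isField (Field.toIsField k)
      let _ := h2.toField
      rcases Ideal.eq_bot_or_top P with h | h
      · exact h
      · exact absurd h hP.ne_top
    rw [h1]
    simp
  | succ n ih =>
    intro P hP
    let e : MvPolynomial (Fin (n + 1)) k ≃+* Polynomial (MvPolynomial (Fin n) k) :=
      (MvPolynomial.finSuccEquiv k n).toRingEquiv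
    let Q : Ideal (Polynomial (MvPolynomial (Fin n) k)) := P.comap e.symm
    have hQ : Q.IsMaximal := Ideal.comap_isMaximal_of_equiv e.symm
    have hp : (Q.under (MvPolynomial (Fin n) k)).IsMaximal :=
      Polynomial.isMaximal_comap_C_of_isJacobsonRing Q
    have hLO : Q.LiesOver (Q.under (MvPolynomial (Fin n) k)) := ⟨rfl⟩
    have h1 := Polynomial.height_eq_height_add_one (Q.under (MvPolynomial (Fin n) k)) Q
    rw [ih _ hp] at h1
    have h2 : Q.height = P.height := e.symm.height_comap P
    rw [← h2, h1]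
    rfl

theorem height_of_integral {k : Type*} [Field k] {A : Type*} [CommRing A] [IsDomain A]
    [Algebra k A] [Algebra.FiniteType k A] {n : ℕ} (g : MvPolynomial (Fin n) k →ₐ[k] A)
    (hinj : Function.Injective g) (hint : g.toRingHom.IsIntegral) (P : Ideal A)
    (hP : P.IsMaximal) : P.height = n := by
  let _ : Algebra (MvPolynomial (Fin n) k) A := g.toRingHom.toAlgebra
  have hI : Algebra.IsIntegral (MvPolynomial (Fin n) k) A := ⟨hint⟩
  have hF : FaithfulSMul (MvPolynomial (Fin n) k) A :=
    (faithfulSMul_iff_algebraMap_injective _ _).2 hinj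
  have hN : IsNoetherianRing A := Algebra.FiniteType.isNoetherianRing k A
  have hGD : Algebra.HasGoingDown (MvPolynomial (Fin n) k) A := inferInstance
  have hp : (P.under (MvPolynomial (Fin n) k)).IsMaximal :=
    Ideal.isMaximal_comap_of_isIntegral_of_isMaximal P
  have hprime : P.IsPrime := hP.isPrime
  have h1 := Ideal.height_eq_height_add_of_liesOver_of_hasGoingDown
    (P.under (MvPolynomial (Fin n) k)) P
  rw [height_mvPolynomial k n _ hp] at h1
  have h2 : (P.map (Ideal.Quotient.mk
      ((P.under (MvPolynomial (Fin n) k)).map (algebraMap (MvPolynomial (Fin n) k) A)))).height =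
      0 := by
    have hle : (P.under (MvPolynomial (Fin n) k)).map (algebraMap (MvPolynomial (Fin n) k) A) ≤ P :=
      Ideal.map_comap_le
    have hpr : (P.map (Ideal.Quotient.mk
        ((P.under (MvPolynomial (Fin n) k)).map
          (algebraMap (MvPolynomial (Fin n) k) A)))).IsPrime :=
      Ideal.map_isPrime_of_surjective Ideal.Quotient.mk_surjective (by rwa [Ideal.mk_ker])
    rw [Ideal.height_eq_zero_iff]
    refine ⟨⟨hpr, bot_le⟩, fun Q hQ hQP => ?_⟩
    have hQ1 : Q.IsPrime := hQ.1
    have h3 : Q.comap (Ideal.Quotient.mk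
        ((P.under (MvPolynomial (Fin n) k)).map (algebraMap (MvPolynomial (Fin n) k) A))) ≤ P := by
      intro x hx
      have hx' := hQP hx
      rwa [Ideal.mem_quotient_iff_mem hle] at hx'
    have h4 : (P.under (MvPolynomial (Fin n) k)) ≤
        (Q.comap (Ideal.Quotient.mk ((P.under (MvPolynomial (Fin n) k)).map
          (algebraMap (MvPolynomial (Fin n) k) A)))).under (MvPolynomial (Fin n) k) := by
      intro x hx
      change Ideal.Quotient.mk _ (algebraMap _ A x) ∈ Q
      rw [Ideal.Quotient.eq_zero_iff_mem.2 (Ideal.mem_map_of_mem _ hx)]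
      exact Q.zero_mem
    have h5 : P ≤ Q.comap (Ideal.Quotient.mk
        ((P.under (MvPolynomial (Fin n) k)).map (algebraMap (MvPolynomial (Fin n) k) A))) := by
      by_contra hne
      obtain ⟨x, hxP, hxQ⟩ := Set.not_subset.1 hne
      have h6 := Ideal.comap_lt_comap_of_integral_mem_sdiff (R := MvPolynomial (Fin n) k) h3
        ⟨hxP, hxQ⟩ (Algebra.IsIntegral.isIntegral x)
      exact absurd (h4.trans_lt h6) (lt_irrefl _)
    exact Ideal.map_le_iff_le_comap.2 h5
  rw [h2, add_zero] at h1
  exact h1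

variable {K : Type} [Field K] [Algebra ℂ K] {W : Submodule ℂ K}

/-- The maximal ideals of a finitely generated subalgebra with field of fractions `K` have height
two. -/
theorem height_eq_two (htd : Algebra.trdeg ℂ K = 2) (A : Subalgebra ℂ K) [Algebra.FiniteType ℂ A]
    [IsFractionRing A K] (P : Ideal A) (hP : P.IsMaximal) : P.height = 2 := by
  obtain ⟨n, g, hinj, hint⟩ := exists_integral_inj_algHom_of_fg ℂ A
  have hn : n = 2 := by
    let _ : Algebra (MvPolynomial (Fin n) ℂ) A := g.toRingHom.toAlgebra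
    have hI : Algebra.IsIntegral (MvPolynomial (Fin n) ℂ) A := ⟨hint⟩
    have hF : FaithfulSMul (MvPolynomial (Fin n) ℂ) A :=
      (faithfulSMul_iff_algebraMap_injective _ _).2 hinj
    have hT : IsScalarTower ℂ (MvPolynomial (Fin n) ℂ) A :=
      IsScalarTower.of_algebraMap_eq fun c => (g.commutes c).symm
    have h1 := trdeg_add_eq ℂ (MvPolynomial (Fin n) ℂ) (A := A)
    have h2 := trdeg_add_eq ℂ A (A := K)
    have : Algebra.IsAlgebraic A K := IsLocalization.isAlgebraic K (nonZeroDivisors A)
    rw [trdeg_eq_zero (R := A) (A := K), add_zero, htd] at h2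
    rw [trdeg_eq_zero (R := MvPolynomial (Fin n) ℂ) (A := A), add_zero, h2,
      MvPolynomial.trdeg_of_isDomain] at h1
    have h3 : (n : Cardinal) = 2 := by simpa using h1
    exact_mod_cast h3
  rw [height_of_integral g hinj hint P hP, hn]
  rfl

theorem lt_two_eq {A : Type*} [CommRing A] [IsDomain A] {p q m : Ideal A} (hp : p.IsPrime)
    (hq : q.IsPrime) (hm : m.IsPrime) (h2 : m.height = 2) (h0 : p ≠ ⊥) (hpq : p ≤ q)
    (hqm : q < m) : p = q := by
  by_contra hne
  have h1 : p < q := lt_of_le_of_ne hpq hne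
  have hb : (⊥ : Ideal A).IsPrime := Ideal.isPrime_bot
  have a1 := Ideal.height_add_one_le_of_lt_of_isPrime (bot_lt_iff_ne_bot.2 h0)
  have a2 := Ideal.height_add_one_le_of_lt_of_isPrime h1
  have a3 := Ideal.height_add_one_le_of_lt_of_isPrime hqm
  have a4 : (0 : ℕ∞) + 1 + 1 + 1 ≤ 2 :=
    calc (0 : ℕ∞) + 1 + 1 + 1 ≤ (⊥ : Ideal A).height + 1 + 1 + 1 := by gcongr; exact bot_le
      _ ≤ p.height + 1 + 1 := by gcongr
      _ ≤ q.height + 1 := by gcongr
      _ ≤ m.height := a3
      _ = 2 := h2
  norm_num at a4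

theorem height_eq_one {A : Type*} [CommRing A] [IsDomain A] {p m : Ideal A} (hp : p.IsPrime)
    (hm : m.IsPrime) (h2 : m.height = 2) (h0 : p ≠ ⊥) (hpm : p < m) : p.height = 1 := by
  have hb : (⊥ : Ideal A).IsPrime := Ideal.isPrime_bot
  have a1 := Ideal.height_add_one_le_of_lt_of_isPrime (bot_lt_iff_ne_bot.2 h0)
  have a3 := Ideal.height_add_one_le_of_lt_of_isPrime hpm
  rw [h2] at a3
  refine le_antisymm ?_ (le_trans le_add_self a1)
  have : p.height + 1 ≤ 1 + 1 := a3
  exact (ENat.add_le_add_iff_right (by simp)).1 this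

namespace Surf

variable (S : Surf K)

theorem X_le : S.X ≤ S.W := Submodule.span_le.2 (by rintro _ ⟨i, rfl⟩; exact S.x_mem i)

theorem x_mem_X (i : Fin 3) : S.x i ∈ S.X := Submodule.subset_span ⟨i, rfl⟩

theorem ft (w : K) : Algebra.FiniteType ℂ (chart S.W w) :=
  haveI := S.model.fin
  chart_finiteType w

/-- The coordinate ring of a chart of the plane. -/
abbrev pl (i : Fin 3) : Subalgebra ℂ K := Algebra.adjoin ℂ (Set.range fun j => S.x j / S.x i)

theorem X_div_mem (i : Fin 3) {B : Subalgebra ℂ K} {w : K} (h : ∀ j, S.x j / w ∈ B) :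
    ∀ l ∈ S.X, l / w ∈ B := by
  intro l hl
  induction hl using Submodule.span_induction with
  | mem x hx =>
    obtain ⟨j, rfl⟩ := hx
    exact h j
  | zero => simp
  | add x y _ _ hx hy => rw [add_div]; exact add_mem hx hy
  | smul c x _ hx => rw [smul_div_assoc]; exact Subalgebra.smul_mem _ hx c

theorem int (i : Fin 3) : ∀ a ∈ chart S.W (S.x i), IsIntegral (S.pl i) a := by
  obtain ⟨n, hn⟩ := S.nn
  have hfin := S.model.fin
  have hx := S.x_ne i
  have hgen : ∀ a ∈ S.W, IsIntegral (S.pl i) (a / S.x i) := by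
    intro a ha
    obtain ⟨s, hs⟩ : (S.W ^ n).FG := (Module.Finite.iff_fg.1 hfin).pow n
    let N : Submodule (S.pl i) K := Submodule.span (S.pl i) ((fun b => b / S.x i ^ n) '' s)
    have hN : ∀ b ∈ S.W ^ n, b / S.x i ^ n ∈ N := by
      intro b hb
      rw [← hs] at hb
      induction hb using Submodule.span_induction with
      | mem x hx => exact Submodule.subset_span ⟨x, hx, rfl⟩
      | zero => simp
      | add x y _ _ hx hy => rw [add_div]; exact add_mem hx hy
      | smul c x _ hx =>
        rw [smul_div_assoc]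
        exact N.smul_mem (algebraMap ℂ (S.pl i) c) hx |> fun h => by
          rwa [algebraMap_smul] at h
    have hN' : ∀ b ∈ S.W ^ (n + 1), b / S.x i ^ (n + 1) ∈ N := by
      intro b hb
      refine Submodule.mul_induction_on (hn hb) (fun l hl y hy => ?_) (fun x y hx hy => ?_)
      · rw [pow_succ', ← div_mul_div_comm]
        exact N.smul_mem (⟨l / S.x i, S.X_div_mem i
          (fun j => Algebra.subset_adjoin (Set.mem_range_self j)) l hl⟩ : S.pl i) (hN y hy)
      · rw [add_div]
        exact add_mem hx hy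
    refine isIntegral_of_smul_mem_submodule N ?_ (Submodule.fg_span (s.finite_toSet.image _)) _ ?_
    · intro h
      have h1 := hN _ (Submodule.pow_mem_pow S.W (S.x_mem i) n)
      rw [h, div_self (pow_ne_zero n hx), Submodule.mem_bot] at h1
      exact one_ne_zero h1
    · intro y hy
      induction hy using Submodule.span_induction with
      | mem x hx =>
        obtain ⟨b, hb, rfl⟩ := hx
        have hb' : b ∈ S.W ^ n := hs ▸ Submodule.subset_span hb
        rw [smul_eq_mul, div_mul_div_comm, ← pow_succ']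
        exact hN' _ (by rw [pow_succ']; exact Submodule.mul_mem_mul ha hb')
      | zero => simp
      | add x y _ _ hx hy => rw [smul_add]; exact add_mem hx hy
      | smul c x _ hx => rw [smul_comm]; exact N.smul_mem c hx
  intro a ha
  have : chart S.W (S.x i) ≤ (integralClosure (S.pl i) K).restrictScalars ℂ :=
    chart_le fun a ha => hgen a ha
  exact this ha

theorem pl_zero_le : ∀ a ∈ S.pl 0, a ∈ S.F := by
  have : S.pl 0 ≤ S.F.toSubalgebra := by
    refine Algebra.adjoin_le ?_
    rintro _ ⟨j, rfl⟩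
    fin_cases j
    · simp [div_self (S.x_ne 0)]
    · exact IntermediateField.subset_adjoin _ _ (by simp)
    · exact IntermediateField.subset_adjoin _ _ (by simp)
  exact this

theorem findim : FiniteDimensional S.F K := by
  classical
  have hfin := S.model.fin
  obtain ⟨s, hs⟩ := (Subalgebra.fg_iff_finiteType _).2 (S.ft (S.x 0))
  have hint : ∀ a ∈ (s : Set K), IsIntegral S.F a := by
    intro a ha
    have h1 := S.int 0 a (hs ▸ Algebra.subset_adjoin ha)
    let φ : S.pl 0 →+* S.F := (S.pl 0).val.toRingHom.codRestrict S.F fun a => S.pl_zero_le a a.2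
    exact h1.map_of_comp_eq φ (RingHom.id K) (by ext; rfl)
  have h1 := IntermediateField.finiteDimensional_adjoin hint
  have h2 : IntermediateField.adjoin S.F (s : Set K) = ⊤ := by
    have := S.model.frac _ (S.x_mem 0) (S.x_ne 0)
    rw [eq_top_iff]
    intro z _
    obtain ⟨a, b, -, rfl⟩ := IsFractionRing.div_surjective (A := chart S.W (S.x 0)) z
    have h3 : chart S.W (S.x 0) ≤
        ((IntermediateField.adjoin S.F (s : Set K)).restrictScalars ℂ).toSubalgebra := by
      rw [← hs]
      exact Algebra.adjoin_le (IntermediateField.subset_adjoin _ _)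
    exact div_mem (h3 a.2) (h3 b.2)
  rw [h2] at h1
  exact LinearEquiv.finiteDimensional (IntermediateField.topEquiv (F := S.F) (E := K)).toLinearEquiv

theorem center (V : ValuationSubring K) (hV : ∀ c, algebraMap ℂ K c ∈ V) :
    ∃ i, ∀ a ∈ S.W, a / S.x i ∈ V := by
  obtain ⟨i, -, hi⟩ := Finset.exists_max_image (Finset.univ : Finset (Fin 3))
    (fun j => V.valuation (S.x j)) ⟨0, Finset.mem_univ _⟩
  let B : Subalgebra ℂ K := { V.toSubring with algebraMap_mem' := hV }
  have h1 : S.pl i ≤ B := by
    refine Algebra.adjoin_le ?_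
    rintro _ ⟨j, rfl⟩
    change S.x j / S.x i ∈ V
    rw [← V.valuation_le_one_iff, map_div₀]
    exact div_le_one_of_le₀ (hi j (Finset.mem_univ _)) zero_le
  refine ⟨i, fun a ha => ?_⟩
  have h2 := S.int i _ (div_mem_chart ha)
  let φ : S.pl i →+* V := (S.pl i).val.toRingHom.codRestrict V fun a => h1 a.2
  have h3 : IsIntegral V (a / S.x i) := h2.map_of_comp_eq φ (RingHom.id K) (by ext; rfl)
  obtain ⟨y, hy⟩ := IsIntegrallyClosed.isIntegral_iff.1 h3
  rw [← hy]
  exact y.2

/-- One of the three coordinates is a unit in every local algebra that contains a chart. -/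
theorem cover {O : Subalgebra ℂ K} [IsLocalRing O] {w : K} (hw : w ∈ S.W) (h0 : w ≠ 0)
    (h : ∀ a ∈ S.W, a / w ∈ O) : ∃ i, ∀ a ∈ S.W, a / S.x i ∈ O := by
  obtain ⟨n, hn⟩ := S.nn
  by_contra hc
  have h1 : ∀ i, (⟨S.x i / w, h _ (S.x_mem i)⟩ : O) ∈ maximalIdeal O := by
    intro i
    rw [mem_max_iff]
    refine Or.inr fun h2 => hc ⟨i, fun a ha => ?_⟩
    have : a / S.x i = a / w * (S.x i / w)⁻¹ := by field_simp [S.x_ne i]
    rw [this]
    exact mul_mem (h a ha) h2
  let J : Submodule ℂ K := ((maximalIdeal O).restrictScalars ℂ).map O.val.toLinearMap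
  have hJ : ∀ f ∈ J, ∀ g ∈ O, f * g ∈ J := by
    rintro _ ⟨f, hf, rfl⟩ g hg
    exact ⟨f * ⟨g, hg⟩, Ideal.mul_mem_right _ _ hf, rfl⟩
  have h2 : ∀ l ∈ S.X, l / w ∈ J := by
    intro l hl
    induction hl using Submodule.span_induction with
    | mem x hx =>
      obtain ⟨j, rfl⟩ := hx
      exact ⟨_, h1 j, rfl⟩
    | zero => simp
    | add x y _ _ hx hy => rw [add_div]; exact add_mem hx hy
    | smul c x _ hx => rw [smul_div_assoc]; exact J.smul_mem c hx
  have h3 : ∀ b ∈ S.X * S.W ^ n, b / w ^ (n + 1) ∈ J := by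
    intro b hb
    refine Submodule.mul_induction_on hb (fun l hl y hy => ?_) (fun x y hx hy => ?_)
    · rw [pow_succ', ← div_mul_div_comm]
      exact hJ _ (h2 l hl) _ (pow_div_mem h n y hy)
    · rw [add_div]
      exact add_mem hx hy
  obtain ⟨f, hf, e⟩ := h3 _ (hn (Submodule.pow_mem_pow S.W hw (n + 1)))
  rw [div_self (pow_ne_zero _ h0)] at e
  have : f = 1 := Subtype.ext e
  rw [this] at hf
  exact (maximalIdeal.isMaximal O).ne_top ((Ideal.eq_top_iff_one _).2 hf)

theorem height_max {w : K} (hw : w ∈ S.W) (h0 : w ≠ 0) (m : Ideal (chart S.W w))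
    (hm : m.IsMaximal) : m.height = 2 :=
  haveI := S.ft w
  haveI := S.model.frac w hw h0
  height_eq_two S.model.td _ m hm

end Surf

end Vale.Agent.P297Z.Sf
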