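import Vale.Agent.P297Z.Surf.Loc1a
import Vale.Agent.P297Z.Surf.Sk
import Vale.Agent.P299.R.Ufd

/-! Points and curves in charts. -/

set_option linter.all false

open IsLocalRing Polynomial

namespace Vale.Agent.P297Z.Sf

open Vale.Agent.P297 (Place)

variable {K : Type} [Field K] [Algebra ℂ K] {W : Submodule ℂ K}

/-- A discrete valuation ring with field of fractions `K` is a place. -/
theorem exists_place (O : Subalgebra ℂ K) [IsFractionRing O K] [IsDiscreteValuationRing O] :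
    ∃ P : Place K, ∀ f, f ∈ P.ring ↔ f ∈ O := by
  let V : ValuationSubring K := ValuationSubring.ofSubring O.toSubring fun x => by
    rcases ValuationRing.isInteger_or_isInteger O x with ⟨y, hy⟩ | ⟨y, hy⟩
    · exact Or.inl (hy ▸ y.2)
    · exact Or.inr (hy ▸ y.2)
  let e : O ≃+* V :=
    { toFun := fun a => ⟨a, a.2⟩
      invFun := fun a => ⟨a, a.2⟩
      left_inv := fun _ => rfl
      right_inv := fun _ => rfl
      map_mul' := fun _ _ => rfl
      map_add' := fun _ _ => rfl }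
  exact ⟨⟨V, IsDiscreteValuationRing.RingEquivClass.isDiscreteValuationRing e⟩, fun _ => Iff.rfl⟩

instance Crv.isLocalRing (C : Crv W) : IsLocalRing C.alg :=
  inferInstanceAs (IsLocalRing C.pl.ring)

theorem Crv.mem_max (C : Crv W) (a : C.alg) :
    a ∈ maximalIdeal C.alg ↔ ((a : K) = 0 ∨ 0 < C.ord a) :=
  Pl.mem_maximalIdeal_iff C.pl a

theorem Crv.mem_ctr (C : Crv W) {B : Subalgebra ℂ K} (h : B ≤ C.alg) (a : B) :
    a ∈ ctr h ↔ ((a : K) = 0 ∨ 0 < C.ord a) :=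
  C.mem_max (Subalgebra.inclusion h a)

theorem Pt.On.le {x : Pt W} {C : Crv W} (h : x.On C) : x.ring ≤ C.alg := h

theorem Crv.alg_ne_top (C : Crv W) : ¬ ∀ f, f ∈ C.alg := fun h =>
  Pl.ring_ne_top C.pl (eq_top_iff.2 fun f _ => h f)

theorem Crv.eq_of_le {C C' : Crv W} (h : ∀ f ∈ C.pl.ring, f ∈ C'.pl.ring) : C = C' :=
  Crv.ext (Pl.eq_of_le' h)

theorem mem_loc_bot {A : Subalgebra ℂ K} [IsFractionRing A K] (f : K) :
    f ∈ loc A ⊥ Ideal.isPrime_bot := by
  obtain ⟨a, b, hb, rfl⟩ := IsFractionRing.div_surjective (A := A) f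
  have h0 : b ≠ 0 := nonZeroDivisors.ne_zero hb
  exact ⟨a, b, h0, div_mul_cancel₀ _ fun h => h0 (Subtype.ext h)⟩

theorem loc_chart_eq' {O : Subalgebra ℂ K} [IsLocalRing O] {w w' : K} (hw : w ∈ W) (hw' : w' ∈ W)
    (h0 : w ≠ 0) (h0' : w' ≠ 0) {P : Ideal (chart W w)} (hP : P.IsPrime) (e : O = loc _ P hP)
    (h : chart W w' ≤ O) : loc (chart W w') (ctr h) (ctr_isPrime h) = O := by
  subst e
  exact loc_chart_eq hw hw' h0 h0' hP h

theorem hasVal_congr {O O' : Subalgebra ℂ K} [IsLocalRing O] [IsLocalRing O'] (e : O = O') :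
    HasVal O ↔ HasVal O' := by
  subst e
  rfl

namespace Surf

variable (S : Surf K)

theorem pt_hasVal (x : Pt S.W) : HasVal x.ring := by
  obtain ⟨w, hw, h0, m, hm, h⟩ := x.prop
  have := S.ft w
  exact (hasVal_congr h).2 (hasVal_loc m hm)

theorem val (x : Pt S.W) (f : K) (hf : f ∈ x.ring) : ∃ c : ℂ, x.Van (f - algebraMap ℂ K c) := by
  obtain ⟨c, hc⟩ := S.pt_hasVal x ⟨f, hf⟩
  exact ⟨c, (x.mem_max _).1 hc⟩

theorem pt_loc (x : Pt S.W) {w : K} (hw : w ∈ S.W) (h : x.In w) :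
    loc (chart S.W w) (ctr h.chart_le) (ctr_isPrime _) = x.ring := by
  obtain ⟨w₁, hw₁, h0, m, hm, e⟩ := x.prop
  exact loc_chart_eq' hw₁ hw h0 h.1 hm.isPrime e _

theorem pt_max (x : Pt S.W) {w : K} (h : x.In w) : (ctr h.chart_le).IsMaximal :=
  (S.pt_hasVal x).ctr_isMaximal _

theorem pt_mem_ctr (x : Pt S.W) {B : Subalgebra ℂ K} (h : B ≤ x.ring) (a : B) :
    a ∈ ctr h ↔ x.Van a := x.mem_max (Subalgebra.inclusion h a)

theorem pt_chart (x : Pt S.W) (w : K) (hw : w ∈ S.W) (h : x.In w) :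
    ∃ (m : Ideal (chart S.W w)) (hm : m.IsMaximal),
      x.ring = loc _ m hm.isPrime ∧ ∀ a : chart S.W w, a ∈ m ↔ x.Van a :=
  ⟨ctr h.chart_le, S.pt_max x h, (S.pt_loc x hw h).symm, S.pt_mem_ctr x _⟩

theorem pt_cover (x : Pt S.W) : ∃ i, x.In (S.x i) := by
  obtain ⟨w, hw, h⟩ := x.exists_in
  obtain ⟨i, hi⟩ := S.cover hw h.1 h.2
  exact ⟨i, S.x_ne i, hi⟩

theorem crv_cover (C : Crv S.W) : ∃ i, C.In (S.x i) := by
  obtain ⟨w, hw, h⟩ := C.exists_in
  obtain ⟨i, hi⟩ := S.cover (O := C.alg) hw h.1 h.2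
  exact ⟨i, S.x_ne i, hi⟩

theorem pt_eq_of_ctr {x y : Pt S.W} {w : K} (hw : w ∈ S.W) (hx : x.In w) (hy : y.In w)
    (h : ctr hx.chart_le = ctr hy.chart_le) : x = y :=
  Pt.ext ((S.pt_loc x hw hx).symm.trans ((loc_congr _ _ h).trans (S.pt_loc y hw hy)))

theorem pt_ext (x y : Pt S.W) (h : x.ring ≤ y.ring) : x = y := by
  obtain ⟨w, hw, hx⟩ := x.exists_in
  have hy : y.In w := ⟨hx.1, fun a ha => h (hx.2 a ha)⟩
  refine S.pt_eq_of_ctr hw hx hy ((S.pt_max y hy).eq_of_le (ctr_isPrime _).ne_top ?_).symm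
  intro a ha
  rw [mem_ctr] at ha ⊢
  exact ha.imp_right fun h1 h2 => h1 (h h2)

theorem pt_isRegularRing (x : Pt S.W) : IsRegularRing x.ring := by
  obtain ⟨w, hw, h0, m, hm, h⟩ := x.prop
  have := S.model.reg w hw h0
  rw [h]
  exact Vale.Agent.P299.R.isRegularRing_of_isLocalization m.primeCompl

theorem reg (x : Pt S.W) : IsRegularLocalRing x.ring := by
  obtain ⟨w, hw, h0, m, hm, h⟩ := x.prop
  have := S.model.reg w hw h0
  rw [h]
  exact loc_isRegularLocalRing m _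

theorem dim (x : Pt S.W) : ringKrullDim x.ring = 2 := by
  obtain ⟨w, hw, h0, m, hm, h⟩ := x.prop
  rw [h, IsLocalization.AtPrime.ringKrullDim_eq_height m, S.height_max hw h0 m hm]
  rfl

theorem max_height (x : Pt S.W) : (maximalIdeal x.ring).height = 2 := by
  have h := S.dim x
  rw [← IsLocalRing.maximalIdeal_height_eq_ringKrullDim] at h
  exact WithBot.coe_injective h

theorem ufd (x : Pt S.W) : UniqueFactorizationMonoid x.ring :=
  haveI := S.pt_isRegularRing x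
  Vale.Agent.P299.R.ufd _

theorem frac (x : Pt S.W) : IsFractionRing x.ring K := by
  obtain ⟨w, hw, h⟩ := x.exists_in
  have := S.model.frac w hw h.1
  exact isFractionRing_of_le h.chart_le

theorem crv_le {C : Crv S.W} {w : K} (h : C.In w) : chart S.W w ≤ C.alg := chart_le h.2

theorem crv_loc (C : Crv S.W) {w : K} (hw : w ∈ S.W) (h : C.In w) :
    loc (chart S.W w) (ctr (S.crv_le h)) (ctr_isPrime _) = C.alg := by
  obtain ⟨w₁, hw₁, h0, p, hp, -, e⟩ := C.prop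
  exact loc_chart_eq' hw₁ hw h0 h.1 hp (Subalgebra.ext e) _

theorem crv_not_hasVal (C : Crv S.W) : ¬ HasVal C.alg := by
  obtain ⟨w, hw, h0, p, hp, hm, e⟩ := C.prop
  have := S.ft w
  rw [hasVal_congr (Subalgebra.ext e : C.alg = loc _ p hp), ← isMaximal_iff_hasVal]
  exact hm

theorem crv_not_max (C : Crv S.W) {w : K} (hw : w ∈ S.W) (h : C.In w) :
    ¬ (ctr (S.crv_le h)).IsMaximal := by
  have := S.ft w
  rw [isMaximal_iff_hasVal _ (ctr_isPrime _), hasVal_congr (S.crv_loc C hw h)]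
  exact S.crv_not_hasVal C

theorem crv_ne_bot (C : Crv S.W) {w : K} (hw : w ∈ S.W) (h : C.In w) :
    ctr (S.crv_le h) ≠ ⊥ := by
  intro e
  have := S.model.frac w hw h.1
  refine C.alg_ne_top fun f => ?_
  rw [← S.crv_loc C hw h, loc_congr _ Ideal.isPrime_bot e]
  exact mem_loc_bot f

theorem crv_chart (C : Crv S.W) (w : K) (hw : w ∈ S.W) (h : C.In w) :
    ∃ (p : Ideal (chart S.W w)) (hp : p.IsPrime), p ≠ ⊥ ∧ ¬ p.IsMaximal ∧
      (∀ f, f ∈ C.pl.ring ↔ f ∈ loc _ p hp) ∧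
      ∀ a : chart S.W w, a ∈ p ↔ ((a : K) = 0 ∨ 0 < C.ord a) :=
  ⟨ctr (S.crv_le h), ctr_isPrime _, S.crv_ne_bot C hw h, S.crv_not_max C hw h,
    fun f => by rw [S.crv_loc C hw h]; rfl, C.mem_ctr _⟩

theorem height_one {w : K} (hw : w ∈ S.W) (h0 : w ≠ 0) {p : Ideal (chart S.W w)} (hp : p.IsPrime)
    (hb : p ≠ ⊥) (hm : ¬ p.IsMaximal) : p.height = 1 := by
  obtain ⟨m, hm', hle⟩ := p.exists_le_maximal hp.ne_top
  exact height_eq_one hp hm'.isPrime (S.height_max hw h0 m hm') hb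
    (lt_of_le_of_ne hle (by rintro rfl; exact hm hm'))

theorem crv_of_prime (w : K) (hw : w ∈ S.W) (h0 : w ≠ 0) (p : Ideal (chart S.W w))
    (hp : p.IsPrime) (hb : p ≠ ⊥) (hm : ¬ p.IsMaximal) :
    ∃ C : Crv S.W, ∀ f, f ∈ C.pl.ring ↔ f ∈ loc _ p hp := by
  have := S.model.reg w hw h0
  have := S.model.frac w hw h0
  have hr := loc_isRegularLocalRing p hp
  have hf : IsFractionRing (loc _ p hp) K := isFractionRing_of_le (le_loc _ p hp)
  have hL : IsDiscreteValuationRing (loc _ p hp) := by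
    rw [← IsLocalRing.finrank_CotangentSpace_eq_one_iff]
    have h1 := (IsRegularLocalRing.iff_finrank_cotangentSpace (loc _ p hp)).1 hr
    rw [IsLocalization.AtPrime.ringKrullDim_eq_height p (loc _ p hp),
      S.height_one hw h0 hp hb hm] at h1
    exact_mod_cast h1
  obtain ⟨P, hP⟩ := exists_place (loc _ p hp)
  exact ⟨⟨P, w, hw, h0, p, hp, hm, hP⟩, hP⟩

theorem on_iff_le {x : Pt S.W} {C : Crv S.W} {w : K} (hw : w ∈ S.W) (hx : x.In w) (hC : C.In w) :
    x.On C ↔ ctr (S.crv_le hC) ≤ ctr hx.chart_le := by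
  constructor
  · intro h
    refine le_of_loc_le (ctr_isPrime _) (ctr_isPrime _) ?_
    rw [S.pt_loc x hw hx, S.crv_loc C hw hC]
    exact h
  · intro h
    have := loc_anti (ctr_isPrime _) (ctr_isPrime _) h
    rw [S.pt_loc x hw hx, S.crv_loc C hw hC] at this
    exact this

theorem on_iff (x : Pt S.W) (C : Crv S.W) (w : K) (hw : w ∈ S.W) (hx : x.In w) (hC : C.In w) :
    x.On C ↔ ∀ a ∈ chart S.W w, 0 < C.ord a → x.Van a := by
  rw [S.on_iff_le hw hx hC]
  constructor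
  · intro h a ha h1
    exact (S.pt_mem_ctr x _ ⟨a, ha⟩).1 (h ((C.mem_ctr _ _).2 (Or.inr h1)))
  · intro h a ha
    rw [S.pt_mem_ctr]
    rcases (C.mem_ctr _ _).1 ha with h1 | h1
    · rw [h1]; exact x.van_zero
    · exact h a a.2 h1

theorem crv_eq_of_ctr {C C' : Crv S.W} {w : K} (hw : w ∈ S.W) (h : C.In w) (h' : C'.In w)
    (e : ctr (S.crv_le h') ≤ ctr (S.crv_le h)) : C = C' := by
  have := loc_anti (ctr_isPrime _) (ctr_isPrime _) e
  rw [S.crv_loc C hw h, S.crv_loc C' hw h'] at this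
  exact Crv.eq_of_le this

/-- The prime ideal of the curve `C` in the local ring at a point of `C`. -/
theorem on_loc {x : Pt S.W} {C : Crv S.W} (h : x.On C) :
    loc x.ring (ctr h.le) (ctr_isPrime _) = C.alg := by
  obtain ⟨w, hw, hx⟩ := x.exists_in
  have hC := h.crv_in hx
  refine le_antisymm (loc_ctr_le _) ?_
  refine (S.crv_loc C hw hC).ge.trans ?_
  rintro f ⟨a, b, hb, e⟩
  exact ⟨⟨a, hx.chart_le a.2⟩, ⟨b, hx.chart_le b.2⟩, hb, e⟩

theorem on_ne_bot {x : Pt S.W} {C : Crv S.W} (h : x.On C) :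
    ctr h.le ≠ ⊥ := by
  intro e
  have := S.frac x
  refine C.alg_ne_top fun f => ?_
  rw [← S.on_loc h, loc_congr _ Ideal.isPrime_bot e]
  exact mem_loc_bot f

theorem on_lt_max {x : Pt S.W} {C : Crv S.W} (h : x.On C) :
    ctr h.le < maximalIdeal x.ring := by
  refine lt_of_le_of_ne (le_maximalIdeal (ctr_isPrime _).ne_top) fun e => ?_
  obtain ⟨w, hw, hx⟩ := x.exists_in
  have hC := h.crv_in hx
  apply S.crv_not_max C hw hC
  have : ctr (S.crv_le hC) = ctr hx.chart_le := by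
    ext a
    change Subalgebra.inclusion hx.chart_le a ∈ ctr h.le ↔
      Subalgebra.inclusion hx.chart_le a ∈ maximalIdeal x.ring
    rw [e]
  rw [this]
  exact S.pt_max x hx

theorem irr_facts {x : Pt S.W} {C : Crv S.W} (h : x.On C) {t : x.ring} (ht : Prime t)
    (h1 : 0 < C.ord t) : C.ord t = 1 ∧ (∀ C', x.On C' → C' ≠ C → C'.ord t = 0) ∧
    ∀ a : x.ring, t ∣ a ↔ ((a : K) = 0 ∨ 0 < C.ord a) := by
  have key : ∀ C' (h' : x.On C'), 0 < C'.ord t →
      Ideal.span {t} = ctr h'.le := fun C' h' h2 =>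
    lt_two_eq ((Ideal.span_singleton_prime ht.ne_zero).2 ht) (ctr_isPrime _)
      (maximalIdeal.isMaximal _).isPrime (S.max_height x)
      (by rw [Ne, Ideal.span_singleton_eq_bot]; exact ht.ne_zero)
      ((Ideal.span_singleton_le_iff_mem _).2 ((C'.mem_ctr _ _).2 (Or.inr h2))) (S.on_lt_max h')
  have hdvd : ∀ a : x.ring, t ∣ a ↔ ((a : K) = 0 ∨ 0 < C.ord a) := fun a => by
    rw [← Ideal.mem_span_singleton, key C h h1, C.mem_ctr]
  have ht0 : (t : K) ≠ 0 := fun e => ht.ne_zero (Subtype.ext e)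
  refine ⟨?_, fun C' h' hne => ?_, hdvd⟩
  · obtain ⟨π, hπ, h2⟩ := Pl.exists_ord_eq_one C.pl
    have h3 : π ∈ C.alg := (Pl.ord_nonneg_iff C.pl hπ).1 (by omega)
    rw [← S.on_loc h] at h3
    obtain ⟨a, b, hb, e⟩ := h3
    rw [C.mem_ctr, not_or] at hb
    have hb1 := Pl.ord_nonneg_of_mem C.pl (h _ b.2)
    have ha : C.pl.ord a = 1 := by
      rw [← e, Pl.ord_mul _ hπ hb.1]
      have := hb.2
      unfold Crv.ord at this
      omega
    obtain ⟨c, hc⟩ := (hdvd a).2 (Or.inr (by unfold Crv.ord; omega))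
    have hc0 : (c : K) ≠ 0 := by
      intro e0
      rw [hc, MulMemClass.coe_mul, e0, mul_zero, Pl.ord_zero] at ha
      omega
    rw [hc, MulMemClass.coe_mul, Pl.ord_mul _ ht0 hc0] at ha
    have := Pl.ord_nonneg_of_mem C.pl (h _ c.2)
    unfold Crv.ord at *
    omega
  · have h2 := Pl.ord_nonneg_of_mem C'.pl (h' _ t.2)
    by_contra h3
    apply hne
    have h4 : ctr h'.le = ctr h.le :=
      (key C' h' (by unfold Crv.ord at *; omega)).symm.trans (key C h h1)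
    have h5 : C'.alg = C.alg := by
      rw [← S.on_loc h, ← S.on_loc h']
      exact loc_congr _ _ h4
    exact Crv.eq_of_le (show C'.alg ≤ C.alg from h5.le)

theorem irr_of_crv (x : Pt S.W) (C : Crv S.W) (h : x.On C) : ∃ t : x.ring, Prime t ∧
    C.ord t = 1 ∧ (∀ C', x.On C' → C' ≠ C → C'.ord t = 0) ∧
    ∀ a : x.ring, t ∣ a ↔ ((a : K) = 0 ∨ 0 < C.ord a) := by
  have := S.ufd x
  obtain ⟨t, h1, ht⟩ := (ctr_isPrime h.le).exists_mem_prime_of_ne_bot
    (S.on_ne_bot h)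
  exact ⟨t, ht, S.irr_facts h ht
    (((C.mem_ctr _ _).1 h1).resolve_left fun e => ht.ne_zero (Subtype.ext e))⟩

theorem crv_of_irr (x : Pt S.W) (t : x.ring) (ht : Prime t) : ∃ C : Crv S.W, x.On C ∧
    C.ord t = 1 ∧ (∀ C', x.On C' → C' ≠ C → C'.ord t = 0) ∧
    ∀ a : x.ring, t ∣ a ↔ ((a : K) = 0 ∨ 0 < C.ord a) := by
  obtain ⟨w, hw, hx⟩ := x.exists_in
  have hT : (Ideal.span {t}).IsPrime := (Ideal.span_singleton_prime ht.ne_zero).2 ht
  have hnoeth : IsNoetherianRing x.ring := by have := S.reg x; infer_instance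
  let p : Ideal (chart S.W w) := (Ideal.span {t}).comap (Subalgebra.inclusion hx.chart_le)
  have hp : p.IsPrime := Ideal.comap_isPrime _ _
  have hpm : p ≤ ctr hx.chart_le := Ideal.comap_mono (le_maximalIdeal hT.ne_top)
  have hloc := S.pt_loc x hw hx
  have hrep : ∀ f : x.ring, ∃ a b : chart S.W w, b ∉ ctr hx.chart_le ∧
      f * Subalgebra.inclusion hx.chart_le b = Subalgebra.inclusion hx.chart_le a := by
    intro f
    obtain ⟨a, b, hb, e⟩ : (f : K) ∈ loc (chart S.W w) (ctr hx.chart_le) (ctr_isPrime _) := by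
      rw [hloc]; exact f.2
    exact ⟨a, b, hb, Subtype.ext e⟩
  obtain ⟨a, b, hb, e⟩ := hrep t
  have ha : a ∈ p := by
    change Subalgebra.inclusion hx.chart_le a ∈ Ideal.span {t}
    rw [← e]
    exact Ideal.mul_mem_right _ _ (Ideal.mem_span_singleton_self t)
  have ht0 : (t : K) ≠ 0 := fun e => ht.ne_zero (Subtype.ext e)
  have e' : (t : K) * b = a := congrArg Subtype.val e
  have ha0 : (a : K) ≠ 0 := e' ▸ mul_ne_zero ht0 (ne_zero_of_notMem hb)
  have hb0 : p ≠ ⊥ := fun h => ha0 (by rw [h, Ideal.mem_bot] at ha; rw [ha]; rfl)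
  have hm : ¬ p.IsMaximal := by
    intro hm
    have h1 : p = ctr hx.chart_le := hm.eq_of_le (ctr_isPrime _).ne_top hpm
    have h2 : maximalIdeal x.ring = Ideal.span {t} := by
      refine le_antisymm (fun f hf => ?_) (le_maximalIdeal hT.ne_top)
      obtain ⟨a', b', hb', e2⟩ := hrep f
      have h3 : a' ∈ p := by
        rw [h1]
        change Subalgebra.inclusion hx.chart_le a' ∈ maximalIdeal x.ring
        rw [← e2]
        exact Ideal.mul_mem_right _ _ hf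
      have h4 : f * Subalgebra.inclusion hx.chart_le b' ∈ Ideal.span {t} := by
        rw [e2]; exact h3
      exact (hT.mem_or_mem h4).resolve_right fun h5 => hb' (hpm h5)
    have h5 := Ideal.height_le_one_of_isPrincipal_of_mem_minimalPrimes (Ideal.span {t})
      (Ideal.span {t}) (by rw [Ideal.minimalPrimes_eq_subsingleton_self]; rfl)
    rw [← h2, S.max_height x] at h5
    norm_num at h5
  obtain ⟨C, hC⟩ := S.crv_of_prime w hw hx.1 p hp hb0 hm
  have hon : x.On C := fun f hf => (hC f).2 (loc_anti hp (ctr_isPrime _) hpm (hloc.ge hf))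
  refine ⟨C, hon, S.irr_facts hon ht ?_⟩
  refine Pl.ord_pos_of_inv_notMem _ fun h1 => ?_
  rw [hC] at h1
  have h2 : (a : K)⁻¹ = (t : K)⁻¹ * (b : K)⁻¹ := by rw [← e', mul_inv]
  exact (inv_mem_loc_iff hp ha0).1
    (h2 ▸ mul_mem h1 (inv_mem_loc hp fun h3 => hb (hpm h3))) ha

end Surf

end Vale.Agent.P297Z.Sf
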