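import Vale.Agent.P297Z.Surf.Sk
import Mathlib.RingTheory.Ideal.MinimalPrime.Noetherian
import Mathlib.RingTheory.Localization.NumDen
import Mathlib.RingTheory.FiniteType

/-! Divisors and sections, first half. -/

set_option linter.all false

open IsLocalRing

namespace Vale.Agent.P297Z.Sf.L2

open Vale.Agent.P297 (Place)

variable {K : Type} [Field K] [Algebra ℂ K] {S : Surf K}

theorem loc_anti {A : Subalgebra ℂ K} {p q : Ideal A} (hp : p.IsPrime) (hq : q.IsPrime)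
    (h : q ≤ p) : loc A p hp ≤ loc A q hq := by
  rintro f ⟨a, b, hb, e⟩
  exact ⟨a, b, fun h1 => hb (h h1), e⟩

theorem le_of_loc {A : Subalgebra ℂ K} {p q : Ideal A} (hp : p.IsPrime) (hq : q.IsPrime)
    (h : loc A q hq ≤ loc A p hp) : p ≤ q := by
  intro b hb
  by_contra h1
  exact (inv_mem_loc_iff hp (ne_zero_of_notMem h1)).1 (h (inv_mem_loc hq h1)) hb

theorem ord_prod (v : Place K) {ι : Type} (s : Finset ι) (f : ι → K) (hf : ∀ i ∈ s, f i ≠ 0) :
    v.ord (∏ i ∈ s, f i) = ∑ i ∈ s, v.ord (f i) := by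
  classical
  induction s using Finset.induction_on with
  | empty => simp
  | insert a s ha ih =>
    have h1 : ∀ i ∈ s, f i ≠ 0 := fun i hi => hf i (Finset.mem_insert_of_mem hi)
    rw [Finset.prod_insert ha, Finset.sum_insert ha,
      Pl.ord_mul _ (hf a (Finset.mem_insert_self a s)) (Finset.prod_ne_zero_iff.2 h1), ih h1]

theorem fin_chart (h : S.Loc1) {w : K} (hw : w ∈ S.W) (a : chart S.W w) (ha : (a : K) ≠ 0) :
    {C : Crv S.W | C.In w ∧ C.ord a ≠ 0}.Finite := by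
  haveI := h.ft w
  haveI : IsNoetherianRing (chart S.W w) := Algebra.FiniteType.isNoetherianRing ℂ _
  choose p hp h0 h1 h2 h3 using fun C : {C : Crv S.W | C.In w ∧ C.ord a ≠ 0} =>
    h.crv_chart C.1 w hw C.2.1
  have hi : Function.Injective p := by
    intro C C' e
    refine Subtype.ext (Crv.ext (Pl.ext' (SetLike.ext fun f => ?_)))
    rw [h2, h2]
    simp only [mem_loc, e]
  have hm : ∀ C, p C ∈ (Ideal.span {a}).minimalPrimes := by
    intro C
    have h4 := Pl.ord_nonneg_of_mem _ (C.2.1.chart_mem a.2)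
    have h5 : a ∈ p C := (h3 C a).2 (Or.inr (lt_of_le_of_ne h4 (Ne.symm C.2.2)))
    refine ⟨⟨hp C, (Ideal.span_singleton_le_iff_mem _).2 h5⟩, fun q hq hle => ?_⟩
    have h6 : a ∈ q := (Ideal.span_singleton_le_iff_mem _).1 hq.2
    have h7 : q ≠ ⊥ := fun e => ha (by rw [e] at h6; rw [(Submodule.mem_bot _).1 h6]; rfl)
    obtain ⟨C', hC'⟩ := h.crv_of_prime w hw C.2.1.1 q hq.1 h7
      fun hq' => h1 C (hq'.eq_of_le (hp C).ne_top hle ▸ hq')
    have h8 : C.1.pl = C'.pl :=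
      Pl.eq_of_le' fun f hf => (hC' f).2 (loc_anti (hp C) hq.1 hle ((h2 C f).1 hf))
    exact le_of_loc (hp C) hq.1 fun f hf => (h2 C f).1 (h8 ▸ (hC' f).2 hf)
  have hf := (Ideal.finite_minimalPrimes_of_isNoetherianRing _ (Ideal.span {a})).preimage
    (f := p) hi.injOn
  exact Set.finite_coe_iff.1 (Set.finite_univ_iff.1 (hf.subset fun C _ => hm C))

theorem fin_div (h : S.Loc1) (f : K) : (Function.support fun C : Crv S.W => C.ord f).Finite := by
  by_cases h0 : f = 0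
  · simp [h0]
  have key : ∀ i, {C : Crv S.W | C.In (S.x i) ∧ C.ord f ≠ 0}.Finite := by
    intro i
    haveI := S.model.frac _ (S.x_mem i) (S.x_ne i)
    obtain ⟨a, b, hb, e⟩ := IsFractionRing.div_surjective (A := chart S.W (S.x i)) f
    have hb0 : (b : K) ≠ 0 := fun h1 => nonZeroDivisors.ne_zero hb (Subtype.ext h1)
    have e' : (a : K) / b = f := e
    have ha0 : (a : K) ≠ 0 := fun h1 => h0 (by rw [← e', h1, zero_div])
    refine ((fin_chart h (S.x_mem i) a ha0).union (fin_chart h (S.x_mem i) b hb0)).subset ?_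
    rintro C ⟨h1, h2⟩
    by_contra h3
    simp only [Set.mem_union, Set.mem_setOf_eq, not_or, not_and, not_not] at h3
    apply h2
    have h4 := h3.1 h1
    have h5 := h3.2 h1
    unfold Crv.ord at *
    rw [← e', Pl.ord_div _ ha0 hb0, h4, h5, sub_zero]
  refine (Set.finite_iUnion key).subset fun C hC => ?_
  obtain ⟨i, hi⟩ := h.crv_cover C
  exact Set.mem_iUnion.2 ⟨i, hi, hC⟩

theorem ord_le {C : Crv S.W} {w a : K} (hC : C.In w) (ha : a ∈ S.W) (h0 : a ≠ 0) :
    C.ord w ≤ C.ord a := by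
  have h1 := Pl.ord_nonneg_of_mem _ (hC.2 a ha)
  rw [Pl.ord_div _ h0 hC.1] at h1
  exact sub_nonneg.1 h1

theorem hyp_in (h : S.Loc1) (C : Crv S.W) (w : K) (hw : w ∈ S.W) (hC : C.In w) :
    S.H C = - C.ord w := by
  have key : ∀ (C : Crv S.W), ∀ w ∈ S.W, C.In w →
      sInf {k : ℤ | ∃ w ∈ S.W, w ≠ 0 ∧ C.ord w = k} = C.ord w := by
    intro C w hw hC
    refine IsLeast.csInf_eq ⟨⟨w, hw, hC.1, rfl⟩, ?_⟩
    rintro _ ⟨a, ha, h0, rfl⟩
    exact ord_le hC ha h0
  rw [Surf.H, hyp, toDiv_apply, key C w hw hC]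
  refine (Set.finite_iUnion fun i => fin_div h (S.x i)).subset fun C hC => ?_
  obtain ⟨i, hi⟩ := h.crv_cover C
  refine Set.mem_iUnion.2 ⟨i, fun h1 => hC ?_⟩
  exact neg_eq_zero.2 ((key C _ (S.x_mem i) hi).trans h1)

theorem normal (h : S.Loc1) (x : Pt S.W) (f : K) : f ∈ stalk x 0 ↔ f ∈ x.ring := by
  refine ⟨fun hf => ?_, fun hf => Or.inr fun C hC => by
    simpa using Pl.ord_nonneg_of_mem _ (hC f hf)⟩
  by_cases h0 : f = 0
  · rw [h0]
    exact zero_mem _
  haveI := h.ufd x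
  haveI := h.frac x
  obtain ⟨a, b, hab, e⟩ := IsFractionRing.exists_reduced_fraction x.ring f
  rw [IsFractionRing.mk'_eq_div] at e
  have e' : (a : K) / (b : x.ring) = f := e
  have hb : (b : x.ring) ≠ 0 := nonZeroDivisors.ne_zero b.2
  have hb0 : ((b : x.ring) : K) ≠ 0 := fun h1 => hb (Subtype.ext h1)
  have ha0 : (a : K) ≠ 0 := fun h1 => h0 (by rw [← e', h1, zero_div])
  by_cases hu : IsUnit (b : x.ring)
  · rw [← e', div_eq_mul_inv]
    exact mul_mem a.2 ((isUnit_iff_inv _).1 hu).2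
  exfalso
  obtain ⟨t, ht, htb⟩ := WfDvdMonoid.exists_irreducible_factor hu hb
  obtain ⟨C, h1, -, -, h2⟩ := h.crv_of_irr x t (UniqueFactorizationMonoid.irreducible_iff_prime.1 ht)
  have h3 := ((h2 _).1 htb).resolve_left hb0
  have h4 : ¬ 0 < C.ord a := fun h5 => ht.not_isUnit (hab ((h2 a).2 (Or.inr h5)) htb)
  have h5 := hf.resolve_left h0 C h1
  unfold Crv.ord at *
  rw [← e', Pl.ord_div _ ha0 hb0, Finsupp.zero_apply] at h5
  omega

theorem gen (h : S.Loc1) (x : Pt S.W) (D : Div S.W) : ∃ s, GenAt x D s := by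
  classical
  induction D using Finsupp.induction_linear with
  | zero => exact ⟨1, one_ne_zero, fun C _ => by simp⟩
  | add D D' h1 h2 =>
    obtain ⟨s, h3, h4⟩ := h1
    obtain ⟨s', h5, h6⟩ := h2
    refine ⟨s * s', mul_ne_zero h3 h5, fun C hC => ?_⟩
    have h7 := h4 C hC
    have h8 := h6 C hC
    unfold Crv.ord at *
    rw [Pl.ord_mul _ h3 h5, Finsupp.add_apply]
    omega
  | single C n =>
    by_cases hC : x.On C
    · obtain ⟨t, ht, h1, h2, -⟩ := h.irr_of_crv x C hC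
      refine ⟨(t : K) ^ (-n), zpow_ne_zero _ fun h3 => ht.ne_zero (Subtype.ext h3),
        fun C' hC' => ?_⟩
      unfold Crv.ord at *
      rw [Pl.ord_zpow, Finsupp.single_apply]
      split_ifs with e
      · rw [← e, h1]
        ring
      · rw [h2 C' hC' (Ne.symm e)]
        ring
    · refine ⟨1, one_ne_zero, fun C' hC' => ?_⟩
      have e : C' ≠ C := fun e => hC (e ▸ hC')
      rw [Finsupp.single_eq_of_ne e]
      simp

/-- The point of a maximal ideal of a chart. -/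
theorem exists_pt {w : K} (hw : w ∈ S.W) (h0 : w ≠ 0) (m : Ideal (chart S.W w))
    (hm : m.IsMaximal) : ∃ x : Pt S.W, x.In w ∧ x.ring = loc _ m hm.isPrime ∧
      ∀ a : chart S.W w, a ∉ m → ¬ x.Van a :=
  ⟨⟨_, w, hw, h0, m, hm, rfl⟩, ⟨h0, fun _ ha => le_loc _ m hm.isPrime (div_mem_chart ha)⟩, rfl,
    fun a ha hv => hv.2.elim (ne_zero_of_notMem ha) fun h1 => h1 (inv_mem_loc hm.isPrime ha)⟩

theorem sec_chart (h : S.Loc1) (w : K) (hw : w ∈ S.W) (h0 : w ≠ 0) (f : K) :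
    f ∈ secIn w (0 : Div S.W) ↔ f ∈ chart S.W w := by
  refine ⟨fun hf => ?_, fun hf => Or.inr fun C hC => by
    simpa using Pl.ord_nonneg_of_mem _ (hC.chart_mem hf)⟩
  let I : Ideal (chart S.W w) :=
    { carrier := {b | f * b ∈ chart S.W w}
      zero_mem' := by simp
      add_mem' := fun {a b} ha hb => by
        change f * ((a : K) + b) ∈ chart S.W w
        rw [mul_add]
        exact add_mem ha hb
      smul_mem' := fun c b hb => by
        change f * ((c : K) * b) ∈ chart S.W w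
        rw [mul_left_comm]
        exact mul_mem c.2 hb }
  by_contra hc
  have hI : I ≠ ⊤ := fun e => hc (by
    have : f * ((1 : chart S.W w) : K) ∈ chart S.W w := (Ideal.eq_top_iff_one I).1 e
    simpa using this)
  obtain ⟨m, hm, hle⟩ := Ideal.exists_le_maximal I hI
  obtain ⟨x, h1, h2, -⟩ := exists_pt hw h0 m hm
  have h3 : f ∈ x.ring := (normal h x f).1
    (secOn_mono (fun C hC => ⟨hC.crv_in h1, le_rfl⟩) hf)
  rw [h2] at h3
  obtain ⟨a, b, hb, e⟩ := h3
  exact hb (hle (show f * b ∈ chart S.W w from e ▸ a.2))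

theorem fin_bad (h : S.Loc1) (f : K) (D : Div S.W) :
    {C : Crv S.W | C.ord f + D C ≠ 0}.Finite := by
  refine ((fin_div h f).union D.finite_support).subset fun C hC => ?_
  by_contra h1
  simp only [Set.mem_union, Function.mem_support, not_or, not_not] at h1
  exact hC (by rw [h1.1, h1.2, add_zero])

theorem exists_bound (h : S.Loc1) (f : K) (D : Div S.W) :
    ∃ N : ℕ, ∀ C : Crv S.W, 0 ≤ C.ord f + D C + N := by
  obtain ⟨b, hb⟩ := ((fin_bad h f D).image fun C => C.ord f + D C).bddBelow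
  refine ⟨(-b).toNat, fun C => ?_⟩
  by_cases hC : C.ord f + D C = 0
  · omega
  · have := hb ⟨C, hC, rfl⟩
    simp only at this
    omega

theorem sec_mul (h : S.Loc1) (w : K) (hw : w ∈ S.W) (h0 : w ≠ 0) (D : Div S.W) (f : K)
    (hf : f ∈ secIn w D) : ∃ n₀ : ℕ, ∀ n : ℕ, n₀ ≤ n → f * w ^ n ∈ M D n := by
  obtain ⟨N, hN⟩ := exists_bound h f D
  refine ⟨N, fun n hn => ?_⟩
  by_cases hf0 : f = 0
  · exact Or.inl (by simp [hf0])
  refine Or.inr fun C _ => ?_
  obtain ⟨w₀, h1, h2⟩ := C.exists_in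
  have h3 : hyp S.W C = - C.ord w₀ := hyp_in h C w₀ h1 h2
  have h4 := ord_le h2 hw h0
  have h5 := Crv.in_iff h2 h1 hw h0
  have h6 := hN C
  have h7 := hf.resolve_left hf0 C
  unfold Crv.ord at *
  rw [Pl.ord_mul _ hf0 (pow_ne_zero _ h0), Pl.ord_pow, Finsupp.add_apply, Finsupp.smul_apply, h3,
    smul_eq_mul]
  by_cases hC : C.In w
  · have h8 := h7 hC
    rw [h5.1 hC]
    linarith
  · have h8 : 1 ≤ C.pl.ord w - C.pl.ord w₀ := by
      have := mt h5.2 hC
      omega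
    have h9 : (N : ℤ) ≤ n := by exact_mod_cast hn
    have h10 : (0 : ℤ) ≤ n := Int.natCast_nonneg n
    nlinarith

theorem not_van_pow {x : Pt S.W} {a : K} (ha : a ∈ x.ring) (h : ¬ x.Van a) (n : ℕ) :
    ¬ x.Van (a ^ n) := by
  induction n with
  | zero => simpa using x.not_van_one
  | succ n ih =>
    rw [pow_succ]
    exact fun h1 => (Pt.van_or (pow_mem ha n) ha h1).elim ih h

/-- A function which vanishes to a high order on given curves, but not at the point `x`. -/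
theorem exists_kill (h : S.Loc1) {x : Pt S.W} {w : K} (hw : w ∈ S.W) (hx : x.In w) (N : ℕ)
    {T : Set (Crv S.W)} (hT : T.Finite) (h1 : ∀ C ∈ T, C.In w ∧ ¬ x.On C) :
    ∃ b ∈ chart S.W w, ¬ x.Van b ∧ ∀ C ∈ T, (N : ℤ) ≤ C.ord b := by
  induction T, hT using Set.Finite.induction_on with
  | empty => exact ⟨1, one_mem _, x.not_van_one, fun _ h => h.elim⟩
  | @insert C T _ _ ih =>
    obtain ⟨b, hb, h2, h3⟩ := ih fun C hC => h1 C (Set.mem_insert_of_mem _ hC)
    obtain ⟨h4, h5⟩ := h1 C (Set.mem_insert _ _)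
    rw [h.on_iff x C w hw hx h4] at h5
    push Not at h5
    obtain ⟨a, ha, h6, h7⟩ := h5
    have h8 := not_van_pow (hx.chart_le ha) h7 N
    have hb0 := (Pt.inv_mem (hx.chart_le hb) h2).1
    have ha0 := (Pt.inv_mem (hx.chart_le ha) h7).1
    refine ⟨b * a ^ N, mul_mem hb (pow_mem ha N),
      fun h9 => (Pt.van_or (hx.chart_le hb) (hx.chart_le (pow_mem ha N)) h9).elim h2 h8,
      fun C' hC' => ?_⟩
    have h9 := (h1 C' hC').1
    have h10 := Pl.ord_nonneg_of_mem _ (h9.chart_mem hb)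
    have h11 := Pl.ord_nonneg_of_mem _ (h9.chart_mem ha)
    have h12 : (0 : ℤ) ≤ N := Int.natCast_nonneg N
    unfold Crv.ord at *
    rw [Pl.ord_mul _ hb0 (pow_ne_zero _ ha0), Pl.ord_pow]
    rcases hC' with rfl | hC'
    · nlinarith
    · have := h3 C' hC'
      nlinarith

theorem stalk_sec (h : S.Loc1) (x : Pt S.W) (w : K) (hw : w ∈ S.W) (hx : x.In w) (D : Div S.W)
    (f : K) (hf : f ∈ stalk x D) : ∃ b ∈ chart S.W w, ¬ x.Van b ∧ b * f ∈ secIn w D := by
  by_cases hf0 : f = 0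
  · exact ⟨1, one_mem _, x.not_van_one, Or.inl (by simp [hf0])⟩
  obtain ⟨N, hN⟩ := exists_bound h f D
  obtain ⟨b, hb, h1, h2⟩ := exists_kill h hw hx N
    (T := {C | C.In w ∧ C.ord f + D C < 0}) ((fin_bad h f D).subset fun C hC => hC.2.ne)
    fun C hC => ⟨hC.1, fun h3 => not_le.2 hC.2 (hf.resolve_left hf0 C h3)⟩
  refine ⟨b, hb, h1, Or.inr fun C hC => ?_⟩
  have h3 := Pl.ord_nonneg_of_mem _ (hC.chart_mem hb)
  have h4 := hN C
  have h5 : C.ord f + D C < 0 → (N : ℤ) ≤ C.ord b := fun h6 => h2 C ⟨hC, h6⟩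
  unfold Crv.ord at *
  rw [Pl.ord_mul _ (Pt.inv_mem (hx.chart_le hb) h1).1 hf0]
  omega

end Vale.Agent.P297Z.Sf.L2
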