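import Vale.Agent.P297Z.Surf.Sk
import Vale.Agent.P297Z.Surf.Chart
import Vale.Agent.P297Z.Diff.Crv
import Mathlib.Algebra.Polynomial.Laurent

/-!
# The homogeneous coordinate ring and the modules of sections inside the Laurent polynomials
-/

set_option linter.all false

noncomputable section

namespace Vale.Agent.P297Z.Sf

open LaurentPolynomial IsLocalRing

variable {K : Type} [Field K] [Algebra ℂ K]

/-- the monomials -/
abbrev mon (a : K) (m : ℤ) : K[T;T⁻¹] := C a * T m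

theorem coeff_mon (a : K) (m n : ℤ) : (mon a m).coeff n = if m = n then a else 0 := by
  rw [mon, ← single_eq_C_mul_T, AddMonoidAlgebra.coeff_single_apply]

theorem mon_mul (a b : K) (m n : ℤ) : mon a m * mon b n = mon (a * b) (m + n) := by
  rw [mon, mon, mon, map_mul, T_add]; ring

theorem mon_add (a b : K) (m : ℤ) : mon (a + b) m = mon a m + mon b m := by
  rw [mon, map_add, add_mul]

theorem mon_zero (m : ℤ) : mon (0 : K) m = 0 := by rw [mon, map_zero, zero_mul]

theorem mon_smul (c : ℂ) (a : K) (m : ℤ) : mon (c • a) m = c • mon a m := by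
  ext n
  rw [AddMonoidAlgebra.coeff_smul_apply, coeff_mon, coeff_mon]
  split_ifs <;> simp

theorem mon_ne_zero {a : K} (ha : a ≠ 0) (m : ℤ) : mon a m ≠ 0 := fun h => by
  have := coeff_mon a m m
  rw [h, if_pos rfl] at this
  exact ha this.symm

theorem mon_pow (a : K) (m : ℤ) (n : ℕ) : mon a m ^ n = mon (a ^ n) (n * m) := by
  rw [mon, mon, mul_pow, T_pow, map_pow]

/-- the monomials of a given degree, as a linear map -/
def monL (m : ℤ) : K →ₗ[ℂ] K[T;T⁻¹] where
  toFun := fun a => mon a m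
  map_add' := fun a b => mon_add a b m
  map_smul' := fun c a => mon_smul c a m

theorem monL_injective (m : ℤ) : Function.Injective (monL m : K →ₗ[ℂ] K[T;T⁻¹]) :=
  (injective_iff_map_eq_zero _).2 fun a h => by
    by_contra h0
    exact mon_ne_zero h0 m h

theorem sum_mon (f : K[T;T⁻¹]) : ∑ m ∈ f.coeff.support, mon (f.coeff m) m = f := by
  conv_rhs => rw [← AddMonoidAlgebra.sum_coeff_single f]
  exact Finset.sum_congr rfl fun m _ => (single_eq_C_mul_T _ _).symm

/-- the Laurent polynomials with coefficients in a family of subspaces -/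
def fam (N : ℤ → Submodule ℂ K) : Submodule ℂ K[T;T⁻¹] where
  carrier := {f | ∀ m, f.coeff m ∈ N m}
  add_mem' := fun hf hg m => (N m).add_mem (hf m) (hg m)
  zero_mem' := fun m => (N m).zero_mem
  smul_mem' := fun c _ hf m => (N m).smul_mem c (hf m)

theorem mon_mem_fam {N : ℤ → Submodule ℂ K} {a : K} {m : ℤ} : mon a m ∈ fam N ↔ a ∈ N m := by
  constructor
  · intro h
    have := h m
    rwa [coeff_mon, if_pos rfl] at this
  · intro h n
    rw [coeff_mon]
    split_ifs with e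
    · exact e ▸ h
    · exact zero_mem _

theorem fam_induction {N : ℤ → Submodule ℂ K} {P : K[T;T⁻¹] → Prop} (h0 : P 0)
    (hm : ∀ m, ∀ a ∈ N m, P (mon a m)) (ha : ∀ f g, P f → P g → P (f + g)) :
    ∀ f ∈ fam N, P f := by
  intro f hf
  rw [← sum_mon f]
  exact Finset.sum_induction _ P ha h0 fun m _ => hm m _ (hf m)

theorem mul_mem_fam {N N' N'' : ℤ → Submodule ℂ K}
    (h : ∀ m n, ∀ a ∈ N m, ∀ b ∈ N' n, a * b ∈ N'' (m + n)) :
    ∀ f ∈ fam N, ∀ g ∈ fam N', f * g ∈ fam N'' := by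
  refine fam_induction (fun g _ => by simp) (fun m a ha => ?_) fun f f' h1 h2 g hg => ?_
  · refine fam_induction (by simp) (fun n b hb => ?_) fun g g' h1 h2 => ?_
    · rw [mon_mul]
      exact mon_mem_fam.2 (h m n a ha b hb)
    · rw [mul_add]
      exact add_mem h1 h2
  · rw [add_mul]
    exact add_mem (h1 g hg) (h2 g hg)

/-- the scaling of the variable, as a map of algebras -/
def scaleA (K : Type) [Field K] [Algebra ℂ K] (g : ℂˣ) : K[T;T⁻¹] →ₐ[ℂ] K[T;T⁻¹] :=
  { eval₂ (C : K →+* K[T;T⁻¹])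
      (Units.map (algebraMap ℂ K[T;T⁻¹]).toMonoidHom g * (isUnit_T 1).unit) with
    commutes' := fun c => by
      rw [LaurentPolynomial.algebraMap_apply]
      exact eval₂_C _ _ _ }

theorem scaleA_mon (g : ℂˣ) (a : K) (m : ℤ) :
    scaleA K g (mon a m) = ((g ^ m : ℂˣ) : ℂ) • mon a m := by
  have h1 : (((isUnit_T (R := K) 1).unit ^ m : K[T;T⁻¹]ˣ) : K[T;T⁻¹]) = T m := by
    obtain ⟨n, rfl | rfl⟩ := Int.eq_nat_or_neg m
    · rw [zpow_natCast, Units.val_pow_eq_pow_val, IsUnit.unit_spec, T_pow, mul_one]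
    · rw [zpow_neg, zpow_natCast]
      refine Units.inv_eq_of_mul_eq_one_right ?_
      rw [Units.val_pow_eq_pow_val, IsUnit.unit_spec, T_pow, mul_one, ← T_add, add_neg_cancel,
        T_zero]
  change eval₂ _ _ (C a * T m) = _
  rw [eval₂_C_mul_T, mul_zpow, Units.val_mul, h1, ← map_zpow, Algebra.smul_def, mul_left_comm]
  rfl

/-- the scaling of the variable -/
def scale (K : Type) [Field K] [Algebra ℂ K] (g : ℂˣ) : K[T;T⁻¹] →ₗ[ℂ] K[T;T⁻¹] :=
  (scaleA K g).toLinearMap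

theorem scale_mon (g : ℂˣ) (a : K) (m : ℤ) :
    scale K g (mon a m) = ((g ^ m : ℂˣ) : ℂ) • mon a m := scaleA_mon g a m

theorem scale_mul (g : ℂˣ) (f f' : K[T;T⁻¹]) : scale K g (f * f') = scale K g f * scale K g f' :=
  map_mul (scaleA K g) f f'

theorem scale_apply (g : ℂˣ) (f : K[T;T⁻¹]) (m : ℤ) :
    (scale K g f).coeff m = ((g ^ m : ℂˣ) : ℂ) • f.coeff m := by
  induction f using LaurentPolynomial.induction_on' with
  | add p q hp hq =>
    rw [map_add, AddMonoidAlgebra.coeff_add, AddMonoidAlgebra.coeff_add, Finsupp.add_apply,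
      Finsupp.add_apply, hp, hq, smul_add]
  | C_mul_T n a =>
    rw [scale_mon, AddMonoidAlgebra.coeff_smul_apply, coeff_mon]
    split_ifs with e
    · rw [e]
    · simp

theorem scale_mem_fam {N : ℤ → Submodule ℂ K} (g : ℂˣ) {f : K[T;T⁻¹]} (hf : f ∈ fam N) :
    scale K g f ∈ fam N := fun m => by
  rw [scale_apply]
  exact (N m).smul_mem _ (hf m)

/-- An eigenvector of all the scalings is a monomial. -/
theorem eq_mon_of_scale {f : K[T;T⁻¹]} {m : ℤ}
    (h : ∀ g : ℂˣ, scale K g f = ((g ^ m : ℂˣ) : ℂ) • f) : f = mon (f.coeff m) m := by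
  ext n
  rw [coeff_mon]
  split_ifs with e
  · rw [e]
  · have h1 := congrArg (fun p : K[T;T⁻¹] => p.coeff n) (h (Units.mk0 2 two_ne_zero))
    simp only [scale_apply, AddMonoidAlgebra.coeff_smul_apply] at h1
    rw [← sub_eq_zero, ← sub_smul, smul_eq_zero] at h1
    refine h1.resolve_left fun h2 => e ?_
    rw [sub_eq_zero, Units.val_zpow_eq_zpow_val, Units.val_zpow_eq_zpow_val, Units.val_mk0] at h2
    have h3 : (2 : ℝ) ^ n = 2 ^ m := by
      have h4 := congrArg norm h2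
      simpa using h4
    exact (zpow_right_injective₀ two_pos (by norm_num) h3).symm

/-- The substitution `T = 1 / w`. -/
def deh (w : K) (h0 : w ≠ 0) : K[T;T⁻¹] →ₐ[ℂ] K :=
  { eval₂ (RingHom.id K) (Units.mk0 w h0)⁻¹ with
    commutes' := fun c => by
      rw [LaurentPolynomial.algebraMap_apply]
      exact eval₂_C _ _ _ }

theorem deh_mon {w : K} (h0 : w ≠ 0) (a : K) (m : ℤ) : deh w h0 (mon a m) = a / w ^ m := by
  change eval₂ _ _ (C a * T m) = _
  rw [eval₂_C_mul_T, Units.val_zpow_eq_zpow_val, Units.val_inv_eq_inv_val, Units.val_mk0, inv_zpow,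
    div_eq_mul_inv]
  rfl

theorem exists_hom_ne {A : Type*} [CommRing A] [IsDomain A] [Algebra ℂ A]
    [Algebra.FiniteType ℂ A] {a : A} (ha : a ≠ 0) : ∃ z : A →ₐ[ℂ] ℂ, z a ≠ 0 := by
  have hJ : IsJacobsonRing A := isJacobsonRing_of_finiteType (A := ℂ)
  have h1 : (⊥ : Ideal A).jacobson = ⊥ := hJ.out Ideal.isPrime_bot.isRadical
  have h2 : a ∉ (⊥ : Ideal A).jacobson := by rwa [h1]
  rw [Ideal.jacobson, Ideal.mem_sInf] at h2
  push Not at h2
  obtain ⟨m, ⟨-, hm⟩, ham⟩ := h2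
  letI := Ideal.Quotient.field m
  have h3 : Module.Finite ℂ (A ⧸ m) := finite_of_finite_type_of_isJacobsonRing ℂ (A ⧸ m)
  let e : ℂ ≃ₐ[ℂ] (A ⧸ m) := AlgEquiv.ofBijective (Algebra.ofId ℂ (A ⧸ m))
    (IsAlgClosed.algebraMap_bijective_of_isIntegral (k := ℂ) (K := A ⧸ m))
  refine ⟨e.symm.toAlgHom.comp (Ideal.Quotient.mkₐ ℂ m), fun h => ham ?_⟩
  exact Ideal.Quotient.eq_zero_iff_mem.1 ((map_eq_zero_iff _ e.symm.injective).1 h)

namespace Surf

variable (S : Surf K)

/-- the forms of degree `n` -/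
def Wp (n : ℤ) : Submodule ℂ K := if 0 ≤ n then S.W ^ n.toNat else ⊥

theorem Wp_nat (n : ℕ) : S.Wp n = S.W ^ n := by simp [Wp]

theorem Wp_one : S.Wp 1 = S.W := by simp [Wp]

theorem Wp_neg {n : ℤ} (h : n < 0) : S.Wp n = ⊥ := by simp [Wp, h]

theorem mul_mem_Wp (m n : ℤ) : ∀ a ∈ S.Wp m, ∀ b ∈ S.Wp n, a * b ∈ S.Wp (m + n) := by
  intro a ha b hb
  rcases lt_or_ge m 0 with h | h
  · rw [S.Wp_neg h, Submodule.mem_bot] at ha
    simp [ha]
  rcases lt_or_ge n 0 with h' | h'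
  · rw [S.Wp_neg h', Submodule.mem_bot] at hb
    simp [hb]
  lift m to ℕ using h
  lift n to ℕ using h'
  rw [Wp_nat] at ha hb
  rw [← Nat.cast_add, Wp_nat, pow_add]
  exact Submodule.mul_mem_mul ha hb

theorem Wp_le_M (n : ℤ) : S.Wp n ≤ M (0 : Div S.W) n := by
  rcases lt_or_ge n 0 with h | h
  · rw [S.Wp_neg h]
    exact bot_le
  lift n to ℕ using h
  rw [Wp_nat]
  exact fun a ha => SB.mem_M_pow S.model ha

theorem Wp_mul_M (D : Div S.W) (m n : ℤ) : ∀ a ∈ S.Wp m, ∀ b ∈ M D n, a * b ∈ M D (m + n) := by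
  intro a ha b hb
  have := mul_mem_M (S.Wp_le_M m ha) hb
  rwa [zero_add] at this

/-- the homogeneous coordinate ring -/
def ring : Subalgebra ℂ K[T;T⁻¹] := Algebra.adjoin ℂ ((fun w : K => C w * T 1) '' (S.W : Set K))

/-- the linear form given by an element of `W` -/
def lin (w : S.W) : S.ring := ⟨C (w : K) * T 1, Algebra.subset_adjoin ⟨w, w.2, rfl⟩⟩

theorem coe_lin (w : S.W) : (S.lin w : K[T;T⁻¹]) = mon (w : K) 1 := rfl

theorem mon_mem_ring_nat (n : ℕ) : ∀ a ∈ S.W ^ n, mon a n ∈ S.ring := by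
  induction n with
  | zero =>
    intro a ha
    rw [pow_zero, Submodule.mem_one] at ha
    obtain ⟨c, rfl⟩ := ha
    have := S.ring.algebraMap_mem c
    rw [LaurentPolynomial.algebraMap_apply] at this
    simpa [mon] using this
  | succ n ih =>
    intro a ha
    rw [pow_succ] at ha
    refine Submodule.mul_induction_on ha (fun x hx y hy => ?_) (fun x y hx hy => ?_)
    · rw [Nat.cast_succ, ← mon_mul]
      exact mul_mem (ih x hx) (S.lin ⟨y, hy⟩).2
    · rw [mon_add]
      exact add_mem hx hy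

theorem mem_ring {f : K[T;T⁻¹]} : f ∈ S.ring ↔ f ∈ fam S.Wp := by
  constructor
  · intro hf
    induction hf using Algebra.adjoin_induction with
    | mem x hx =>
      obtain ⟨w, hw, rfl⟩ := hx
      exact mon_mem_fam.2 (S.Wp_one ▸ hw)
    | algebraMap r =>
      have : algebraMap ℂ K[T;T⁻¹] r = mon (algebraMap ℂ K r) 0 := by
        rw [LaurentPolynomial.algebraMap_apply]; simp [mon]
      rw [this, mon_mem_fam, ← Nat.cast_zero, Wp_nat, pow_zero]
      exact Submodule.mem_one.2 ⟨r, rfl⟩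
    | add x y _ _ hx hy => exact add_mem hx hy
    | mul x y _ _ hx hy => exact mul_mem_fam S.mul_mem_Wp x hx y hy
  · refine fam_induction (P := fun f => f ∈ S.ring) (zero_mem _) (fun m a ha => ?_)
      (fun f g => add_mem) f
    rcases lt_or_ge m 0 with h | h
    · rw [S.Wp_neg h, Submodule.mem_bot] at ha
      rw [ha, mon_zero]
      exact zero_mem _
    lift m to ℕ using h
    exact S.mon_mem_ring_nat m a (S.Wp_nat m ▸ ha)

theorem mon_mem_ring {a : K} {m : ℤ} : mon a m ∈ S.ring ↔ a ∈ S.Wp m :=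
  S.mem_ring.trans mon_mem_fam

/-- the form of degree `n` given by an element of `W ^ n` -/
def form (n : ℕ) (a : K) (ha : a ∈ S.W ^ n) : S.ring := ⟨mon a n, S.mon_mem_ring_nat n a ha⟩

theorem ring_induction {P : S.ring → Prop} (h0 : P 0)
    (hm : ∀ (n : ℕ) (a : K) (ha : a ∈ S.W ^ n), P (S.form n a ha))
    (ha : ∀ f g, P f → P g → P (f + g)) (f : S.ring) : P f := by
  have := fam_induction (N := S.Wp) (P := fun f => ∃ h : f ∈ S.ring, P ⟨f, h⟩) ⟨zero_mem _, h0⟩
    (fun m a h => ?_) (fun f g ⟨h1, h2⟩ ⟨h3, h4⟩ => ⟨add_mem h1 h3, ha _ _ h2 h4⟩) f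
    (S.mem_ring.1 f.2)
  · exact this.2
  rcases lt_or_ge m 0 with h' | h'
  · rw [S.Wp_neg h', Submodule.mem_bot] at h
    rw [h, mon_zero]
    exact ⟨zero_mem _, h0⟩
  lift m to ℕ using h'
  exact ⟨_, hm m a (S.Wp_nat m ▸ h)⟩

theorem scale_mem_ring (g : ℂˣ) (f : S.ring) : scale K g f ∈ S.ring :=
  S.mem_ring.2 (scale_mem_fam g (S.mem_ring.1 f.2))

/-- the linear forms, as a linear map -/
def linL : S.W →ₗ[ℂ] S.ring where
  toFun := S.lin
  map_add' := fun a b => Subtype.ext (mon_add _ _ _)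
  map_smul' := fun c a => Subtype.ext (mon_smul _ _ _)

theorem adjoin_lin {s : Set S.W} (hs : Submodule.span ℂ s = ⊤) :
    Algebra.adjoin ℂ (S.lin '' s) = ⊤ := by
  have h1 : ∀ w : S.W, S.linL w ∈ Algebra.adjoin ℂ (S.lin '' s) := by
    intro w
    have hw : w ∈ Submodule.span ℂ s := hs ▸ Submodule.mem_top
    induction hw using Submodule.span_induction with
    | mem x hx => exact Algebra.subset_adjoin ⟨x, hx, rfl⟩
    | zero => rw [map_zero]; exact zero_mem _
    | add x y _ _ hx hy => rw [map_add]; exact add_mem hx hy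
    | smul c x _ hx => rw [map_smul]; exact Subalgebra.smul_mem _ hx c
  refine eq_top_iff.2 ((Algebra.adjoin_adjoin_coe_preimage (R := ℂ)
    (s := (fun w : K => C w * T 1) '' (S.W : Set K))).ge.trans (Algebra.adjoin_le ?_))
  rintro ⟨_, h⟩ ⟨w, hw, rfl⟩
  exact h1 ⟨w, hw⟩

theorem ring_ft : Algebra.FiniteType ℂ S.ring := by
  classical
  have := S.model.fin
  obtain ⟨s, hs⟩ : (⊤ : Submodule ℂ S.W).FG := Module.Finite.fg_top
  exact ⟨s.image S.lin, by rw [Finset.coe_image]; exact S.adjoin_lin hs⟩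

theorem lin_ne_zero {w : S.W} (h : (w : K) ≠ 0) : S.lin w ≠ 0 := fun e =>
  mon_ne_zero h 1 (congrArg Subtype.val e)

theorem ring_sep (r : S.ring) (h : ∀ z : S.ring →ₐ[ℂ] ℂ,
    (∃ f ∈ Ideal.span (Set.range S.lin), z f ≠ 0) → z r = 0) : r = 0 := by
  by_contra hr
  have := S.ring_ft
  obtain ⟨z, hz⟩ := exists_hom_ne (mul_ne_zero hr (S.lin_ne_zero (w := ⟨_, S.x_mem 0⟩) (S.x_ne 0)))
  rw [map_mul] at hz
  exact left_ne_zero_of_mul hz (h z ⟨_, Ideal.subset_span ⟨_, rfl⟩, right_ne_zero_of_mul hz⟩)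

/-- the twisted sections of `O(D)` -/
def lbS (D : Div S.W) : Submodule S.ring K[T;T⁻¹] where
  carrier := {f | ∀ m, f.coeff m ∈ M D m}
  add_mem' := (fam (M D)).add_mem
  zero_mem' := (fam (M D)).zero_mem
  smul_mem' := fun r f hf => mul_mem_fam (S.Wp_mul_M D) r (S.mem_ring.1 r.2) f hf

theorem mem_lbS {D : Div S.W} {f : K[T;T⁻¹]} : f ∈ S.lbS D ↔ f ∈ fam (M D) := Iff.rfl

theorem mon_mem_lbS {D : Div S.W} {a : K} {m : ℤ} : mon a m ∈ S.lbS D ↔ a ∈ M D m := mon_mem_fam

theorem mul_mem_lbS {D D' : Div S.W} {f g : K[T;T⁻¹]} (hf : f ∈ S.lbS D) (hg : g ∈ S.lbS D') :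
    f * g ∈ S.lbS (D + D') :=
  mul_mem_fam (fun _ _ _ ha _ hb => mul_mem_M ha hb) f hf g hg

theorem ring_le_lbS (r : S.ring) : (r : K[T;T⁻¹]) ∈ S.lbS 0 := fun m =>
  S.Wp_le_M m (S.mem_ring.1 r.2 m)

/-- The module of sections is generated by finitely many monomials. -/
theorem lbS_gen (h : S.Fg) (D : Div S.W) : ∃ s : Finset (K × ℤ), (∀ p ∈ s, p.1 ∈ M D p.2) ∧
    Submodule.span S.ring ((fun p : K × ℤ => mon p.1 p.2) '' s) = S.lbS D := by
  classical
  obtain ⟨h1, ⟨m₀, h2⟩, m₁, h3⟩ := h D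
  have h4 : ∀ m, (M D m).FG := fun m => Module.Finite.iff_fg.1 (h1 m)
  choose t ht using h4
  let s : Finset (K × ℤ) := (Finset.Icc m₀ m₁).biUnion fun m => (t m).image fun a => (a, m)
  have hs : ∀ p ∈ s, p.1 ∈ M D p.2 := by
    intro p hp
    obtain ⟨m, -, hm⟩ := Finset.mem_biUnion.1 hp
    obtain ⟨a, ha, rfl⟩ := Finset.mem_image.1 hm
    exact ht m ▸ Submodule.subset_span ha
  refine ⟨s, hs, le_antisymm (Submodule.span_le.2 ?_) ?_⟩
  · rintro _ ⟨p, hp, rfl⟩
    exact S.mon_mem_lbS.2 (hs p hp)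
  set N := Submodule.span S.ring ((fun p : K × ℤ => mon p.1 p.2) '' s)
  have low : ∀ m, m ≤ m₁ → ∀ a ∈ M D m, mon a m ∈ N := by
    intro m hm a ha
    rcases lt_or_ge m m₀ with h' | h'
    · rw [h2 m h', Submodule.mem_bot] at ha
      rw [ha, mon_zero]
      exact zero_mem _
    rw [← ht m] at ha
    induction ha using Submodule.span_induction with
    | mem x hx =>
      exact Submodule.subset_span ⟨(x, m), Finset.mem_biUnion.2 ⟨m, Finset.mem_Icc.2 ⟨h', hm⟩,
        Finset.mem_image_of_mem _ hx⟩, rfl⟩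
    | zero => rw [mon_zero]; exact zero_mem _
    | add x y _ _ hx hy => rw [mon_add]; exact add_mem hx hy
    | smul c x _ hx => rw [mon_smul]; exact N.smul_of_tower_mem c hx
  have high : ∀ m, m₁ ≤ m → ∀ a ∈ M D m, mon a m ∈ N := by
    intro m hm
    induction m, hm using Int.leInduction with
    | base => exact low m₁ le_rfl
    | succ m hm ih =>
      intro a ha
      refine Submodule.mul_induction_on (h3 m hm ha) (fun l hl b hb => ?_) (fun x y hx hy => ?_)
      · have hl' : l ∈ S.W := Submodule.span_le.2 (by rintro _ ⟨i, rfl⟩; exact S.x_mem i) hl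
        rw [add_comm, ← mon_mul]
        exact N.smul_mem (S.lin ⟨l, hl'⟩) (ih b hb)
      · rw [mon_add]
        exact add_mem hx hy
  exact fam_induction (P := fun f => f ∈ N) (zero_mem _)
    (fun m a ha => (le_total m m₁).elim (fun h => low m h a ha) fun h => high m h a ha)
    fun f g => add_mem

theorem lbS_fin (h : S.Fg) (D : Div S.W) : Module.Finite S.ring (S.lbS D) := by
  obtain ⟨s, -, hs⟩ := S.lbS_gen h D
  rw [Module.Finite.iff_fg, ← hs]
  exact Submodule.fg_span (s.finite_toSet.image _)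

end Surf

end Vale.Agent.P297Z.Sf
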