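import Vale.Agent.P297Z.Surf.Sk
import Vale.Agent.P297Z.Stmt

/-! The statements of the blocks that compare schemes and models. -/

set_option linter.all false

namespace Vale.Agent.P297Z.Sf

open Vale.Agent.P297 (ClosedPt ZeroCycle Rat)
open Vale.Agent.P299

/-- The dictionary between the scheme `X` and the model `W`; the elements of `W` generate
`O(A)`. -/
structure Dict (X : S.PVar) (A : S.Div X) (W : Submodule ℂ (S.K X))
    (e : Crv W ≃ {y : S.Pt X.X // S.codim y = 1}) (c : Pt W → ClosedPt X.X) : Prop where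
  ring : ∀ C f, f ∈ C.pl.ring ↔ S.Reg f (e C).1
  ord : ∀ C f, f ≠ 0 → C.ord f = S.ord f (e C).1
  surj : Function.Surjective c
  pt : ∀ x f, f ∈ x.ring ↔ S.Reg (X := X) f (c x).1
  sec : ∀ w ∈ W, S.IsSec A w
  gen : ∀ y : S.Pt X.X, ∃ w ∈ W, S.GenAt A w y

/-- An ample divisor has a very ample multiple. -/
def BR1 : Prop := ∀ (X : S.PVar) (A : S.Div X), S.dim X = 2 → S.IsAmple A →
  ∃ (n : ℕ) (W : Submodule ℂ (S.K X)) (e : Crv W ≃ {y : S.Pt X.X // S.codim y = 1})
    (c : Pt W → ClosedPt X.X), 0 < n ∧ IsModel W ∧ Dict X (n • A) W e c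

/-- The canonical divisor and the hyperplane divisor in the dictionary. -/
def BR2 : Prop := ∀ (X : S.PVar) (A : S.Div X) (T : Surf (S.K X)) e c, S.dim X = 2 →
  Dict X A T.W e c → T.Loc → T.Can → ∀ κ : S.Div X, S.IsCanonical κ →
  (∀ C, T.H C = A (e C)) ∧ ∃ g : S.K X, g ≠ 0 ∧ ∀ C, κ (e C) = T.kap C + C.ord g

/-- The vanishing of the irregularity in the dictionary. -/
def BR3 : Prop := ∀ (X : S.PVar) (A : S.Div X) (T : Surf (S.K X)) e c, S.dim X = 2 →
  Dict X A T.W e c → T.Loc → IrregularityZero X → T.Cech1 0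

/-- The classes of the points modulo rational equivalence kill the principal cycles. -/
def RAT : Prop := ∀ (X : S.PVar) (T : Surf (S.K X)) (c : Pt T.W → ClosedPt X.X), T.Loc →
  T.MultPos → (∀ x f, S.Reg (X := X) f (c x).1 → f ∈ x.ring) →
  (∀ x f, S.Van (X := X) f (c x).1 → x.Van f) →
  RatOK fun x => QuotientAddGroup.mk' (Rat X.str) (Finsupp.single (c x) (1 : ℤ))

end Vale.Agent.P297Z.Sf
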