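import Vale.Agent.P297Z.Surf.Spc
import Vale.Agent.P297Z.Surf.Chart
import Vale.Agent.P297Z.K.Tan

/-!
# The homogeneous coordinate ring of a surface: forms, charts and points
-/

set_option linter.all false

noncomputable section

namespace Vale.Agent.P297Z.Sf.SA

open LaurentPolynomial IsLocalRing

variable {K : Type} [Field K] [Algebra ℂ K] {S : Surf K}

theorem mul_mem_pow {m n : ℕ} {a b : K} (ha : a ∈ S.W ^ m) (hb : b ∈ S.W ^ n) :
    a * b ∈ S.W ^ (m + n) := by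
  rw [pow_add]
  exact Submodule.mul_mem_mul ha hb

theorem form_congr {m n : ℕ} {a b : K} (ha : a ∈ S.W ^ m) (hb : b ∈ S.W ^ n) (h : m = n)
    (h' : a = b) : S.form m a ha = S.form n b hb := by
  subst h h'
  rfl

theorem form_mul {m n : ℕ} {a b : K} (ha : a ∈ S.W ^ m) (hb : b ∈ S.W ^ n) :
    S.form m a ha * S.form n b hb = S.form (m + n) (a * b) (mul_mem_pow ha hb) :=
  Subtype.ext ((mon_mul a b m n).trans (by rw [← Nat.cast_add]; rfl))

theorem form_add {n : ℕ} {a b : K} (ha : a ∈ S.W ^ n) (hb : b ∈ S.W ^ n) :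
    S.form n a ha + S.form n b hb = S.form n (a + b) (add_mem ha hb) :=
  Subtype.ext (mon_add a b n).symm

theorem form_smul {n : ℕ} {a : K} (ha : a ∈ S.W ^ n) (c : ℂ) :
    c • S.form n a ha = S.form n (c • a) (Submodule.smul_mem _ c ha) :=
  Subtype.ext (mon_smul c a n).symm

theorem form_zero (n : ℕ) : S.form n 0 (zero_mem _) = 0 := Subtype.ext (mon_zero _)

theorem mem_one (w : S.W) : (w : K) ∈ S.W ^ 1 := by simp

theorem pow_mem (w : S.W) (n : ℕ) : (w : K) ^ n ∈ S.W ^ n := Submodule.pow_mem_pow _ w.2 n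

theorem lin_eq (w : S.W) : S.lin w = S.form 1 w (mem_one w) := rfl

theorem lin_pow (w : S.W) (n : ℕ) : S.lin w ^ n = S.form n (w ^ n) (pow_mem w n) :=
  Subtype.ext ((mon_pow (w : K) 1 n).trans (by rw [mul_one]; rfl))

theorem form_eq_zero {n : ℕ} {a : K} (ha : a ∈ S.W ^ n) : S.form n a ha = 0 ↔ a = 0 :=
  ⟨fun h => by_contra fun h0 => mon_ne_zero h0 n (congrArg Subtype.val h),
    fun h => by subst h; exact form_zero n⟩

/-- the forms of degree `n` -/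
def formL (S : Surf K) (n : ℕ) : (S.W ^ n : Submodule ℂ K) →ₗ[ℂ] S.ring where
  toFun a := S.form n a a.2
  map_add' a b := (form_add a.2 b.2).symm
  map_smul' c a := (form_smul a.2 c).symm

theorem adjoin_lin (S : Surf K) : Algebra.adjoin ℂ (Set.range S.lin) = ⊤ :=
  Set.image_univ ▸ S.adjoin_lin Submodule.span_univ

theorem algHom_ext {A : Type*} [Semiring A] [Algebra ℂ A] {φ ψ : S.ring →ₐ[ℂ] A}
    (h : ∀ w, φ (S.lin w) = ψ (S.lin w)) : φ = ψ :=
  AlgHom.ext_of_adjoin_eq_top (adjoin_lin S) fun _ ⟨w, e⟩ => e ▸ h w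

/-- the dehomogenisation with respect to `w` -/
def deh (S : Surf K) (w : K) (hw : w ≠ 0) : S.ring →ₐ[ℂ] K :=
  (Sf.deh w hw).comp S.ring.val

theorem deh_form {w : K} (hw : w ≠ 0) {n : ℕ} {a : K} (ha : a ∈ S.W ^ n) :
    deh S w hw (S.form n a ha) = a / w ^ n := by
  rw [← zpow_natCast]
  exact deh_mon hw a n

theorem deh_lin {w : K} (hw : w ≠ 0) (a : S.W) : deh S w hw (S.lin a) = a / w := by
  rw [lin_eq, deh_form, pow_one]

theorem deh_mem {w : K} (hw : w ≠ 0) {B : Subalgebra ℂ K} (h : ∀ a ∈ S.W, a / w ∈ B)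
    (r : S.ring) : deh S w hw r ∈ B := by
  induction r using S.ring_induction with
  | h0 => simp
  | hm n a ha => exact deh_form hw ha ▸ pow_div_mem h n a ha
  | ha x y hx hy => exact map_add (deh S w hw) x y ▸ add_mem hx hy

theorem deh_mem_chart {w : K} (hw : w ≠ 0) (r : S.ring) : deh S w hw r ∈ chart S.W w :=
  deh_mem hw (fun _ => div_mem_chart) r

theorem exists_deh {w : K} (hW : w ∈ S.W) (hw : w ≠ 0) {f : K} (hf : f ∈ chart S.W w) :
    ∃ n a ha, deh S w hw (S.form n a ha) = f := by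
  obtain ⟨n, hn⟩ := exists_pow_of_mem_chart hW hw hf
  exact ⟨n, _, hn n le_rfl, by rw [deh_form, mul_div_cancel_right₀ _ (pow_ne_zero n hw)]⟩

/-- modulo `w - c` every element is a form of any large degree -/
theorem exists_form (w : S.W) {c : ℂ} (hc : c ≠ 0) (r : S.ring) : ∃ n₀ : ℕ, ∀ n, n₀ ≤ n →
    ∃ a ha, r - S.form n a ha ∈ Ideal.span {S.lin w - algebraMap ℂ S.ring c} ∧
      ∀ (A : Type) [CommRing A] [Algebra ℂ A] (φ : S.ring →ₐ[ℂ] A),
        φ (S.lin w) = algebraMap ℂ A c → φ (S.form n a ha) = φ r := by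
  suffices h : ∃ n₀ : ℕ, ∀ n, n₀ ≤ n →
      ∃ a ha, r - S.form n a ha ∈ Ideal.span {S.lin w - algebraMap ℂ S.ring c} by
    obtain ⟨n₀, h⟩ := h
    refine ⟨n₀, fun n hn => ?_⟩
    obtain ⟨a, ha, h1⟩ := h n hn
    refine ⟨a, ha, h1, fun A _ _ φ h2 => ?_⟩
    obtain ⟨u, hu⟩ := Ideal.mem_span_singleton'.1 h1
    have h3 := congrArg φ hu
    rw [map_mul, map_sub, h2, AlgHom.commutes, sub_self, mul_zero, map_sub] at h3
    exact (sub_eq_zero.1 h3.symm).symm
  induction r using S.ring_induction with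
  | h0 => exact ⟨0, fun n _ => ⟨0, zero_mem _, by simp [form_zero]⟩⟩
  | hm m a ha =>
    refine ⟨m, fun n hn => ?_⟩
    obtain ⟨k, rfl⟩ := Nat.exists_eq_add_of_le hn
    refine ⟨_, Submodule.smul_mem _ (c ^ k)⁻¹ (mul_mem_pow ha (pow_mem w k)), ?_⟩
    rw [← form_smul (mul_mem_pow ha (pow_mem w k)), ← form_mul ha (pow_mem w k), ← lin_pow]
    have h1 := Ideal.mem_span_singleton.2 (sub_dvd_pow_sub_pow (S.lin w) (algebraMap ℂ S.ring c) k)
    convert Ideal.mul_mem_left _ (-(c ^ k)⁻¹ • S.form m a ha) h1 using 1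
    rw [mul_sub, ← map_pow, mul_comm _ (algebraMap ℂ S.ring _), ← Algebra.smul_def, smul_smul,
      mul_neg, mul_inv_cancel₀ (pow_ne_zero k hc), neg_smul, neg_smul, one_smul,
      ← smul_mul_assoc]
    ring
  | ha x y hx hy =>
    obtain ⟨m, hm⟩ := hx
    obtain ⟨k, hk⟩ := hy
    refine ⟨m + k, fun n hn => ?_⟩
    obtain ⟨a, ha, h1⟩ := hm n (by omega)
    obtain ⟨b, hb, h2⟩ := hk n (by omega)
    refine ⟨_, add_mem ha hb, ?_⟩
    rw [← form_add ha hb, add_sub_add_comm]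
    exact add_mem h1 h2

theorem deh_ker (w : S.W) (hw : (w : K) ≠ 0) :
    RingHom.ker (deh S w hw) = Ideal.span {S.lin w - 1} := by
  have h1 : deh S w hw (S.lin w) = 1 := by rw [deh_lin, div_self hw]
  refine le_antisymm (fun r hr => ?_) (Ideal.span_le.2 fun _ h => ?_)
  · obtain ⟨n, hn⟩ := exists_form w one_ne_zero r
    obtain ⟨a, ha, h2, h3⟩ := hn n le_rfl
    have h4 := h3 K (deh S w hw) (by rw [h1, map_one])
    rw [deh_form, (RingHom.mem_ker).1 hr, div_eq_zero_iff, or_iff_left (pow_ne_zero n hw)] at h4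
    rwa [(form_eq_zero ha).2 h4, sub_zero, map_one] at h2
  · obtain rfl := Set.mem_singleton_iff.1 h
    exact RingHom.mem_ker.2 (by rw [map_sub, h1, map_one, sub_self])

/-! ### points -/

variable (h : S.All)

theorem act_form (g : Unit → ℂˣ) {n : ℕ} {a : K} (ha : a ∈ S.W ^ n) :
    (S.spc h).act g (S.form n a ha) = ((g () : ℂ) ^ n) • S.form n a ha := by
  have h1 := S.actR_form g n a ha
  rwa [chr_unit, zpow_natCast, Units.val_pow_eq_pow_val] at h1

theorem form_mem_wt {n : ℕ} {a : K} (ha : a ∈ S.W ^ n) :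
    S.form n a ha ∈ (S.spc h).wt fun _ => (n : ℤ) := fun g => S.actR_form g n a ha

theorem lin_mem_wt (w : S.W) : S.lin w ∈ (S.spc h).wt fun _ => 1 := form_mem_wt h (mem_one w)

theorem mem_wt {γ : Unit → ℤ} {r : S.ring} : r ∈ (S.spc h).wt γ ↔
    r = 0 ∨ ∃ (n : ℕ) (a : K) (ha : a ∈ S.W ^ n), γ () = n ∧ r = S.form n a ha := by
  constructor
  · intro hr
    have h1 : (r : K[T;T⁻¹]) = mon ((r : K[T;T⁻¹]).coeff (γ ())) (γ ()) :=
      eq_mon_of_scale fun g => by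
        have h2 : scale K g r = chr γ (fun _ => g) • (r : K[T;T⁻¹]) :=
          congrArg Subtype.val (hr fun _ => g)
        rwa [chr_unit] at h2
    have h2 := S.mem_ring.1 r.2 (γ ())
    rcases lt_or_ge (γ ()) 0 with h3 | h3
    · rw [S.Wp_neg h3, Submodule.mem_bot] at h2
      exact Or.inl (Subtype.ext (by rw [h1, h2, mon_zero]; rfl))
    · obtain ⟨n, hn⟩ := Int.eq_ofNat_of_zero_le h3
      rw [hn] at h1 h2
      exact Or.inr ⟨n, _, S.Wp_nat n ▸ h2, hn, Subtype.ext h1⟩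
  · rintro (rfl | ⟨n, a, ha, h1, rfl⟩)
    · exact zero_mem _
    · rw [show γ = fun _ => (n : ℤ) from funext fun _ => h1]
      exact form_mem_wt h ha

theorem pt_iff (z : S.ring →ₐ[ℂ] ℂ) :
    (∃ f ∈ (S.spc h).b, z f ≠ 0) ↔ ∃ w, z (S.lin w) ≠ 0 := exists_span_ne S.lin z

theorem exists_lin (z : (S.spc h).Pt) : ∃ w, z.1 (S.lin w) ≠ 0 := (pt_iff h z.1).1 z.2

include h in
theorem exists_ev (p : Pt S.W) : ∃ φ : p.ring →ₐ[ℂ] ℂ, ∀ f, φ f = 0 ↔ p.Van f := by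
  let e := AlgEquiv.ofBijective (Algebra.ofId ℂ (ResidueField p.ring))
    ⟨RingHom.injective _, fun y => by
      obtain ⟨f, rfl⟩ := residue_surjective y
      obtain ⟨c, hc⟩ := h.val p f f.2
      refine ⟨c, (Ideal.Quotient.eq.2 ?_).symm⟩
      exact (p.mem_max _).2 hc⟩
  exact ⟨e.symm.toAlgHom.comp (IsScalarTower.toAlgHom ℂ _ _), fun f =>
    (map_eq_zero_iff e.symm e.symm.injective).trans ((residue_eq_zero_iff f).trans (p.mem_max f))⟩

/-- the value of a regular function at a point -/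
def ev (p : Pt S.W) : p.ring →ₐ[ℂ] ℂ := (exists_ev h p).choose

theorem ev_eq_zero {p : Pt S.W} (f : p.ring) : ev h p f = 0 ↔ p.Van f :=
  (exists_ev h p).choose_spec f

theorem ev_eq {p : Pt S.W} (f : p.ring) (c : ℂ) :
    ev h p f = c ↔ p.Van ((f : K) - algebraMap ℂ K c) := by
  have h1 := ev_eq_zero h (f - algebraMap ℂ p.ring c)
  rwa [map_sub, AlgHom.commutes, sub_eq_zero] at h1

/-- the dehomogenisation with values in the local ring -/
def dehAt {p : Pt S.W} {w : K} (hw : p.In w) : S.ring →ₐ[ℂ] p.ring :=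
  (deh S w hw.1).codRestrict p.ring (deh_mem hw.1 hw.2)

theorem coe_dehAt {p : Pt S.W} {w : K} (hw : p.In w) (r : S.ring) :
    (dehAt hw r : K) = deh S w hw.1 r := rfl

theorem dehAt_self {p : Pt S.W} {w : S.W} (hw : p.In w) : dehAt hw (S.lin w) = 1 :=
  Subtype.ext ((deh_lin hw.1 w).trans (div_self hw.1))

/-- the point over `p` with `w = 1` -/
def ptAt (p : Pt S.W) (w : S.W) (hw : p.In w) : (S.spc h).Pt :=
  ⟨((ev h p).comp (dehAt hw) : S.ring →ₐ[ℂ] ℂ), (pt_iff h _).2 ⟨w, by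
    change ev h p (dehAt hw (S.lin w)) ≠ 0
    rw [dehAt_self, map_one]
    exact one_ne_zero⟩⟩

theorem ptAt_apply {p : Pt S.W} {w : S.W} (hw : p.In w) (r : S.ring) :
    (ptAt h p w hw).1 r = ev h p (dehAt hw r) := rfl

theorem ptAt_self {p : Pt S.W} {w : S.W} (hw : p.In w) : (ptAt h p w hw).1 (S.lin w) = 1 := by
  rw [ptAt_apply, dehAt_self, map_one]

theorem mem_van_iff {p : Pt S.W} {w : S.W} (hw : p.In w) (a : S.W) :
    (a : K) ∈ van p ↔ p.Van (a / w) := by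
  rw [mem_van, Pt.in_iff hw w.2 a.2, not_not, and_iff_right a.2]

theorem over_ptAt {p : Pt S.W} {w : S.W} (hw : p.In w) : S.Over h (ptAt h p w hw) p := fun a => by
  rw [ptAt_apply, ev_eq_zero, coe_dehAt, deh_lin, mem_van_iff hw]

theorem exists_pt (p : Pt S.W) : ∃ z, S.Over h z p := by
  obtain ⟨w, hw, h1⟩ := p.exists_in
  exact ⟨_, over_ptAt h (w := ⟨w, hw⟩) h1⟩

variable {h} {z z' : (S.spc h).Pt} {p q : Pt S.W}

/-- a point of the cone as a map on the coordinate ring -/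
def hom (z : (S.spc h).Pt) : S.ring →ₐ[ℂ] ℂ := z.1

theorem hom_apply (z : (S.spc h).Pt) (r : S.ring) : hom z r = z.1 r := rfl

theorem over_in (hz : S.Over h z p) (w : S.W) : p.In w ↔ z.1 (S.lin w) ≠ 0 := by
  rw [Ne, hz w, mem_van, and_iff_right w.2, not_not]

theorem over_unique (hp : S.Over h z p) (hq : S.Over h z q) : p = q := by
  by_contra hne
  obtain ⟨w, h1, h2⟩ := h.sep p q hne
  exact (over_in hq ⟨w, h1.1⟩).1 h2 ((hp ⟨w, h1.1⟩).2 h1)

theorem over_of_orb (hz : S.Over h z p) (ho : (S.spc h).Orb z z') : S.Over h z' p :=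
  S.over_stab h p z hz z' ho

theorem act_lin (z : (S.spc h).Pt) (g : Unit → ℂˣ) (w : S.W) :
    z.1 ((S.spc h).act g (S.lin w)) = g () * z.1 (S.lin w) :=
  (congrArg z.1 (S.actR_lin g w)).trans (map_smul z.1 (g () : ℂ) (S.lin w))

theorem hom_prop (y y' : S.ring →ₐ[ℂ] ℂ) (hk : ∀ a, y (S.lin a) = 0 → y' (S.lin a) = 0)
    {w : S.W} (hw : y (S.lin w) ≠ 0) (hw' : y' (S.lin w) ≠ 0) :
    y' = y.comp (S.actR fun _ => Units.mk0 _ (div_ne_zero hw' hw)) := by
  refine algHom_ext fun a => ?_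
  have k : ∀ y₀ : S.ring →ₐ[ℂ] ℂ, y₀ (S.lin (y (S.lin w) • a - y (S.lin a) • w)) =
      y (S.lin w) * y₀ (S.lin a) - y (S.lin a) * y₀ (S.lin w) := fun y₀ => by
    have h1 := map_sub (y₀.toLinearMap ∘ₗ S.linL) (y (S.lin w) • a) (y (S.lin a) • w)
    rwa [map_smul, map_smul] at h1
  have h1 := hk _ ((k y).trans (by ring))
  rw [k y'] at h1
  rw [AlgHom.comp_apply, S.actR_lin, map_smul, Units.val_mk0, smul_eq_mul]
  field_simp
  linear_combination h1

theorem orb_of_over (hz : S.Over h z p) (hz' : S.Over h z' p) : (S.spc h).Orb z z' := by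
  obtain ⟨w, hw⟩ := exists_lin h z
  have hw' := (over_in hz' w).1 ((over_in hz w).2 hw)
  have h1 := hom_prop (hom z) (hom z') (fun a ha => (hz' a).2 ((hz a).1 ha)) hw hw'
  exact ⟨fun _ => Units.mk0 _ (div_ne_zero hw' hw), h1⟩

theorem over_val (hz : S.Over h z p) {w : S.W} (hw : p.In w) {n : ℕ} {a : K} (ha : a ∈ S.W ^ n) :
    z.1 (S.form n a ha) = z.1 (S.lin w) ^ n * ev h p (dehAt hw (S.form n a ha)) := by
  obtain ⟨g, hg⟩ := orb_of_over (over_ptAt h hw) hz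
  have h1 : z.1 (S.lin w) = g () := by
    rw [hg]
    exact (act_lin (ptAt h p w hw) g w).trans (by rw [ptAt_self, mul_one])
  rw [h1, hg]
  exact (congrArg (ptAt h p w hw).1 (act_form h g ha)).trans (map_smul (ptAt h p w hw).1 _ _)

theorem over_form (hz : S.Over h z p) {w : S.W} (hw : p.In w) {n : ℕ} {a : K}
    (ha : a ∈ S.W ^ n) : z.1 (S.form n a ha) = 0 ↔ p.Van (a / w ^ n) := by
  rw [over_val hz hw, mul_eq_zero, or_iff_right (pow_ne_zero n ((over_in hz w).1 hw)), ev_eq_zero,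
    coe_dehAt, deh_form]

theorem form_mem_van {w : S.W} (hw : p.In w) {n : ℕ} {a : K} (ha : a ∈ S.W ^ n) :
    S.form n a ha ∈ (S.spc h).van {z | S.Over h z p} ↔ p.Van (a / w ^ n) :=
  ⟨fun h1 => (over_form (over_ptAt h hw) hw ha).1 (h1 _ (over_ptAt h hw)),
    fun h1 _ hz => (over_form hz hw ha).2 h1⟩

theorem lin_mem_van (w : S.W) : S.lin w ∈ (S.spc h).van {z | S.Over h z p} ↔ (w : K) ∈ van p :=
  ⟨fun h1 => (exists_pt h p).elim fun z hz => (hz w).1 (h1 z hz), fun h1 _ hz => (hz w).2 h1⟩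

theorem exists_of_hom (y : S.ring →ₐ[ℂ] ℂ) {w : S.W} (h1 : y (S.lin w) = 1) :
    ∃ p : Pt S.W, ∀ a : S.W, y (S.lin a) = 0 ↔ (a : K) ∈ van p := by
  have h0 : (w : K) ≠ 0 := fun e => by
    rw [lin_eq, (form_eq_zero _).2 e, map_zero] at h1
    exact zero_ne_one h1
  let φ : S.ring →ₐ[ℂ] chart S.W w := (deh S w h0).codRestrict _ (deh_mem_chart h0)
  have hφ : ∀ r, (φ r : K) = deh S w h0 r := fun _ => rfl
  have h2 : Function.Surjective φ := fun f => by
    obtain ⟨n, a, ha, e⟩ := exists_deh w.2 h0 f.2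
    exact ⟨_, Subtype.ext e⟩
  have h3 : RingHom.ker φ.toRingHom ≤ RingHom.ker y.toRingHom := fun r hr => by
    have h4 : r ∈ RingHom.ker (deh S w h0) := congrArg Subtype.val (RingHom.mem_ker.1 hr)
    rw [deh_ker, Ideal.mem_span_singleton'] at h4
    obtain ⟨u, rfl⟩ := h4
    refine Ideal.mul_mem_left _ _ (RingHom.mem_ker.2 ?_)
    change y (S.lin w - 1) = 0
    rw [map_sub, map_one, h1, sub_self]
  obtain ⟨ψ, h4⟩ : ∃ ψ : chart S.W w →+* ℂ, ∀ r, ψ (φ r) = y r :=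
    ⟨RingHom.liftOfSurjective φ.toRingHom h2 ⟨y.toRingHom, h3⟩, fun r =>
      RingHom.liftOfSurjective_comp_apply _ h2 _ r⟩
  have h5 : (RingHom.ker ψ).IsMaximal := RingHom.ker_isMaximal_of_surjective ψ fun c =>
    ⟨φ (algebraMap ℂ _ c), (h4 _).trans (y.commutes c)⟩
  let p : Pt S.W := ⟨_, w, w.2, h0, _, h5, rfl⟩
  refine ⟨p, fun a => ?_⟩
  have h6 : p.In w := ⟨h0, fun a ha => le_loc _ _ h5.isPrime (div_mem_chart ha)⟩
  have h7 := mem_ctr (le_loc _ _ h5.isPrime) (φ (S.lin a))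
  rw [ctr_loc, hφ, deh_lin] at h7
  rw [mem_van_iff h6, ← h4, ← RingHom.mem_ker, h7]
  exact (and_iff_right (h6.2 a a.2)).symm

theorem exists_over (z : (S.spc h).Pt) : ∃ p, S.Over h z p := by
  obtain ⟨w, hw⟩ := exists_lin h z
  obtain ⟨g, hg⟩ : ∃ g : ℂˣ, (g : ℂ) * z.1 (S.lin w) = 1 := ⟨(Units.mk0 _ hw)⁻¹, by simp [hw]⟩
  have h1 : hom (Spc.mv z fun _ => g) (S.lin w) = 1 := (act_lin z (fun _ => g) w).trans hg
  obtain ⟨p, hp⟩ := exists_of_hom _ h1
  exact ⟨p, over_of_orb (z := Spc.mv z fun _ => g) hp (Spc.orb_mv z _).symm⟩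

theorem exists_frac (hz : S.Over h z p) {f : K} (hf : f ∈ p.ring) : ∃ N₀ : ℕ, ∀ N, N₀ ≤ N →
    ∃ a ∈ S.W ^ N, ∃ (b : K) (hb : b ∈ S.W ^ N), z.1 (S.form N b hb) ≠ 0 ∧ f * b = a := by
  obtain ⟨w, hW, hw⟩ := p.exists_in
  obtain ⟨m, hm, h1, h2⟩ := h.pt_chart p w hW hw
  rw [h1] at hf
  obtain ⟨a, b, hb, e⟩ := hf
  obtain ⟨n₁, h3⟩ := exists_pow_of_mem_chart hW hw.1 a.2
  obtain ⟨n₂, h4⟩ := exists_pow_of_mem_chart hW hw.1 b.2
  refine ⟨n₁ + n₂, fun N hN => ⟨_, h3 N (by omega), _, h4 N (by omega), fun h5 => hb ?_, ?_⟩⟩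
  · rw [over_form hz (w := ⟨w, hW⟩) hw, mul_div_cancel_right₀ _ (pow_ne_zero N hw.1)] at h5
    exact (h2 b).2 h5
  · rw [← mul_assoc, e]

theorem free (h : S.All) : (S.spc h).Free := fun z => by
  obtain ⟨w, hw⟩ := exists_lin h z
  refine eq_top_iff.2 fun γ _ => ?_
  have h1 : γ = γ () • fun _ => (1 : ℤ) := funext fun _ => (mul_one _).symm
  rw [h1]
  exact AddSubgroup.zsmul_mem _ (AddSubgroup.subset_closure (by exact ⟨_, lin_mem_wt h w, hw⟩)) _

end Vale.Agent.P297Z.Sf.SA
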