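import Vale.Agent.P297Z.Surf.SspA2
import Vale.Agent.P297Z.Top.Fin
import Vale.Agent.P297Z.K.AS

noncomputable section

namespace Vale.Agent.P297Z.Sf.SA

variable {K : Type} [Field K] [Algebra ℂ K] {S : Surf K} {h : S.All} {z : (S.spc h).Pt}
  {p : Pt S.W}

theorem ptG_eq (hz : S.Over h z p) : fstar (Mor.cst (Spc.pt Empty) z) (oG _) = S.ptG h p :=
  fstar_pt (isProj h) _ z (fun _ => rfl) (fun _ => ⟨orb_of_over hz, over_of_orb hz⟩) _

theorem chiG_ptG (p : Pt S.W) : chiG _ (S.ptG h p) = 1 := by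
  obtain ⟨z, hz⟩ := exists_pt h p
  rw [← ptG_eq hz, chiG_fstar Spc.isProj_pt (isProj h), chiG_pt_oG]

end Vale.Agent.P297Z.Sf.SA
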