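import Vale.Agent.P297Z.Surf.UnifD
import Mathlib.LinearAlgebra.Dimension.Finrank

/-! Semilinear symmetries of a surface act on points, curves and divisors. -/

set_option linter.all false

namespace Vale.Agent.P297Z.Sf.UA

open Vale.Agent.P297 (Place)

variable {K : Type} [Field K] [Algebra ℂ K] {W : Submodule ℂ K}

/-- A field automorphism which preserves the constants and the linear forms. -/
structure Sym (W : Submodule ℂ K) where
  /-- on the function field -/
  s : K ≃+* K
  /-- on the constants -/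
  t : ℂ ≃+* ℂ
  const : ∀ c, s (algebraMap ℂ K c) = algebraMap ℂ K (t c)
  mem : ∀ a, s a ∈ W ↔ a ∈ W

namespace Sym

variable (g : Sym W)

/-- The inverse. -/
def symm : Sym W where
  s := g.s.symm
  t := g.t.symm
  const c := by rw [RingEquiv.symm_apply_eq, g.const, g.t.apply_symm_apply]
  mem a := by rw [← g.mem, g.s.apply_symm_apply]

theorem chart_map {w f : K} (hf : f ∈ chart W w) : g.s f ∈ chart W (g.s w) := by
  induction hf using Algebra.adjoin_induction with
  | mem x hx =>
    obtain ⟨a, ha, rfl⟩ := hx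
    rw [map_div₀]
    exact div_mem_chart ((g.mem a).2 ha)
  | algebraMap c => rw [g.const]; exact Subalgebra.algebraMap_mem _ _
  | add x y _ _ h1 h2 => rw [map_add]; exact add_mem h1 h2
  | mul x y _ _ h1 h2 => rw [map_mul]; exact mul_mem h1 h2

/-- The preimage of a subalgebra. -/
def sub (A : Subalgebra ℂ K) : Subalgebra ℂ K where
  carrier := {f | g.s f ∈ A}
  mul_mem' := fun h1 h2 => by
    rw [Set.mem_setOf_eq, map_mul]; exact mul_mem h1 h2
  add_mem' := fun h1 h2 => by
    rw [Set.mem_setOf_eq, map_add]; exact add_mem h1 h2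
  algebraMap_mem' c := by
    rw [Set.mem_setOf_eq, g.const]; exact A.algebraMap_mem _

theorem mem_sub {A : Subalgebra ℂ K} {f : K} : f ∈ g.sub A ↔ g.s f ∈ A := Iff.rfl

/-- The restriction of the automorphism. -/
def res {A B : Subalgebra ℂ K} (h : ∀ f, f ∈ A ↔ g.s f ∈ B) : A ≃+* B where
  toFun a := ⟨g.s a, (h a).1 a.2⟩
  invFun b := ⟨g.s.symm b, (h _).2 (by rw [g.s.apply_symm_apply]; exact b.2)⟩
  left_inv a := Subtype.ext (g.s.symm_apply_apply a)
  right_inv b := Subtype.ext (g.s.apply_symm_apply b)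
  map_mul' a b := Subtype.ext (map_mul g.s (a : K) b)
  map_add' a b := Subtype.ext (map_add g.s (a : K) b)

theorem chart_iff (w f : K) : f ∈ chart W (g.s.symm w) ↔ g.s f ∈ chart W w :=
  ⟨fun h => by simpa using g.chart_map h, fun h => by simpa [symm] using g.symm.chart_map h⟩

theorem loc_iff {A B : Subalgebra ℂ K} (h : ∀ f, f ∈ A ↔ g.s f ∈ B) (p : Ideal B)
    (hp : p.IsPrime) (hq : (p.comap (g.res h)).IsPrime) (f : K) :
    f ∈ loc A _ hq ↔ g.s f ∈ loc B p hp := by
  constructor
  · rintro ⟨a, b, hb, e⟩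
    exact ⟨g.res h a, g.res h b, hb, by
      change g.s f * g.s b = g.s a
      rw [← map_mul, e]⟩
  · rintro ⟨a, b, hb, e⟩
    obtain ⟨a, rfl⟩ := (g.res h).surjective a
    obtain ⟨b, rfl⟩ := (g.res h).surjective b
    exact ⟨a, b, hb, g.s.injective (by rw [map_mul]; exact e)⟩

theorem symm_mem {w : K} (hw : w ∈ W) : g.s.symm w ∈ W := (g.symm.mem w).2 hw

/-- The preimage of a point. -/
def pt (x : Pt W) : Pt W where
  ring := g.sub x.ring
  prop := by
    obtain ⟨w, hw, h0, m, hm, h⟩ := x.prop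
    refine ⟨g.s.symm w, g.symm_mem hw, by simpa using h0, m.comap (g.res (g.chart_iff w)),
      Ideal.comap_isMaximal_of_surjective _ (g.res _).surjective, ?_⟩
    ext f
    rw [mem_sub, h, g.loc_iff _ m hm.isPrime]

/-- The preimage of a place. -/
def pl (v : Place K) : Place K where
  ring := v.ring.comap g.s
  dvr := by
    let e : v.ring ≃+* v.ring.comap (g.s : K →+* K) :=
      { toFun := fun b => ⟨g.s.symm b, by simp⟩
        invFun := fun a => ⟨g.s a, a.2⟩
        left_inv := fun b => Subtype.ext (g.s.apply_symm_apply b)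
        right_inv := fun a => Subtype.ext (g.s.symm_apply_apply a)
        map_mul' := fun a b => Subtype.ext (map_mul g.s.symm (a : K) b)
        map_add' := fun a b => Subtype.ext (map_add g.s.symm (a : K) b) }
    exact IsDiscreteValuationRing.RingEquivClass.isDiscreteValuationRing e

theorem mem_pl {v : Place K} {f : K} : f ∈ (g.pl v).ring ↔ g.s f ∈ v.ring := Iff.rfl

theorem pl_ord (v : Place K) (f : K) : (g.pl v).ord f = v.ord (g.s f) := by
  obtain ⟨π, h0, h1⟩ := Pl.exists_ord_eq_one (g.pl v)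
  have key : ∀ f : K, f ≠ 0 → v.ord (g.s f) = (g.pl v).ord f * v.ord (g.s π) := by
    intro f hf
    have hp : π ^ (g.pl v).ord f ≠ 0 := zpow_ne_zero _ h0
    have e : (g.pl v).ord (f / π ^ (g.pl v).ord f) = 0 := by
      rw [Pl.ord_div _ hf hp, Pl.ord_zpow, h1]; ring
    obtain ⟨e1, e2⟩ := (Pl.ord_eq_zero_iff _ (div_ne_zero hf hp)).1 e
    rw [mem_pl] at e1 e2
    rw [map_inv₀] at e2
    have e3 := Pl.ord_unit v e1 e2
    rw [map_div₀, map_zpow₀, Pl.ord_div _ (by simpa using hf)
      (zpow_ne_zero _ (by simpa using h0)), Pl.ord_zpow] at e3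
    linarith
  obtain ⟨ϖ, k0, k1⟩ := Pl.exists_ord_eq_one v
  have k2 := key (g.s.symm ϖ) (by simpa using k0)
  rw [g.s.apply_symm_apply, k1] at k2
  have k3 : 0 ≤ v.ord (g.s π) :=
    Pl.ord_nonneg_of_mem _ (g.mem_pl.1 ((Pl.ord_nonneg_iff _ h0).1 (by omega)))
  have k4 : v.ord (g.s π) = 1 := Int.eq_one_of_mul_eq_one_left k3 k2.symm
  by_cases hf : f = 0
  · simp [hf]
  · rw [key f hf, k4, mul_one]

/-- The preimage of a curve. -/
def crv (C : Crv W) : Crv W where
  pl := g.pl C.pl
  prop := by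
    obtain ⟨w, hw, h0, p, hp, hm, h⟩ := C.prop
    refine ⟨g.s.symm w, g.symm_mem hw, by simpa using h0, p.comap (g.res (g.chart_iff w)),
      Ideal.comap_isPrime _ _, fun hc => hm ?_, fun f => by rw [mem_pl, h, g.loc_iff _ p hp]⟩
    have := Ideal.comap_isMaximal_of_surjective (g.res (g.chart_iff w)).symm
      (g.res _).symm.surjective (K := p.comap (g.res (g.chart_iff w)))
    rwa [show (p.comap (g.res (g.chart_iff w))).comap (g.res (g.chart_iff w)).symm = p by
      ext a
      rw [Ideal.mem_comap, Ideal.mem_comap, RingEquiv.apply_symm_apply]] at this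

/-- The permutation of the points. -/
def ptE : Pt W ≃ Pt W where
  toFun := g.pt
  invFun := g.symm.pt
  left_inv x := Pt.ext (by ext f; simp [pt, mem_sub, symm])
  right_inv x := Pt.ext (by ext f; simp [pt, mem_sub, symm])

/-- The permutation of the curves. -/
def crvE : Crv W ≃ Crv W where
  toFun := g.crv
  invFun := g.symm.crv
  left_inv C := Crv.ext (Pl.ext' (by ext f; simp [crv, mem_pl, symm]))
  right_inv C := Crv.ext (Pl.ext' (by ext f; simp [crv, mem_pl, symm]))

theorem on_iff (x : Pt W) (C : Crv W) : (g.pt x).On (g.crvE C) ↔ x.On C :=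
  ⟨fun h f hf => by
    have := h (g.s.symm f) (show g.s (g.s.symm f) ∈ x.ring by simpa using hf)
    change g.s (g.s.symm f) ∈ C.pl.ring at this
    simpa using this, fun h f hf => h _ hf⟩

theorem crv_ord (C : Crv W) (f : K) : (g.crvE C).ord f = C.ord (g.s f) := g.pl_ord C.pl f

/-- The action on divisors. -/
noncomputable def dv (D : Div W) : Div W := Finsupp.equivMapDomain g.crvE D

theorem dv_apply (D : Div W) (C : Crv W) : g.dv D (g.crvE C) = D C := by simp [dv]

theorem mult_eq (x : Pt W) (D D' : Div W) : mult (g.pt x) (g.dv D) (g.dv D') = mult x D D' := by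
  let e : (g.pt x).ring ≃+* x.ring := g.res fun _ => Iff.rfl
  have k : ∀ D : Div W, idl x D = (idl (g.pt x) (g.dv D)).map (e : _ →+* _) := by
    intro D
    rw [Ideal.map_comap_of_equiv]
    ext f
    obtain ⟨f, rfl⟩ := e.surjective f
    rw [Ideal.mem_comap, e.symm_apply_apply, mem_idl, mem_idl]
    change (g.s f = 0 ∨ _) ↔ (_ ∨ _)
    refine or_congr (by simp) ?_
    refine (g.crvE.forall_congr fun C => ?_)
    rw [g.on_iff, g.crv_ord, Finsupp.neg_apply, Finsupp.neg_apply, g.dv_apply]
    rfl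
  refine Algebra.finrank_eq_of_equiv_equiv g.t
    (Ideal.quotientEquiv _ _ e (by rw [Ideal.map_sup, ← k, ← k])) ?_
  ext c
  simp only [RingEquiv.toRingHom_eq_coe, RingHom.coe_comp, RingHom.coe_coe, Function.comp_apply]
  rw [← Ideal.Quotient.mk_algebraMap, ← Ideal.Quotient.mk_algebraMap, Ideal.quotientEquiv_mk]
  exact congrArg _ (Subtype.ext (g.const c).symm)

theorem ratOK (hf : ∀ f : K, (Function.support fun C : Crv W => C.ord f).Finite) {Q : Type}
    [AddCommGroup Q] {c : Pt W → Q} (h : RatOK c) : RatOK fun x => c (g.pt x) := by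
  intro C D D' f h1 h2 h3 h4 h5 h6
  have p : ∀ {D : Div W}, 0 ≤ D → 0 ≤ g.dv D := fun h C => by
    obtain ⟨C, rfl⟩ := g.crvE.surjective C
    rw [g.dv_apply]; exact h C
  have k := h (g.crvE C) (g.dv D) (g.dv D') (g.s.symm f) (p h1) (p h2) (by rw [g.dv_apply, h3])
    (by rw [g.dv_apply, h4]) (by simpa using h5) (by
      ext C'
      obtain ⟨C', rfl⟩ := g.crvE.surjective C'
      rw [Finsupp.sub_apply, g.dv_apply, g.dv_apply, ← Finsupp.sub_apply, ← h6, Sf.div, Sf.div,
        toDiv_apply (hf _), toDiv_apply (hf _), g.crv_ord, g.s.apply_symm_apply])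
  rw [show Finsupp.single (g.crvE C) (1 : ℤ) = g.dv (Finsupp.single C 1) by simp [dv],
    ← finsum_comp_equiv g.ptE, ← finsum_comp_equiv g.ptE (f := fun x => mult x _ (g.dv D') • c x)]
    at k
  simpa only [ptE, Equiv.coe_fn_mk, g.mult_eq] using k

end Sym

end Vale.Agent.P297Z.Sf.UA
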