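import Vale.Agent.P297Z.Surf.Sk

/-! The statement of the conjugation of generic points. -/

set_option linter.all false

namespace Vale.Agent.P297Z.Sf

/-- Generic points have the same order. -/
def UNIFA : Prop := ForAll fun {K} _ _ S => S.Loc → ∀ y : Pt S.W, ∃ A : Set K, A.Countable ∧
  (∀ a ∈ A, a ≠ 0 ∧ a ∈ chart S.W (S.x 0)) ∧
  ∀ z z' : Pt S.W, z.In (S.x 0) → z'.In (S.x 0) → (∀ a ∈ A, ¬ z.Van a) → (∀ a ∈ A, ¬ z'.Van a) →
    ∀ n : ℕ, (∀ (Q : Type) [AddCommGroup Q] (c : Pt S.W → Q), RatOK c → n • (c z - c y) = 0) →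
      ∀ (Q : Type) [AddCommGroup Q] (c : Pt S.W → Q), RatOK c → n • (c z' - c y) = 0

end Vale.Agent.P297Z.Sf
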